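import Vale.Agent.P172V.ADefs

/-!
# P172V: row A0T
-/

set_option linter.all false

namespace Vale.Agent.P172V

namespace A0T

variable {S : Type} {ω : Om S} {z z' : S × S × S}

theorem blab_core (φ : Fl) (h : φ = k0 (home φ) ∨ (φ ≠ k0 (home φ) ∧ φ = k1 (home φ)))
    (z : S × S × S) : blab ω z φ = core ω z φ := by
  rcases h with h | ⟨h1, h⟩
  · rw [blab, qlab, if_pos h, qkey, ← h]
  · rw [blab, qlab, if_neg h1, if_pos h, qkey, ← h]

theorem key_eq (φ : Fl) (h : φ = k0 (home φ) ∨ (φ ≠ k0 (home φ) ∧ φ = k1 (home φ)))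
    (h1 : blab ω z φ = blab ω z' φ) : core ω z φ = core ω z' φ := by
  rwa [blab_core φ h, blab_core φ h] at h1

theorem nk_eq (φ : Fl) (h : φ ≠ k0 (home φ) ∧ φ ≠ k1 (home φ))
    (h0 : core ω z (k0 (home φ)) = core ω z' (k0 (home φ))) (h1 : blab ω z φ = blab ω z' φ) :
    core ω z (k1 (home φ)) = core ω z' (k1 (home φ)) := by
  rw [blab, blab, qlab, qlab, if_neg h.1, if_neg h.2, if_neg h.1, if_neg h.2] at h1
  change ω.1 (.inl (home φ, φ, core ω z (k0 (home φ)))) (core ω z (k1 (home φ))) =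
    ω.1 (.inl (home φ, φ, core ω z' (k0 (home φ)))) (core ω z' (k1 (home φ))) at h1
  rw [h0] at h1
  exact (ω.1 _).injective h1

theorem L2 (h1 : core ω z .vc' = core ω z' .vc') (h2 : core ω z .vc = core ω z' .vc)
    (h3 : core ω z .vd' = core ω z' .vd') : z = z' := Prod.ext h1 (Prod.ext h2 h3)

theorem L3 (h1 : core ω z .vc' = core ω z' .vc') (h2 : core ω z .vc = core ω z' .vc)
    (h3 : core ω z .vu = core ω z' .vu) : z = z' := by
  obtain ⟨a, b, c⟩ := z
  obtain ⟨a', b', c'⟩ := z'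
  obtain rfl : a = a' := h1
  obtain rfl : b = b' := h2
  obtain rfl : c = c' := (ω.1 (.inr (true, a, b))).injective h3
  rfl

theorem L1 (h1 : core ω z .vu = core ω z' .vu) (h2 : core ω z .va = core ω z' .va)
    (h3 : core ω z .vb = core ω z' .vb) : z = z' := by
  have h4 : ω.2.1 (lu ω z) (z.1, z.2.1) = ω.2.1 (lu ω z') (z'.1, z'.2.1) := Prod.ext h2 h3
  have h5 : lu ω z = lu ω z' := h1
  rw [h5] at h4
  have h6 := Prod.mk.inj ((ω.2.1 _).injective h4)
  exact L3 h6.1 h6.2 h1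

theorem L4 (h1 : core ω z .vc' = core ω z' .vc') (h2 : core ω z .vd' = core ω z' .vd')
    (h3 : core ω z .vd = core ω z' .vd) : z = z' := by
  obtain ⟨a, b, c⟩ := z
  obtain ⟨a', b', c'⟩ := z'
  obtain rfl : a = a' := h1
  obtain rfl : c = c' := h2
  obtain rfl : b = b' := (ω.1 (.inr (false, a, c))).injective h3
  rfl

theorem L5 (h1 : core ω z .t1e = core ω z' .t1e) (h2 : core ω z .t1e' = core ω z' .t1e')
    (h3 : core ω z .z5 = core ω z' .z5) : z = z' :=
  (ω.2.2 true).injective (Prod.ext h1 (Prod.ext h2 h3))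

theorem L6 (h1 : core ω z .t2f = core ω z' .t2f) (h2 : core ω z .t2f' = core ω z' .t2f')
    (h3 : core ω z .z6 = core ω z' .z6) : z = z' :=
  (ω.2.2 false).injective (Prod.ext h1 (Prod.ext h2 h3))

theorem inj (p : Ro × Fl) (hp : p ∈ vtypes) (h0 : core ω z (k0 p.1) = core ω z' (k0 p.1))
    (h1 : core ω z (k1 p.1) = core ω z' (k1 p.1)) (h2 : blab ω z p.2 = blab ω z' p.2) :
    z = z' := by
  simp only [vtypes, Finset.mem_insert, Finset.mem_singleton] at hp
  rcases hp with rfl | rfl | rfl | rfl | rfl | rfl | rfl | rfl | rfl | rfl | rfl | rfl | rfl |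
    rfl | rfl | rfl | rfl
  · exact L1 h0 (key_eq .va (by decide) h2) h1
  · exact L1 h0 (nk_eq .t1u (by decide) h0 h2) h1
  · exact L1 h0 h1 (key_eq .vb (by decide) h2)
  · exact L1 h0 h1 (nk_eq .t2u (by decide) h0 h2)
  · exact L1 h0 h1 (nk_eq .wa (by decide) h1 h2)
  · exact L2 h0 h1 (nk_eq .w'c' (by decide) h0 h2)
  · exact L2 h0 h1 (key_eq .vd' (by decide) h2)
  · exact L3 h0 h1 (key_eq .vu (by decide) h2)
  · exact L2 h0 (key_eq .vc (by decide) h2) h1
  · exact L4 h0 h1 (key_eq .vd (by decide) h2)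
  · exact L2 h0 (nk_eq .s3c' (by decide) h0 h2) h1
  · exact L2 h0 (nk_eq .r3c' (by decide) h0 h2) h1
  · exact L4 h0 h1 (nk_eq .s4d' (by decide) h1 h2)
  · exact L4 h0 h1 (nk_eq .r4d' (by decide) h1 h2)
  · exact L4 (key_eq .vc' (by decide) h2) h0 h1
  · exact L5 h0 (key_eq .t1e' (by decide) h2) h1
  · exact L6 h0 (key_eq .t2f' (by decide) h2) h1

end A0T

theorem stmtA0T : StmtA0T := by
  intro S _ ω p hp
  rw [Fintype.bijective_iff_injective_and_card]
  constructor
  · intro z z' h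
    have h1 := Prod.mk.inj h
    have h2 := Prod.mk.inj h1.1
    exact A0T.inj p hp h2.1 h2.2 h1.2
  · simp only [Fintype.card_prod]
    ring

end Vale.Agent.P172V
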