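import Vale.Agent.P172V.ADefs

/-!
# P172V: keys and labels are equidistributed (row A0U)
-/

set_option linter.all false

namespace Vale.Agent.P172V

open Finset

namespace A0UH

lemma fib {Z A B : Type} [Finite Z] [Fintype B] (f : Z → A) (g : Z → B)
    (h : Function.Bijective fun z => (f z, g z)) (a : A) :
    {z | f z = a}.ncard = Fintype.card B := by
  rw [← Nat.card_eq_fintype_card, ← Set.ncard_univ]
  refine Set.ncard_congr (fun z _ => g z) (fun _ _ => Set.mem_univ _) ?_ ?_
  · intro z z' hz hz' e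
    exact h.1 (Prod.ext (hz.trans hz'.symm) e)
  · intro b _
    obtain ⟨z, hz⟩ := h.2 (a, b)
    exact ⟨z, congrArg Prod.fst hz, congrArg Prod.snd hz⟩

variable {S : Type} (ω : Om S)

/-- a third coordinate for each role -/
def third (r : Ro) (z : S × S × S) : S :=
  match r with
  | .q1 => core ω z .vb | .q2 => core ω z .va | .cc => core ω z .vu
  | .q3 => z.2.2 | .q4 => z.1 | .cc' => z.2.1
  | .q5 => core ω z .z5 | .q6 => core ω z .z6
  | .d5 => core ω z .t1e' | .d6 => core ω z .t2f'

lemma inj_uab {z z' : S × S × S} (h1 : core ω z .vu = core ω z' .vu)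
    (h2 : core ω z .va = core ω z' .va) (h3 : core ω z .vb = core ω z' .vb) : z = z' := by
  obtain ⟨a, b, c⟩ := z
  obtain ⟨a', b', c'⟩ := z'
  simp only [core] at h1 h2 h3
  rw [h1] at h2 h3
  have h4 := (ω.2.1 _).injective (Prod.ext h2 h3)
  simp only [Prod.mk.injEq] at h4
  obtain ⟨rfl, rfl⟩ := h4
  simp only [lu] at h1
  rw [(ω.1 _).injective h1]

lemma inj_third (r : Ro) : Function.Injective fun z => (qkey ω r z, third ω r z) := by
  intro z z' h
  simp only [Prod.mk.injEq, qkey] at h
  obtain ⟨⟨h1, h2⟩, h3⟩ := h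
  cases r
  · exact inj_uab ω h1 h2 h3
  · exact inj_uab ω h1 h3 h2
  · exact inj_uab ω h3 h1 h2
  · exact Prod.ext h1 (Prod.ext h2 h3)
  · obtain ⟨a, b, c⟩ := z
    obtain ⟨a', b', c'⟩ := z'
    simp only [k0, k1, core, third] at h1 h2 h3
    subst h1 h3
    rw [(ω.1 _).injective h2]
  · exact Prod.ext h1 (Prod.ext h3 h2)
  · exact (ω.2.2 true).injective (Prod.ext h1 (Prod.ext h2 h3))
  · exact (ω.2.2 false).injective (Prod.ext h1 (Prod.ext h2 h3))
  · exact (ω.2.2 true).injective (Prod.ext h1 (Prod.ext h3 h2))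
  · exact (ω.2.2 false).injective (Prod.ext h1 (Prod.ext h3 h2))

lemma bij_third [Fintype S] (r : Ro) :
    Function.Bijective fun z => (qkey ω r z, third ω r z) :=
  (Fintype.bijective_iff_injective_and_card _).2 ⟨inj_third ω r, by
    simp only [Fintype.card_prod, mul_assoc]⟩

/-- a second coordinate for each slot -/
def snd' (r : Ro) (φ : Fl) (κ : S × S) : S := if φ = k0 r then κ.2 else κ.1

lemma inj_lab (r : Ro) (φ : Fl) :
    Function.Injective fun κ : S × S => (qlab ω r κ φ, snd' r φ κ) := by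
  rintro ⟨a, b⟩ ⟨a', b'⟩ h
  simp only [Prod.mk.injEq, qlab, snd'] at h
  obtain ⟨h1, h2⟩ := h
  by_cases c0 : φ = k0 r
  · simp only [if_pos c0] at h1 h2
    rw [h1, h2]
  · simp only [if_neg c0] at h1 h2
    subst h2
    by_cases c1 : φ = k1 r
    · simp only [if_pos c1] at h1
      rw [h1]
    · simp only [if_neg c1] at h1
      rw [(ω.1 _).injective h1]

end A0UH

open A0UH

theorem stmtA0U : StmtA0U := by
  intro S _ ω
  refine ⟨fun r κ => fib _ _ (bij_third ω r) κ, fun φ s => ?_⟩
  have h : Function.Bijective fun z => (blab ω z φ,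
      (snd' (home φ) φ (qkey ω (home φ) z), third ω (home φ) z)) := by
    refine (Fintype.bijective_iff_injective_and_card _).2 ⟨fun z z' h => ?_, rfl⟩
    simp only [Prod.mk.injEq] at h
    exact inj_third ω (home φ) (Prod.ext (inj_lab ω (home φ) φ (Prod.ext h.1 h.2.1)) h.2.2)
  rw [fib _ _ h s, Fintype.card_prod, sq]

end Vale.Agent.P172V
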