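import Vale.Agent.P172V.ADefs

/-!
# P172V: families of random permutations (row A1)
-/

set_option linter.all false

namespace Vale.Agent.P172V

open Finset

namespace A1H

lemma step {A B : Type} [Fintype A] [Fintype B] [DecidableEq A] [DecidableEq B]
    (F : Finset (A × B)) (T : Finset B) (p : A × B) (hp : p ∉ F) :
    (univ.filter fun π : A → Equiv.Perm B => ∀ q ∈ insert p F, π q.1 q.2 ∈ T).card *
      (Fintype.card B - F.card) ≤
    (univ.filter fun π : A → Equiv.Perm B => ∀ q ∈ F, π q.1 q.2 ∈ T).card * T.card := by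
  set G : Finset B := univ.filter fun b => (p.1, b) ∉ F with hG
  have hGc : Fintype.card B - F.card ≤ G.card := by
    have h1 := Finset.card_filter_add_card_filter_not (s := (univ : Finset B))
      (fun b => (p.1, b) ∈ F)
    have h2 : (univ.filter fun b => (p.1, b) ∈ F).card ≤ F.card :=
      Finset.card_le_card_of_injOn (fun b => (p.1, b)) (fun b hb => (mem_filter.1 hb).2)
        fun b _ b' _ h => congrArg Prod.snd h
    rw [Finset.card_univ, ← hG] at h1
    omega
  refine (Nat.mul_le_mul_left _ hGc).trans ?_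
  rw [← Finset.card_product, ← Finset.card_product]
  refine Finset.card_le_card_of_injOn
    (fun x => (Function.update x.1 p.1 (x.1 p.1 * Equiv.swap p.2 x.2), x.1 p.1 p.2)) ?_ ?_
  · rintro ⟨π, b⟩ hx
    obtain ⟨h1, h2⟩ := Finset.mem_product.1 hx
    have h1 := (mem_filter.1 h1).2
    have h2 := (mem_filter.1 h2).2
    refine Finset.mem_product.2 ⟨mem_filter.2 ⟨mem_univ _, fun q hq => ?_⟩,
      h1 p (Finset.mem_insert_self _ _)⟩
    have h3 := h1 q (Finset.mem_insert_of_mem hq)
    by_cases ha : q.1 = p.1
    · simp only [ha, Function.update_self, Equiv.Perm.mul_apply]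
      rw [Equiv.swap_apply_of_ne_of_ne, ← ha]
      · exact h3
      · intro h; exact hp (by rw [← show q = p from Prod.ext ha h]; exact hq)
      · intro h; exact h2 (by rw [← show q = (p.1, b) from Prod.ext ha h]; exact hq)
    · simp only [Function.update_of_ne ha]; exact h3
  · rintro ⟨π, b⟩ _ ⟨π', b'⟩ _ h
    simp only [Prod.mk.injEq] at h
    obtain ⟨h1, h2⟩ := h
    have h3 := congrFun h1 p.1
    simp only [Function.update_self] at h3
    have h4 : b = b' := by
      have e1 : (π p.1 * Equiv.swap p.2 b) b = π p.1 p.2 := by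
        rw [Equiv.Perm.mul_apply, Equiv.swap_apply_right]
      have e2 : (π' p.1 * Equiv.swap p.2 b') b' = π' p.1 p.2 := by
        rw [Equiv.Perm.mul_apply, Equiv.swap_apply_right]
      rw [← h3, ← h2, ← e1] at e2
      exact ((π p.1 * Equiv.swap p.2 b).injective e2).symm
    subst h4
    have h5 : π p.1 = π' p.1 := mul_right_cancel h3
    refine Prod.ext (funext fun a => ?_) rfl
    by_cases ha : a = p.1
    · rw [ha]; exact h5
    · have := congrFun h1 a
      simpa only [Function.update_of_ne ha] using this

end A1H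

theorem stmtA1' : StmtA1 := by
  classical
  intro A B _ _ F T
  have key : ∀ F : Finset (A × B), {π : A → Equiv.Perm B | ∀ p ∈ F, π p.1 p.2 ∈ T}.ncard =
      (univ.filter fun π : A → Equiv.Perm B => ∀ q ∈ F, π q.1 q.2 ∈ T).card := by
    intro F
    rw [← Set.ncard_coe_finset]; congr 1; ext π; simp
  induction F using Finset.induction_on with
  | empty =>
    intro _
    rw [Finset.card_empty, pow_zero, one_mul]
    exact_mod_cast Set.ncard_le_card _
  | insert p F hp ih =>
    intro h
    rw [Finset.card_insert_of_notMem hp] at h ⊢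
    have ih' := ih (by omega)
    have h1 := A1H.step F T p hp
    rw [← key, ← key] at h1
    have hB : (0 : ℝ) < Fintype.card B := by exact_mod_cast (by omega : 0 < Fintype.card B)
    have h2 : {π : A → Equiv.Perm B | ∀ q ∈ insert p F, π q.1 q.2 ∈ T}.ncard * Fintype.card B ≤
        {π : A → Equiv.Perm B | ∀ q ∈ F, π q.1 q.2 ∈ T}.ncard * (2 * T.card) := by
      have : Fintype.card B ≤ 2 * (Fintype.card B - F.card) := by omega
      calc _ ≤ _ * (2 * (Fintype.card B - F.card)) := Nat.mul_le_mul_left _ this
        _ = 2 * (_ * (Fintype.card B - F.card)) := by ring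
        _ ≤ 2 * (_ * T.card) := Nat.mul_le_mul_left _ h1
        _ = _ := by ring
    have h3 : (({π : A → Equiv.Perm B | ∀ q ∈ insert p F, π q.1 q.2 ∈ T}.ncard : ℕ) : ℝ) ≤
        ({π : A → Equiv.Perm B | ∀ q ∈ F, π q.1 q.2 ∈ T}.ncard : ℕ) *
          (2 * T.card / Fintype.card B) := by
      rw [← mul_div_assoc, le_div_iff₀ hB]
      exact_mod_cast h2
    refine h3.trans ((mul_le_mul_of_nonneg_right ih' (by positivity)).trans (le_of_eq ?_))
    ring

end Vale.Agent.P172V
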