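import Vale.Agent.P172V.ADefs

/-!
# P172V: the first moment (row A2)
-/

set_option linter.all false

namespace Vale.Agent.P172V

open Finset

namespace A2H

lemma ncard_fib {α β : Type} [Finite α] [Finite β] (E : Set (α × β)) (A : Set α) (b : ℝ)
    (h1 : ∀ x ∈ E, x.1 ∈ A) (h2 : ∀ a ∈ A, ({y | (a, y) ∈ E}.ncard : ℝ) ≤ b) :
    (E.ncard : ℝ) ≤ A.ncard * b := by
  classical
  haveI := Fintype.ofFinite α
  haveI := Fintype.ofFinite β
  rw [Set.ncard_eq_toFinset_card' E, Set.ncard_eq_toFinset_card' A,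
    Finset.card_eq_sum_card_fiberwise (s := E.toFinset) (t := A.toFinset) (f := Prod.fst)
      (fun x hx => by simpa using h1 x (by simpa using hx))]
  push_cast
  rw [← nsmul_eq_mul, ← Finset.sum_const]
  refine Finset.sum_le_sum fun a ha => le_trans (le_of_eq ?_) (h2 a (by simpa using ha))
  rw [Set.ncard_eq_toFinset_card']
  congr 1
  refine Finset.card_nbij' Prod.snd (fun y => (a, y)) ?_ ?_ ?_ ?_
  · rintro ⟨x, y⟩ hx
    simp only [coe_filter, Set.mem_toFinset, Set.mem_setOf_eq] at hx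
    obtain ⟨hx, rfl⟩ := hx
    simpa using hx
  · intro y hy
    simpa using hy
  · rintro ⟨x, y⟩ hx
    simp only [coe_filter, Set.mem_toFinset, Set.mem_setOf_eq] at hx
    obtain ⟨hx, rfl⟩ := hx
    rfl
  · intro y _; rfl

lemma ncard_cover {α ι : Type} [Finite α] (E : Set α) (I : Finset ι) (F : ι → Set α)
    (h : ∀ x ∈ E, ∃ i ∈ I, x ∈ F i) : (E.ncard : ℝ) ≤ ∑ i ∈ I, ((F i).ncard : ℝ) := by
  classical
  haveI := Fintype.ofFinite α
  simp only [Set.ncard_eq_toFinset_card']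
  have : E.toFinset.card ≤ ∑ i ∈ I, (F i).toFinset.card :=
    (Finset.card_le_card fun x hx => by
      obtain ⟨i, hi, hx'⟩ := h x (by simpa using hx)
      exact Finset.mem_biUnion.2 ⟨i, hi, by simpa using hx'⟩).trans Finset.card_biUnion_le
  exact_mod_cast this

/-- non-key slots -/
def nk (r : Ro) : Finset Fl := (slots r).filter fun φ => φ ≠ k0 r ∧ φ ≠ k1 r

lemma nk_card : ∀ r, (nk r).card = cst r := by decide +kernel

lemma cst_le : ∀ r, cst r ≤ 4 := by decide +kernel

lemma key_mem : ∀ r, k0 r ∈ slots r ∧ k1 r ∈ slots r ∧ k1 r ≠ k0 r := by decide +kernel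

end A2H

open A2H

theorem stmtA2_of (h1 : StmtA1) : StmtA2 := by
  classical
  intro S _ L QQ BB hN
  set N := Fintype.card S with hNdef
  set x : ℝ := 2 * L.card / N with hx
  have hx0 : 0 ≤ x := by positivity
  set Fa : Finset (((Ro × Fl × S) ⊕ (Bool × S × S)) × S) :=
    (QQ.sigma fun q => nk q.1).image fun t => (Sum.inl (t.1.1, t.2, t.1.2.1), t.1.2.2) with hFa
  set Fb : Finset (((Ro × Fl × S) ⊕ (Bool × S × S)) × S) :=
    BB.image fun z => (Sum.inr (true, z.1, z.2.1), z.2.2) with hFb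
  set Fc : Finset (((Ro × Fl × S) ⊕ (Bool × S × S)) × S) :=
    BB.image fun z => (Sum.inr (false, z.1, z.2.2), z.2.1) with hFc
  have ca : Fa.card = ∑ q ∈ QQ, cst q.1 := by
    rw [hFa, Finset.card_image_of_injective, Finset.card_sigma]
    · exact Finset.sum_congr rfl fun q _ => nk_card q.1
    · rintro ⟨⟨r, a, b⟩, φ⟩ ⟨⟨r', a', b'⟩, φ'⟩ h
      simp only [Prod.mk.injEq, Sum.inl.injEq] at h
      obtain ⟨⟨rfl, rfl, rfl⟩, rfl⟩ := h
      rfl
  have cb : Fb.card = BB.card := by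
    rw [hFb, Finset.card_image_of_injective]
    rintro ⟨a, b, c⟩ ⟨a', b', c'⟩ h
    simp only [Prod.mk.injEq, Sum.inr.injEq] at h
    obtain ⟨⟨_, rfl, rfl⟩, rfl⟩ := h
    rfl
  have cc : Fc.card = BB.card := by
    rw [hFc, Finset.card_image_of_injective]
    rintro ⟨a, b, c⟩ ⟨a', b', c'⟩ h
    simp only [Prod.mk.injEq, Sum.inr.injEq] at h
    obtain ⟨⟨_, rfl, rfl⟩, rfl⟩ := h
    rfl
  have c1 : (Fa ∪ (Fb ∪ Fc)).card = ∑ q ∈ QQ, cst q.1 + 2 * BB.card := by
    rw [Finset.card_union_of_disjoint, Finset.card_union_of_disjoint, ca, cb, cc]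
    · ring
    · rw [Finset.disjoint_left]
      intro p hp hp'
      obtain ⟨z, _, rfl⟩ := Finset.mem_image.1 hp
      obtain ⟨z', _, h⟩ := Finset.mem_image.1 hp'
      simp at h
    · rw [Finset.disjoint_left]
      intro p hp hp'
      obtain ⟨z, _, rfl⟩ := Finset.mem_image.1 hp
      rcases Finset.mem_union.1 hp' with hp' | hp'
      · obtain ⟨z', _, h⟩ := Finset.mem_image.1 hp'
        simp at h
      · obtain ⟨z', _, h⟩ := Finset.mem_image.1 hp'
        simp at h
  have hc4 : ∑ q ∈ QQ, cst q.1 ≤ 4 * QQ.card := by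
    have := Finset.sum_le_card_nsmul QQ (fun q => cst q.1) 4 fun q _ => cst_le q.1
    rw [smul_eq_mul] at this; omega
  have hNN : N ≤ N * N := Nat.le_mul_self N
  have hNNN : N ≤ N * (N * N) := by
    rcases Nat.eq_zero_or_pos N with h | h
    · omega
    · exact Nat.le_mul_of_pos_right _ (Nat.mul_pos h h)
  have e1 := h1 _ S (Fa ∪ (Fb ∪ Fc)) L (by rw [c1]; omega)
  rw [c1] at e1
  have e3 := h1 Bool (S × S × S) (univ ×ˢ BB) (L ×ˢ L ×ˢ L) (by
    simp only [Finset.card_product, Finset.card_univ, Fintype.card_bool, Fintype.card_prod, ← hNdef]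
    omega)
  simp only [Finset.card_product, Finset.card_univ, Fintype.card_bool, Fintype.card_prod,
    ← hNdef] at e3
  have b3 : (2 * ((L.card * (L.card * L.card) : ℕ) : ℝ) / ((N * (N * N) : ℕ) : ℝ)) ^ (2 * BB.card) ≤
      x ^ (6 * BB.card) := by
    rw [show 6 * BB.card = 3 * (2 * BB.card) by ring, pow_mul x]
    refine pow_le_pow_left₀ (by positivity) ?_ _
    rw [hx, div_pow]
    push_cast
    rw [show (N : ℝ) * (N * N) = N ^ 3 by ring]
    refine div_le_div_of_nonneg_right ?_ (by positivity)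
    have : (0 : ℝ) ≤ L.card * (L.card * L.card) := by positivity
    nlinarith
  have b2 : (2 * ((L.card * L.card : ℕ) : ℝ) / ((N * N : ℕ) : ℝ)) ^ BB.card ≤ x ^ (2 * BB.card) := by
    rw [pow_mul x]
    refine pow_le_pow_left₀ (by positivity) ?_ _
    rw [hx, div_pow]
    push_cast
    rw [show (N : ℝ) * N = N ^ 2 by ring]
    refine div_le_div_of_nonneg_right ?_ (by positivity)
    have : (0 : ℝ) ≤ L.card * L.card := by positivity
    nlinarith
  refine (ncard_fib _ {π | ∀ p ∈ Fa ∪ (Fb ∪ Fc), π p.1 p.2 ∈ L}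
    ((x ^ (2 * BB.card) * Nat.card (S → Equiv.Perm (S × S))) *
      (x ^ (6 * BB.card) * Nat.card (Bool → Equiv.Perm (S × S × S)))) ?_ ?_).trans ?_
  · intro ω hω p hp
    obtain ⟨g1, g2⟩ := hω
    rcases Finset.mem_union.1 hp with hp | hp
    · obtain ⟨t, ht, rfl⟩ := Finset.mem_image.1 hp
      obtain ⟨t1, t2⟩ := Finset.mem_sigma.1 ht
      obtain ⟨t2, t3, t4⟩ := Finset.mem_filter.1 t2
      have := g1 _ t1 _ t2
      rwa [qlab, if_neg t3, if_neg t4] at this
    · rcases Finset.mem_union.1 hp with hp | hp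
      · obtain ⟨z, hz, rfl⟩ := Finset.mem_image.1 hp
        exact (g2 z hz .q1).1
      · obtain ⟨z, hz, rfl⟩ := Finset.mem_image.1 hp
        exact (g2 z hz .q4).2
  · intro π _
    set F2 : Finset (S × S × S) :=
      BB.image fun z => (π (.inr (true, z.1, z.2.1)) z.2.2, z.1, z.2.1) with hF2
    have c2 : F2.card = BB.card := by
      rw [hF2, Finset.card_image_of_injective]
      rintro ⟨a, b, c⟩ ⟨a', b', c'⟩ h
      simp only [Prod.mk.injEq] at h
      obtain ⟨h, rfl, rfl⟩ := h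
      rw [(π _).injective h]
    have e2 := h1 S (S × S) F2 (L ×ˢ L) (by
      simp only [c2, Fintype.card_prod, ← hNdef]; omega)
    simp only [c2, Finset.card_product, Fintype.card_prod, ← hNdef] at e2
    refine (ncard_fib _ {θ : S → Equiv.Perm (S × S) | ∀ p ∈ F2, θ p.1 p.2 ∈ L ×ˢ L}
      (x ^ (6 * BB.card) * Nat.card (Bool → Equiv.Perm (S × S × S))) ?_ ?_).trans ?_
    · intro y hy p hp
      obtain ⟨z, hz, rfl⟩ := Finset.mem_image.1 hp
      exact Finset.mem_product.2 (hy.2 z hz .cc)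
    · intro θ _
      refine le_trans ?_ (e3.trans (mul_le_mul_of_nonneg_right b3 (by positivity)))
      refine Nat.cast_le.2 (Set.ncard_le_ncard ?_)
      rintro Θ hΘ ⟨b, z⟩ hp
      have hz := (Finset.mem_product.1 hp).2
      cases b
      · exact Finset.mem_product.2 ⟨(hΘ.2 z hz .q6).1, Finset.mem_product.2
          ⟨(hΘ.2 z hz .q6).2, (hΘ.2 z hz .d6).2⟩⟩
      · exact Finset.mem_product.2 ⟨(hΘ.2 z hz .q5).1, Finset.mem_product.2
          ⟨(hΘ.2 z hz .q5).2, (hΘ.2 z hz .d5).2⟩⟩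
    · exact mul_le_mul_of_nonneg_right (e2.trans (mul_le_mul_of_nonneg_right b2 (by positivity)))
        (by positivity)
  · refine (mul_le_mul_of_nonneg_right e1 (by positivity)).trans (le_of_eq ?_)
    rw [Nat.card_prod, Nat.card_prod]
    push_cast
    ring

end Vale.Agent.P172V
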