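import Vale.Agent.P172V.A2

/-!
# P172V: sparsity (row A3)
-/

set_option linter.all false

namespace Vale.Agent.P172V

open Finset

namespace A2H

lemma cnt_small (S : Type) [Fintype S] [DecidableEq S] (m : ℕ) (hN : 1 ≤ Fintype.card S) :
    ∑ L ∈ (univ : Finset (Finset S)).filter (fun L => L.card ≤ m),
      1 / (Fintype.card S : ℝ) ^ L.card ≤ m + 1 := by
  have hN' : (0 : ℝ) < Fintype.card S := by exact_mod_cast hN
  rw [← Finset.sum_fiberwise_of_maps_to (t := range (m + 1)) (g := fun L => L.card)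
    (fun L hL => Finset.mem_range.2 (by have := (mem_filter.1 hL).2; omega))]
  calc _ ≤ ∑ l ∈ range (m + 1), (1 : ℝ) := Finset.sum_le_sum fun l _ => ?_
    _ = m + 1 := by simp
  have h1 : ∀ L ∈ ((univ : Finset (Finset S)).filter (fun L => L.card ≤ m)).filter
      (fun L => L.card = l), 1 / (Fintype.card S : ℝ) ^ L.card = 1 / (Fintype.card S : ℝ) ^ l :=
    fun L hL => by rw [(mem_filter.1 hL).2]
  rw [Finset.sum_congr rfl h1, Finset.sum_const, nsmul_eq_mul, mul_one_div,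
    div_le_one (by positivity)]
  have h2 : (((univ : Finset (Finset S)).filter (fun L => L.card ≤ m)).filter
      (fun L => L.card = l)).card ≤ Fintype.card S ^ l := by
    refine le_trans (Finset.card_le_card (t := powersetCard l univ) fun L hL => ?_) ?_
    · exact Finset.mem_powersetCard.2 ⟨Finset.subset_univ _, (mem_filter.1 hL).2⟩
    · rw [Finset.card_powersetCard, Finset.card_univ]; exact Nat.choose_le_pow _ _
  exact_mod_cast h2

lemma thin_cnt (V : Type) [Fintype V] (M : ℕ) (hM : 1 ≤ M) (W : Finset V) :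
    ({η : V → Fin M | ∀ v ∈ W, (η v).val = 0}.ncard : ℝ) =
      (1 / (M : ℝ)) ^ W.card * Nat.card (V → Fin M) := by
  classical
  haveI : NeZero M := ⟨by omega⟩
  have h1 : {η : V → Fin M | ∀ v ∈ W, (η v).val = 0} =
      ↑(Fintype.piFinset fun v => if v ∈ W then ({0} : Finset (Fin M)) else univ) := by
    ext η
    simp only [Set.mem_setOf_eq, Finset.mem_coe, Fintype.mem_piFinset]
    refine forall_congr' fun v => ?_
    by_cases hv : v ∈ W <;> simp [hv]
  have hM' : (M : ℝ) ≠ 0 := by exact_mod_cast (by omega : M ≠ 0)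
  rw [h1, Set.ncard_coe_finset, Fintype.card_piFinset, Nat.card_eq_fintype_card, Fintype.card_fun,
    Fintype.card_fin]
  push_cast
  have h2 : ∀ v : V, (((if v ∈ W then ({0} : Finset (Fin M)) else univ).card : ℕ) : ℝ) =
      (if v ∈ W then 1 / (M : ℝ) else 1) * M := by
    intro v; split_ifs <;> simp [hM']
  simp only [h2]
  rw [Finset.prod_mul_distrib, Finset.prod_ite_mem, Finset.univ_inter, Finset.prod_const,
    Finset.prod_const, Finset.card_univ]

lemma slots_le : ∀ r, (slots r).card ≤ 6 := by decide +kernel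

lemma card_Ro : Fintype.card Ro = 10 := by decide +kernel

lemma key_lab {S : Type} (ω : Om S) (r : Ro) (κ : S × S) :
    qlab ω r κ (k0 r) = κ.1 ∧ qlab ω r κ (k1 r) = κ.2 := by
  refine ⟨by rw [qlab, if_pos rfl], ?_⟩
  rw [qlab, if_neg (key_mem r).2.2, if_pos rfl]

end A2H

open A2H

theorem stmtA3_of (h2 : StmtA2) : StmtA3 := by
  intro n K hn
  obtain ⟨c1, hc1⟩ : ∃ c1 : ℕ, c1 = (2 * (6 * K + 2)) ^ (10 * K) := ⟨_, rfl⟩
  obtain ⟨c2, hc2⟩ : ∃ c2 : ℕ, c2 = 2 ^ (10 * (6 * K + 2) ^ 2) * 2 ^ ((6 * K + 2) ^ 3) := ⟨_, rfl⟩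
  refine ⟨4 * (c1 * c2 * (6 * K + 1)) + 8 * K + 1, fun M hM S _ _ s0 s1 hS => ?_⟩
  set N := Fintype.card S with hNdef
  have hM1 : 1 ≤ M := by omega
  have hMN : M ≤ N := by rw [hS]; exact Nat.le_self_pow (by omega) M
  have hMR : (0 : ℝ) < M := by exact_mod_cast hM1
  have hNR : (0 : ℝ) < N := by exact_mod_cast hM1.trans hMN
  obtain ⟨T, hT⟩ : ∃ T : ℝ, T = ((Nat.card (Om S × (Var S → Fin M)) : ℕ) : ℝ) := ⟨_, rfl⟩
  have hT0 : 0 ≤ T := hT ▸ Nat.cast_nonneg _
  set LL : Finset S → Finset S := fun L => insert s0 (insert s1 L) with hLL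
  have hLc : ∀ L : Finset S, (LL L).card ≤ L.card + 2 := fun L =>
    (Finset.card_insert_le _ _).trans (Nat.succ_le_succ (Finset.card_insert_le _ _))
  set J : Finset S → Finset (Finset (Ro × S × S) × Finset (S × S × S)) := fun L =>
    (((univ ×ˢ LL L ×ˢ LL L).powerset ×ˢ (LL L ×ˢ LL L ×ˢ LL L).powerset).filter fun p =>
      p.1.card + p.2.card ≤ K ∧ n * L.card + 1 ≤
        n * (∑ q ∈ p.1, cst q.1 + 10 * p.2.card) + (p.1.card + p.2.card)) with hJ
  set W : Finset (Ro × S × S) × Finset (S × S × S) → Finset (Var S) := fun p =>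
    p.1.disjSum p.2 with hW
  have hcov := ncard_cover
    {x : Om S × (Var S → Fin M) | ¬ (mkData x.1 x.2).Sparse s0 s1 n K}
    (((univ : Finset (Finset S)).filter (fun L => L.card ≤ 6 * K)).sigma J)
    (fun i => {x | Ev x.1 (LL i.1) i.2.1 i.2.2 ∧ ∀ v ∈ W i.2, (x.2 v).val = 0}) (by
      rintro ⟨ω, η⟩ hx
      simp only [Set.mem_setOf_eq, Data.Sparse, not_forall, not_le] at hx
      obtain ⟨QQ, BB, a1, a2, a3, a4, a5⟩ := hx
      set L := (mkData ω η).labels QQ \ {s0, s1} with hL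
      have hsub : ∀ s ∈ (mkData ω η).labels QQ, s ∈ LL L := by
        intro s hs
        simp only [hLL, hL, Finset.mem_insert, Finset.mem_sdiff, Finset.mem_singleton]
        tauto
      have hq : ∀ q ∈ QQ, ∀ φ ∈ slots q.1, qlab ω q.1 q.2 φ ∈ LL L := fun q hq φ hφ =>
        hsub _ (Finset.mem_biUnion.2 ⟨q, hq, Finset.mem_image.2 ⟨φ, hφ, rfl⟩⟩)
      have hk : ∀ q ∈ QQ, q.2.1 ∈ LL L ∧ q.2.2 ∈ LL L := fun q h =>
        ⟨(key_lab ω q.1 q.2).1 ▸ hq q h _ (key_mem q.1).1,
          (key_lab ω q.1 q.2).2 ▸ hq q h _ (key_mem q.1).2.1⟩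
      have hb : ∀ z ∈ BB, ∀ r, (qkey ω r z).1 ∈ LL L ∧ (qkey ω r z).2 ∈ LL L := fun z hz r =>
        hk _ (a3 z hz r)
      have hc : L.card ≤ 6 * K := by
        refine (Finset.card_le_card Finset.sdiff_subset).trans (Finset.card_biUnion_le.trans ?_)
        have := Finset.sum_le_card_nsmul QQ (fun q => ((slots q.1).image
          ((mkData ω η).ql q.1 q.2)).card) 6 fun q _ => Finset.card_image_le.trans (slots_le q.1)
        rw [smul_eq_mul] at this
        omega
      refine ⟨⟨L, QQ, BB⟩, Finset.mem_sigma.2 ⟨mem_filter.2 ⟨mem_univ _, hc⟩, mem_filter.2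
        ⟨Finset.mem_product.2 ⟨Finset.mem_powerset.2 fun q h => ?_,
          Finset.mem_powerset.2 fun z h => ?_⟩, a4, ?_⟩⟩, ⟨hq, hb⟩, ?_⟩
      · exact Finset.mem_product.2 ⟨mem_univ _, Finset.mem_product.2 (hk q h)⟩
      · exact Finset.mem_product.2 ⟨(hb z h .q3).1, Finset.mem_product.2
          ⟨(hb z h .q3).2, (hb z h .q4).1⟩⟩
      · show n * L.card + 1 ≤ n * (∑ q ∈ QQ, cst q.1 + 10 * BB.card) + (QQ.card + BB.card)
        rw [mul_assoc, mul_assoc] at a5
        omega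
      · intro v hv
        rcases Finset.mem_disjSum.1 hv with ⟨q, h, rfl⟩ | ⟨z, h, rfl⟩
        · exact a1 q h
        · exact (a2 z h).1)
  have hterm : ∀ L ∈ (univ : Finset (Finset S)).filter (fun L => L.card ≤ 6 * K), ∀ p ∈ J L,
      (({x : Om S × (Var S → Fin M) | Ev x.1 (LL L) p.1 p.2 ∧
        ∀ v ∈ W p, (x.2 v).val = 0}.ncard : ℕ) : ℝ) ≤ c1 * T / M * (1 / (N : ℝ) ^ L.card) := by
    intro L hL p hp
    obtain ⟨_, b1, b2⟩ := mem_filter.1 hp
    have hL' := (mem_filter.1 hL).2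
    set c := ∑ q ∈ p.1, cst q.1 + 10 * p.2.card with hc
    have hcK : c ≤ 10 * K := by
      have := Finset.sum_le_card_nsmul p.1 (fun q => cst q.1) 4 fun q _ => cst_le q.1
      rw [smul_eq_mul] at this; omega
    have e1 := h2 S (LL L) p.1 p.2 (by omega)
    rw [← hc, ← hNdef] at e1
    have e2 := thin_cnt (Var S) M hM1 (W p)
    have e3 : (W p).card = p.1.card + p.2.card := Finset.card_disjSum _ _
    rw [e3] at e2
    refine (ncard_fib _ {ω | Ev ω (LL L) p.1 p.2}
      ((1 / (M : ℝ)) ^ (p.1.card + p.2.card) * Nat.card (Var S → Fin M))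
      (fun x hx => hx.1) (fun ω _ => ?_)).trans ?_
    · rw [← e2]
      exact Nat.cast_le.2 (Set.ncard_le_ncard fun η hη => hη.2)
    refine (mul_le_mul_of_nonneg_right e1 (by positivity)).trans ?_
    have f1 : (2 * ((LL L).card : ℝ)) ^ c ≤ c1 := by
      have : (2 * (LL L).card) ^ c ≤ c1 := hc1 ▸
        (Nat.pow_le_pow_left (by have := hLc L; omega) c).trans
          (Nat.pow_le_pow_right (by omega) hcK)
      exact_mod_cast this
    have f2 : (M : ℝ) * (N : ℝ) ^ L.card ≤ (N : ℝ) ^ c * (M : ℝ) ^ (p.1.card + p.2.card) := by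
      have : M * N ^ L.card ≤ N ^ c * M ^ (p.1.card + p.2.card) := by
        rw [hS, ← pow_mul, ← pow_mul, ← pow_add, ← pow_succ']
        exact Nat.pow_le_pow_right hM1 b2
      exact_mod_cast this
    calc _ = (2 * ((LL L).card : ℝ)) ^ c * T /
          ((N : ℝ) ^ c * (M : ℝ) ^ (p.1.card + p.2.card)) := by
          rw [hT, Nat.card_prod (Om S) (Var S → Fin M), div_pow, div_pow, one_pow]; push_cast; field_simp
      _ ≤ c1 * T / ((M : ℝ) * (N : ℝ) ^ L.card) := by gcongr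
      _ = _ := by field_simp
  have hJc : ∀ L ∈ (univ : Finset (Finset S)).filter (fun L => L.card ≤ 6 * K),
      ((J L).card : ℝ) ≤ c2 := by
    intro L hL
    have hL' := (mem_filter.1 hL).2
    have g1 : (LL L).card ≤ 6 * K + 2 := by have := hLc L; omega
    have : (J L).card ≤ c2 := by
      refine (Finset.card_filter_le _ _).trans ?_
      simp only [Finset.card_product, Finset.card_powerset, Finset.card_univ, card_Ro, hc2]
      refine Nat.mul_le_mul (Nat.pow_le_pow_right (by omega) ?_)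
        (Nat.pow_le_pow_right (by omega) ?_)
      · rw [sq]; gcongr
      · rw [pow_succ', sq]; gcongr
    exact_mod_cast this
  rw [Finset.sum_sigma] at hcov
  have hfin : (({x : Om S × (Var S → Fin M) | ¬ (mkData x.1 x.2).Sparse s0 s1 n K}.ncard : ℕ) : ℝ) ≤
      c2 * (c1 * T / M) * ((6 * K : ℕ) + 1) := by
    refine hcov.trans (le_trans (Finset.sum_le_sum fun L hL =>
      (Finset.sum_le_card_nsmul _ _ _ (hterm L hL)).trans (show _ ≤ c2 * (c1 * T / M) *
        (1 / (N : ℝ) ^ L.card) from ?_)) ?_)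
    · rw [nsmul_eq_mul, mul_assoc (c2 : ℝ)]
      exact mul_le_mul_of_nonneg_right (hJc L hL) (by positivity)
    · rw [← Finset.mul_sum]
      exact mul_le_mul_of_nonneg_left (cnt_small S (6 * K) (by omega)) (by positivity)
  have hM4 : (4 : ℝ) * (c1 * c2 * ((6 * K : ℕ) + 1)) ≤ M := by
    have : 4 * (c1 * c2 * (6 * K + 1)) ≤ M := by omega
    exact_mod_cast this
  have : (4 : ℝ) * (c2 * (c1 * T / M) * ((6 * K : ℕ) + 1)) ≤ T := by
    calc _ = (4 * (c1 * c2 * ((6 * K : ℕ) + 1)) / M) * T := by field_simp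
      _ ≤ 1 * T := by gcongr; rwa [div_le_one hMR]
      _ = T := one_mul T
  have h4 : (4 : ℝ) * (({x : Om S × (Var S → Fin M) |
      ¬ (mkData x.1 x.2).Sparse s0 s1 n K}.ncard : ℕ) : ℝ) ≤ T := by linarith
  rw [hT] at h4
  exact_mod_cast h4

end Vale.Agent.P172V
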