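import Vale.Agent.P172V.A3

/-!
# P172V: few pairs of seeds share two keys (row A4), and the assembly of part A (row A7)
-/

set_option linter.all false

namespace Vale.Agent.P172V

open Finset

namespace A2H

/-- the key flags -/
def KF : Finset Fl := univ.image k0 ∪ univ.image k1

lemma KF_card : KF.card = 13 := by decide +kernel

lemma KF_diff : ∀ r r', r ≠ r' → (KF \ {k0 r, k1 r, k0 r', k1 r'}).card ≤ 10 := by decide +kernel

lemma KF_mem : ∀ r, k0 r ∈ KF ∧ k1 r ∈ KF := by decide +kernel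

lemma pair_cover {S : Type} [DecidableEq S] (ω : Om S) (p : (S × S × S) × (S × S × S))
    (hp : p ∈ pairs ω) : ∃ L : Finset S, L.card ≤ 23 ∧ Ev ω L ∅ {p.1, p.2} := by
  obtain ⟨_, r, r', hr, h1, h2⟩ := hp
  refine ⟨KF.image (core ω p.1) ∪ (KF \ {k0 r, k1 r, k0 r', k1 r'}).image (core ω p.2), ?_,
    by simp, ?_⟩
  · refine (Finset.card_union_le _ _).trans ?_
    have a1 := Finset.card_image_le (s := KF) (f := core ω p.1)
    have a2 := Finset.card_image_le (s := KF \ {k0 r, k1 r, k0 r', k1 r'}) (f := core ω p.2)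
    have := KF_card
    have := KF_diff r r' hr
    omega
  · have e1 : ∀ φ ∈ KF, core ω p.1 φ ∈ KF.image (core ω p.1) ∪
        (KF \ {k0 r, k1 r, k0 r', k1 r'}).image (core ω p.2) := fun φ h =>
      Finset.mem_union_left _ (Finset.mem_image_of_mem _ h)
    have e2 : ∀ φ ∈ KF, core ω p.2 φ ∈ KF.image (core ω p.1) ∪
        (KF \ {k0 r, k1 r, k0 r', k1 r'}).image (core ω p.2) := by
      intro φ h
      by_cases hφ : φ ∈ ({k0 r, k1 r, k0 r', k1 r'} : Finset Fl)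
      · have : core ω p.2 φ = core ω p.1 φ := by
          simp only [Finset.mem_insert, Finset.mem_singleton] at hφ
          rcases hφ with rfl | rfl | rfl | rfl
          · exact (congrArg Prod.fst h1).symm
          · exact (congrArg Prod.snd h1).symm
          · exact (congrArg Prod.fst h2).symm
          · exact (congrArg Prod.snd h2).symm
        rw [this]; exact e1 φ h
      · exact Finset.mem_union_right _ (Finset.mem_image_of_mem _ (Finset.mem_sdiff.2 ⟨h, hφ⟩))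
    intro z hz s
    simp only [Finset.mem_insert, Finset.mem_singleton] at hz
    rcases hz with rfl | rfl
    · exact ⟨e1 _ (KF_mem s).1, e1 _ (KF_mem s).2⟩
    · exact ⟨e2 _ (KF_mem s).1, e2 _ (KF_mem s).2⟩

lemma markov {α β : Type} [Finite α] [Finite β] (X : α → Set β) (t : ℕ) :
    ({a | t < (X a).ncard}.ncard : ℝ) * t ≤ ({x : α × β | x.2 ∈ X x.1}.ncard : ℝ) := by
  classical
  haveI := Fintype.ofFinite α
  haveI := Fintype.ofFinite β
  have h1 : {x : α × β | x.2 ∈ X x.1}.ncard = ∑ a, (X a).ncard := by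
    rw [Set.ncard_eq_toFinset_card',
      Finset.card_eq_sum_card_fiberwise (t := univ) (f := Prod.fst) (fun x _ => mem_univ _)]
    refine Finset.sum_congr rfl fun a _ => ?_
    rw [Set.ncard_eq_toFinset_card']
    refine Finset.card_nbij' Prod.snd (fun y => (a, y)) ?_ ?_ ?_ ?_
    · rintro ⟨x, y⟩ hx
      simp only [coe_filter, Set.mem_toFinset, Set.mem_setOf_eq] at hx
      obtain ⟨hx, rfl⟩ := hx
      simpa using hx
    · intro y hy
      simpa using hy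
    · rintro ⟨x, y⟩ hx
      simp only [coe_filter, Set.mem_toFinset, Set.mem_setOf_eq] at hx
      obtain ⟨hx, rfl⟩ := hx
      rfl
    · intro y _; rfl
  have h2 : {a | t < (X a).ncard}.ncard * t ≤ ∑ a, (X a).ncard := by
    rw [Set.ncard_eq_toFinset_card']
    refine le_trans ?_ (Finset.sum_le_sum_of_subset
      (Finset.subset_univ {a | t < (X a).ncard}.toFinset))
    have := Finset.card_nsmul_le_sum {a | t < (X a).ncard}.toFinset (fun a => (X a).ncard) t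
      fun a ha => le_of_lt (by simpa using ha)
    rwa [smul_eq_mul] at this
  rw [h1]
  exact_mod_cast h2

end A2H

open A2H

theorem stmtA4_of (h2 : StmtA2) : StmtA4 := by
  classical
  obtain ⟨c, hc⟩ : ∃ c : ℕ, c = 24 * 23 ^ 6 * 46 ^ 20 := ⟨_, rfl⟩
  refine ⟨4 * c, fun S _ hS => ?_⟩
  set N := Fintype.card S with hN
  have hNR : (0 : ℝ) < N := by exact_mod_cast (by omega : 0 < N)
  have hN1 : (1 : ℝ) ≤ N := by exact_mod_cast (by omega : 1 ≤ N)
  obtain ⟨T, hT⟩ : ∃ T : ℝ, T = ((Nat.card (Om S) : ℕ) : ℝ) := ⟨_, rfl⟩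
  have hT0 : 0 ≤ T := hT ▸ Nat.cast_nonneg _
  set J : Finset S → Finset ((S × S × S) × (S × S × S)) := fun L =>
    ((L ×ˢ L ×ˢ L) ×ˢ (L ×ˢ L ×ˢ L)).filter fun p => p.1 ≠ p.2 with hJ
  have hcov := ncard_cover {x : Om S × ((S × S × S) × (S × S × S)) | x.2 ∈ pairs x.1}
    (((univ : Finset (Finset S)).filter (fun L => L.card ≤ 23)).sigma J)
    (fun i => {x | Ev x.1 i.1 ∅ {i.2.1, i.2.2} ∧ x.2 = i.2}) (by
      rintro ⟨ω, p⟩ hx
      obtain ⟨L, a1, a2⟩ := pair_cover ω p hx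
      have a3 : ∀ z ∈ ({p.1, p.2} : Finset (S × S × S)), z ∈ L ×ˢ L ×ˢ L := fun z h =>
        Finset.mem_product.2 ⟨(a2.2 z h .q3).1, Finset.mem_product.2
          ⟨(a2.2 z h .q3).2, (a2.2 z h .q4).1⟩⟩
      exact ⟨⟨L, p⟩, Finset.mem_sigma.2 ⟨mem_filter.2 ⟨mem_univ _, a1⟩, mem_filter.2
        ⟨Finset.mem_product.2 ⟨a3 _ (by simp), a3 _ (by simp)⟩, hx.1⟩⟩, a2, rfl⟩)
  have hterm : ∀ L ∈ (univ : Finset (Finset S)).filter (fun L => L.card ≤ 23), ∀ p ∈ J L,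
      (({x : Om S × ((S × S × S) × (S × S × S)) | Ev x.1 L ∅ {p.1, p.2} ∧ x.2 = p}.ncard : ℕ) : ℝ) ≤
        46 ^ 20 * N ^ 3 * T * (1 / (N : ℝ) ^ L.card) := by
    intro L hL p hp
    have hL' := (mem_filter.1 hL).2
    have b1 : ({p.1, p.2} : Finset (S × S × S)).card = 2 := Finset.card_pair (mem_filter.1 hp).2
    have e1 := h2 S L ∅ {p.1, p.2} (by rw [b1, Finset.card_empty]; omega)
    rw [b1, Finset.sum_empty, ← hN, ← hT] at e1
    refine (ncard_fib _ {ω | Ev ω L ∅ {p.1, p.2}} 1 (fun x hx => hx.1) (fun ω _ => ?_)).trans ?_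
    · have : {y | (ω, y) ∈ {x : Om S × ((S × S × S) × (S × S × S)) |
          Ev x.1 L ∅ {p.1, p.2} ∧ x.2 = p}}.ncard ≤ ({p} : Set _).ncard :=
        Set.ncard_le_ncard fun y hy => hy.2
      rw [Set.ncard_singleton] at this
      exact_mod_cast this
    rw [mul_one]
    refine e1.trans ?_
    have f1 : (2 * (L.card : ℝ)) ≤ 46 := by
      have : (L.card : ℝ) ≤ 23 := by exact_mod_cast hL'
      linarith
    have f2 : (N : ℝ) ^ L.card ≤ N ^ 23 := pow_le_pow_right₀ hN1 hL'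
    calc _ ≤ (46 / (N : ℝ)) ^ 20 * T := by gcongr
      _ = 46 ^ 20 * N ^ 3 * T * (1 / (N : ℝ) ^ 23) := by rw [div_pow]; field_simp
      _ ≤ _ := by gcongr
  have hJc : ∀ L ∈ (univ : Finset (Finset S)).filter (fun L => L.card ≤ 23),
      ((J L).card : ℝ) ≤ 23 ^ 6 := by
    intro L hL
    have hL' := (mem_filter.1 hL).2
    have : (J L).card ≤ 23 ^ 6 := by
      refine (Finset.card_filter_le _ _).trans ?_
      simp only [Finset.card_product]
      calc _ ≤ (23 * (23 * 23)) * (23 * (23 * 23)) := by gcongr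
        _ = _ := by norm_num
    exact_mod_cast this
  rw [Finset.sum_sigma] at hcov
  have hfin : (({x : Om S × ((S × S × S) × (S × S × S)) | x.2 ∈ pairs x.1}.ncard : ℕ) : ℝ) ≤
      23 ^ 6 * (46 ^ 20 * N ^ 3 * T) * ((23 : ℕ) + 1) := by
    refine hcov.trans (le_trans (Finset.sum_le_sum fun L hL =>
      (Finset.sum_le_card_nsmul _ _ _ (hterm L hL)).trans (show _ ≤ 23 ^ 6 * (46 ^ 20 * N ^ 3 * T) *
        (1 / (N : ℝ) ^ L.card) from ?_)) ?_)
    · rw [nsmul_eq_mul, mul_assoc ((23 : ℝ) ^ 6)]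
      exact mul_le_mul_of_nonneg_right (hJc L hL) (by positivity)
    · rw [← Finset.mul_sum]
      exact mul_le_mul_of_nonneg_left (cnt_small S 23 (by omega)) (by positivity)
  have hm := (markov (fun ω : Om S => pairs ω) (4 * c * N ^ 3)).trans hfin
  have hcR : (c : ℝ) = 24 * 23 ^ 6 * 46 ^ 20 := by rw [hc]; norm_num
  have h4 : (4 : ℝ) * (({ω : Om S | 4 * c * N ^ 3 < (pairs ω).ncard}.ncard : ℕ) : ℝ) ≤ T := by
    refine le_of_mul_le_mul_right ?_ (show (0 : ℝ) < c * N ^ 3 by rw [hcR]; positivity)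
    refine le_trans (le_of_eq ?_) (hm.trans (le_of_eq ?_))
    · push_cast; ring
    · rw [hcR]; push_cast; ring
  rw [hT] at h4
  exact_mod_cast h4

theorem stmtA_of (h3 : StmtA3) (h4 : StmtA4) (h6 : StmtA6) : StmtA := by
  intro k ε hε
  obtain ⟨n, hn, h6⟩ := h6 k ε hε
  refine ⟨n, hn, fun K => ?_⟩
  obtain ⟨C, h4⟩ := h4
  obtain ⟨M1, h6⟩ := h6 C
  obtain ⟨M2, h3⟩ := h3 n K hn
  set M := M1 + M2 + 16 with hM
  have hN : M ≤ M ^ n := Nat.le_self_pow (by omega) M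
  set s0 : Fin (M ^ n) := ⟨0, by omega⟩
  set s1 : Fin (M ^ n) := ⟨1, by omega⟩
  have a3 := h3 M (by omega) (Fin (M ^ n)) s0 s1 (Fintype.card_fin _)
  have a4 := h4 (Fin (M ^ n)) (by rw [Fintype.card_fin]; omega)
  have a6 := h6 M (by omega) (Fin (M ^ n)) (Fintype.card_fin _)
  haveI : Nonempty (Fin M) := ⟨⟨0, by omega⟩⟩
  by_contra hcon
  obtain ⟨T1, hT1⟩ : ∃ T : ℝ, T = ((Nat.card (Om (Fin (M ^ n))) : ℕ) : ℝ) := ⟨_, rfl⟩
  obtain ⟨T2, hT2⟩ : ∃ T : ℝ, T = ((Nat.card (Var (Fin (M ^ n)) → Fin M) : ℕ) : ℝ) := ⟨_, rfl⟩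
  have p1 : 0 < T1 := by rw [hT1]; exact_mod_cast Nat.card_pos
  have p2 : 0 < T2 := by rw [hT2]; exact_mod_cast Nat.card_pos
  have b3 : (4 : ℝ) * (({x : Om (Fin (M ^ n)) × (Var (Fin (M ^ n)) → Fin M) |
      ¬ (mkData x.1 x.2).Sparse s0 s1 n K}.ncard : ℕ) : ℝ) ≤ T1 * T2 := by
    rw [Nat.card_prod (Om (Fin (M ^ n))) (Var (Fin (M ^ n)) → Fin M)] at a3
    rw [hT1, hT2]; exact_mod_cast a3
  have b4 : (4 : ℝ) * (({ω : Om (Fin (M ^ n)) | C * Fintype.card (Fin (M ^ n)) ^ 3 < (pairs ω).ncard}.ncard : ℕ) : ℝ) ≤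
      T1 := by rw [hT1]; exact_mod_cast a4
  have c4 := ncard_fib {x : Om (Fin (M ^ n)) × (Var (Fin (M ^ n)) → Fin M) | C * Fintype.card (Fin (M ^ n)) ^ 3 < (pairs x.1).ncard}
    {ω : Om (Fin (M ^ n)) | C * Fintype.card (Fin (M ^ n)) ^ 3 < (pairs ω).ncard} T2 (fun x hx => hx) (fun ω _ => by
      rw [hT2]; exact_mod_cast Set.ncard_le_card _)
  have c6 := ncard_fib {x : Om (Fin (M ^ n)) × (Var (Fin (M ^ n)) → Fin M) |
      (pairs x.1).ncard ≤ C * Fintype.card (Fin (M ^ n)) ^ 3 ∧ ¬ (mkData x.1 x.2).Unif k ε}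
    {ω : Om (Fin (M ^ n)) | (pairs ω).ncard ≤ C * Fintype.card (Fin (M ^ n)) ^ 3} (T2 / 4) (fun x hx => hx.1)
    (fun ω hω => by
      have d1 := a6 ω hω
      have d2 : {y | (ω, y) ∈ {x : Om (Fin (M ^ n)) × (Var (Fin (M ^ n)) → Fin M) |
          (pairs x.1).ncard ≤ C * Fintype.card (Fin (M ^ n)) ^ 3 ∧ ¬ (mkData x.1 x.2).Unif k ε}}.ncard ≤
          {η : Var (Fin (M ^ n)) → Fin M | ¬ (mkData ω η).Unif k ε}.ncard :=
        Set.ncard_le_ncard fun y hy => hy.2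
      rw [le_div_iff₀ (by norm_num), hT2]
      exact_mod_cast (Nat.mul_le_mul_right 4 d2).trans ((mul_comm _ _).trans_le d1))
  have c7 : (({ω : Om (Fin (M ^ n)) | (pairs ω).ncard ≤ C * Fintype.card (Fin (M ^ n)) ^ 3}.ncard : ℕ) : ℝ) ≤ T1 := by
    rw [hT1]; exact_mod_cast Set.ncard_le_card _
  have hall := ncard_cover (Set.univ : Set (Om (Fin (M ^ n)) × (Var (Fin (M ^ n)) → Fin M))) (univ : Finset (Fin 3))
    ![{x | ¬ (mkData x.1 x.2).Sparse s0 s1 n K},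
      {x | C * Fintype.card (Fin (M ^ n)) ^ 3 < (pairs x.1).ncard},
      {x | (pairs x.1).ncard ≤ C * Fintype.card (Fin (M ^ n)) ^ 3 ∧ ¬ (mkData x.1 x.2).Unif k ε}] (by
      intro x _
      by_cases g1 : (mkData x.1 x.2).Sparse s0 s1 n K
      · by_cases g2 : (pairs x.1).ncard ≤ C * Fintype.card (Fin (M ^ n)) ^ 3
        · refine ⟨2, mem_univ _, g2, fun g3 => hcon ⟨M ^ n, mkData x.1 x.2, s0, s1, ?_, g1, g3⟩⟩
          intro h; exact absurd (congrArg Fin.val h) (by norm_num)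
        · exact ⟨1, mem_univ _, not_le.1 g2⟩
      · exact ⟨0, mem_univ _, g1⟩)
  rw [Set.ncard_univ, Nat.card_prod (Om (Fin (M ^ n))) (Var (Fin (M ^ n)) → Fin M), Fin.sum_univ_three] at hall
  simp only [Matrix.cons_val_zero, Matrix.cons_val_one, Matrix.cons_val] at hall
  push_cast at hall
  rw [← hT1, ← hT2] at hall
  have e1 : (({ω : Om (Fin (M ^ n)) | C * Fintype.card (Fin (M ^ n)) ^ 3 < (pairs ω).ncard}.ncard : ℕ) : ℝ) * T2 ≤
      T1 / 4 * T2 := by gcongr; linarith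
  have e2 : (({ω : Om (Fin (M ^ n)) | (pairs ω).ncard ≤ C * Fintype.card (Fin (M ^ n)) ^ 3}.ncard : ℕ) : ℝ) * (T2 / 4) ≤
      T1 * (T2 / 4) := by gcongr
  have e3 : 0 < T1 * T2 := mul_pos p1 p2
  linarith

end Vale.Agent.P172V
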