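import Vale.Agent.P172V.Stmts

/-!
# P172V: the random model and the rows of part A (helper79)
-/

namespace Vale.Agent.P172V

open Finset

/-- first key flag -/
def k0 : Ro → Fl
  | .q1 => .vu | .q2 => .vu | .cc => .va | .q3 => .vc' | .q4 => .vd' | .cc' => .vc'
  | .q5 => .t1e | .q6 => .t2f | .d5 => .t1e | .d6 => .t2f

/-- second key flag -/
def k1 : Ro → Fl
  | .q1 => .va | .q2 => .vb | .cc => .vb | .q3 => .vc | .q4 => .vd | .cc' => .vd'
  | .q5 => .t1e' | .q6 => .t2f' | .d5 => .z5 | .d6 => .z6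

/-- a role containing the flag -/
def home : Fl → Ro
  | .vu => .q1 | .va => .q1 | .t1u => .q1 | .t1a => .q1 | .vb => .q2 | .t2u => .q2 | .t2b => .q2
  | .wa => .cc | .wb => .cc
  | .vc' => .q3 | .vc => .q3 | .s3c' => .q3 | .s3c => .q3 | .r3c' => .q3 | .r3c => .q3
  | .vd' => .q4 | .vd => .q4 | .s4d' => .q4 | .s4d => .q4 | .r4d' => .q4 | .r4d => .q4
  | .w'c' => .cc' | .w'd' => .cc'
  | .t1e => .q5 | .t1e' => .q5 | .s3e => .q5 | .s3e' => .q5 | .s4e => .q5 | .s4e' => .q5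
  | .t2f => .q6 | .t2f' => .q6 | .r3f => .q6 | .r3f' => .q6 | .r4f => .q6 | .r4f' => .q6
  | .z5 => .d5 | .z6 => .d6

/-- the permutation data: `pi` (left summand), `sigma` (`true`) and `rho` (`false`); `theta`;
`Theta5` (`true`) and `Theta6` (`false`) -/
abbrev Om (S : Type) : Type :=
  ((Ro × Fl × S) ⊕ (Bool × S × S) → Equiv.Perm S) × (S → Equiv.Perm (S × S)) ×
    (Bool → Equiv.Perm (S × S × S))

/-- the thinning variables -/
abbrev Var (S : Type) : Type := (Ro × S × S) ⊕ (S × S × S)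

variable {S : Type} (ω : Om S)

/-- labels of a quad -/
def qlab (r : Ro) (κ : S × S) (φ : Fl) : S :=
  if φ = k0 r then κ.1 else if φ = k1 r then κ.2 else ω.1 (.inl (r, φ, κ.1)) κ.2

/-- the label of `vu`; the seed is `(c', c, d')` -/
def lu (z : S × S × S) : S := ω.1 (.inr (true, z.1, z.2.1)) z.2.2

/-- labels of the key flags of a block -/
def core (z : S × S × S) : Fl → S
  | .vu => lu ω z
  | .va => (ω.2.1 (lu ω z) (z.1, z.2.1)).1
  | .vb => (ω.2.1 (lu ω z) (z.1, z.2.1)).2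
  | .vc' => z.1
  | .vc => z.2.1
  | .vd' => z.2.2
  | .vd => ω.1 (.inr (false, z.1, z.2.2)) z.2.1
  | .t1e => (ω.2.2 true z).1
  | .t1e' => (ω.2.2 true z).2.1
  | .z5 => (ω.2.2 true z).2.2
  | .t2f => (ω.2.2 false z).1
  | .t2f' => (ω.2.2 false z).2.1
  | .z6 => (ω.2.2 false z).2.2
  | _ => z.1

/-- keys of a block -/
def qkey (r : Ro) (z : S × S × S) : S × S := (core ω z (k0 r), core ω z (k1 r))

/-- labels of a block -/
def blab (z : S × S × S) (φ : Fl) : S := qlab ω (home φ) (qkey ω (home φ) z) φ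

theorem blab_eq (r : Ro) (z : S × S × S) (φ : Fl) (h : φ ∈ slots r) :
    blab ω z φ = qlab ω r (qkey ω r z) φ := by
  have key : ∀ r φ, φ ∈ slots r → home φ = r ∨
      ((φ = k0 r ∨ (φ ≠ k0 r ∧ φ = k1 r)) ∧
        (φ = k0 (home φ) ∨ (φ ≠ k0 (home φ) ∧ φ = k1 (home φ)))) := by decide +kernel
  have h2 : ∀ r, (φ = k0 r ∨ (φ ≠ k0 r ∧ φ = k1 r)) → qlab ω r (qkey ω r z) φ = core ω z φ := by
    intro r hr
    rcases hr with hr | ⟨h1, hr⟩
    · rw [qlab, if_pos hr, qkey, ← hr]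
    · rw [qlab, if_neg h1, if_pos hr, qkey, ← hr]
  rcases key r φ h with h1 | ⟨h1, h3⟩
  · rw [blab, h1]
  · rw [blab, h2 _ h1, h2 _ h3]

/-- the data given by permutations `ω` and thinning variables `η` -/
def mkData {M : ℕ} (η : Var S → Fin M) : Data S (S × S) (S × S × S) where
  ql := qlab ω
  key := qkey ω
  bl := blab ω
  hbl := fun r z φ h => blab_eq ω r z φ h
  vq := fun r κ => (η (.inl (r, κ))).val = 0
  vb := fun z => (η (.inr z)).val = 0 ∧ ∀ r, (η (.inl (r, qkey ω r z))).val = 0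
  hv := fun _ r h => h.2 r

/-- all labels of `QQ` and all keys of `BB` lie in `L` -/
def Ev (L : Finset S) (QQ : Finset (Ro × S × S)) (BB : Finset (S × S × S)) : Prop :=
  (∀ q ∈ QQ, ∀ φ ∈ slots q.1, qlab ω q.1 q.2 φ ∈ L) ∧
    ∀ z ∈ BB, ∀ r, (qkey ω r z).1 ∈ L ∧ (qkey ω r z).2 ∈ L

instance [Finite S] : Finite (Om S) := inferInstance

/-- ordered pairs of distinct seeds with the same key in two roles -/
def pairs : Set ((S × S × S) × (S × S × S)) :=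
  {p | p.1 ≠ p.2 ∧ ∃ r r', r ≠ r' ∧ qkey ω r p.1 = qkey ω r p.2 ∧ qkey ω r' p.1 = qkey ω r' p.2}

/-- (A0U) keys and labels are equidistributed -/
def StmtA0U : Prop :=
  ∀ (S : Type) [Fintype S] (ω : Om S),
    (∀ r κ, {z | qkey ω r z = κ}.ncard = Fintype.card S) ∧
    ∀ φ s, {z | blab ω z φ = s}.ncard = Fintype.card S ^ 2

/-- (A0T) V-types are bijections -/
def StmtA0T : Prop :=
  ∀ (S : Type) [Fintype S] (ω : Om S), ∀ p ∈ vtypes,
    Function.Bijective (fun z => (qkey ω p.1 z, blab ω z p.2))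

/-- (A1) families of random permutations -/
def StmtA1 : Prop :=
  ∀ (A B : Type) [Fintype A] [Fintype B] (F : Finset (A × B)) (T : Finset B),
    2 * F.card ≤ Fintype.card B →
    ({π : A → Equiv.Perm B | ∀ p ∈ F, π p.1 p.2 ∈ T}.ncard : ℝ) ≤
      (2 * T.card / Fintype.card B) ^ F.card * Nat.card (A → Equiv.Perm B)

/-- (A2) first moment -/
def StmtA2 : Prop :=
  ∀ (S : Type) [Fintype S] (L : Finset S) (QQ : Finset (Ro × S × S)) (BB : Finset (S × S × S)),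
    8 * (QQ.card + BB.card) ≤ Fintype.card S →
    ({ω : Om S | Ev ω L QQ BB}.ncard : ℝ) ≤
      (2 * L.card / Fintype.card S) ^ (∑ q ∈ QQ, cst q.1 + 10 * BB.card) * Nat.card (Om S)

/-- (A3) sparsity fails with probability at most `1/4` -/
def StmtA3 : Prop :=
  ∀ n K : ℕ, 1 ≤ n → ∃ M0 : ℕ, ∀ M, M0 ≤ M → ∀ (S : Type) [Fintype S] [DecidableEq S] (s0 s1 : S),
    Fintype.card S = M ^ n →
    4 * {x : Om S × (Var S → Fin M) | ¬ (mkData x.1 x.2).Sparse s0 s1 n K}.ncard ≤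
      Nat.card (Om S × (Var S → Fin M))

/-- (A4) few pairs of seeds share two keys -/
def StmtA4 : Prop :=
  ∃ C : ℕ, ∀ (S : Type) [Fintype S], 16 ≤ Fintype.card S →
    4 * {ω : Om S | C * Fintype.card S ^ 3 < (pairs ω).ncard}.ncard ≤ Nat.card (Om S)

/-- (A5) McDiarmid for the number of sets all of whose variables vanish -/
def StmtA5 : Prop :=
  ∀ (Vr ι : Type) [Fintype Vr] (M : ℕ) (I : Finset ι) (V : ι → Finset Vr) (W t : ℝ), 1 ≤ M → 0 < W →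
    0 < t → ∑ v, ({z | z ∈ I ∧ v ∈ V z}.ncard : ℝ) ^ 2 ≤ W →
    ({η : Vr → Fin M | t ≤ |({z | z ∈ I ∧ ∀ v ∈ V z, (η v).val = 0}.ncard : ℝ) -
          ∑ z ∈ I, (1 / (M : ℝ)) ^ (V z).card|}.ncard : ℝ) ≤
      2 * Real.exp (-(t ^ 2 / (2 * W))) * Nat.card (Vr → Fin M)

/-- (A6M) marginals -/
def StmtA6M : Prop :=
  ∀ (S : Type) [Fintype S] [Nonempty S] (ω : Om S) (M : ℕ) (φ : Fl) (s : S) (t : ℝ), 1 ≤ M → 0 < t →
    ({η : Var S → Fin M | t ≤
        |((mkData ω η).cnt φ s : ℝ) - (Fintype.card S : ℝ) ^ 2 * (1 / (M : ℝ)) ^ 11|}.ncard : ℝ) ≤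
      2 * Real.exp (-(t ^ 2 / (22 * (Fintype.card S : ℝ) ^ 3))) * Nat.card (Var S → Fin M)

/-- (A6A) tuples -/
def StmtA6A : Prop :=
  ∀ (S : Type) [Fintype S] [Nonempty S] (ω : Om S) (M k : ℕ) (τ : Fin k → S) (t : ℝ), 1 ≤ M → 1 ≤ k →
    0 < t → ∀ p ∈ vtypes,
    ({η : Var S → Fin M | ({κ : S × S | ∀ i, (mkData ω η).Has p.1 p.2 κ (τ i)}.ncard : ℝ) ≤
          (Fintype.card S : ℝ) ^ 2 * (1 / (M : ℝ)) ^ (1 + 10 * k) - t}.ncard : ℝ) ≤
      2 * Real.exp (-(t ^ 2 / (22 * (k : ℝ) ^ 2 * (Fintype.card S : ℝ) ^ 3))) *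
        Nat.card (Var S → Fin M)

/-- (A6F) fibres -/
def StmtA6F : Prop :=
  ∀ (S : Type) [Fintype S] [Nonempty S] (ω : Om S) (M : ℕ) (r : Ro) (κ : S × S) (W t : ℝ), 1 ≤ M →
    0 < t → ({p | p ∈ pairs ω ∧ qkey ω r p.1 = κ ∧ qkey ω r p.2 = κ}.ncard : ℝ) ≤ W →
    ({η : Var S → Fin M |
        (Fintype.card S : ℝ) * (1 / (M : ℝ)) ^ 10 + t ≤ (mkData ω η).fib r κ}.ncard : ℝ) ≤
      2 * Real.exp (-(t ^ 2 / (2 * (10 * (Fintype.card S : ℝ) + 10 * W)))) *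
        Nat.card (Var S → Fin M)

/-- (A6) uniformity fails with probability at most `1/4` if there are few pairs -/
def StmtA6 : Prop :=
  ∀ (k : ℕ) (ε : ℝ), 0 < ε → ∃ n : ℕ, 1 ≤ n ∧ ∀ C : ℕ, ∃ M0 : ℕ, ∀ M, M0 ≤ M →
    ∀ (S : Type) [Fintype S], Fintype.card S = M ^ n → ∀ ω : Om S,
    (pairs ω).ncard ≤ C * Fintype.card S ^ 3 →
    4 * {η : Var S → Fin M | ¬ (mkData ω η).Unif k ε}.ncard ≤ Nat.card (Var S → Fin M)

end Vale.Agent.P172V
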