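import Vale.Agent.P172V.ThinS2
import Vale.Agent.P172V.ADefs

/-!
# P172V: row A6
-/

set_option linter.all false

open scoped Classical

noncomputable section

namespace Vale.Agent.P172V

open Finset Real Filter Topology

/-- the three uniformity properties -/
structure TGood {S K Z Φ T : Type} [Fintype S] (val : Z → Prop) (lab : Φ → Z → S)
    (e : T → K × S → Z) (k : ℕ) (ε U q : ℝ) : Prop where
  hM : ∀ φ s, (1 - ε) * U ≤ {z | val z ∧ lab φ z = s}.ncard ∧
    ({z | val z ∧ lab φ z = s}.ncard : ℝ) ≤ (1 + ε) * U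
  hA : ∀ t (τ : Fin (k + 1) → S), (1 - ε) * (U * q ^ k) ≤ {κ | ∀ i, val (e t (κ, τ i))}.ncard
  hm : ∀ t, ∃ bad : Finset K, (bad.card : ℝ) ≤ ε * (U * q ^ k) ∧
    ∀ κ, κ ∉ bad → ({s | val (e t (κ, s))}.ncard : ℝ) ≤ (1 + ε) * (Fintype.card S * q)

theorem ncard_eq_filter {α : Type*} [Fintype α] (P : α → Prop) {_ : DecidablePred P} :
    {x | P x}.ncard = (univ.filter P).card := by
  rw [← Set.ncard_coe_finset]
  congr 1
  ext x
  simp

theorem le_pow_mul {M : ℕ} [NeZero M] {D c : ℕ} (h : c + 1 ≤ D) :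
    (M : ℝ) ≤ ((M ^ D : ℕ) : ℝ) * (1 / M : ℝ) ^ c := by
  obtain ⟨d, rfl⟩ := Nat.exists_eq_add_of_le h
  have h1 : (1 : ℝ) ≤ M := by exact_mod_cast Nat.pos_of_ne_zero (NeZero.ne M)
  have h2 : (((M ^ (c + 1 + d) : ℕ) : ℝ)) * (1 / M : ℝ) ^ c = M * M ^ d := by
    have h4 : (M : ℝ) ^ c * (1 / M : ℝ) ^ c = 1 := by
      rw [← mul_pow, mul_one_div_cancel (by linarith), one_pow]
    push_cast
    linear_combination ((M : ℝ) * M ^ d) * h4
  rw [h2]
  have h3 : (1 : ℝ) ≤ (M : ℝ) ^ d := one_le_pow₀ h1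
  nlinarith

theorem exists_M0 (j : ℕ) (a b : ℝ) (ha : 0 < a) :
    ∃ M0 : ℕ, ∀ M : ℕ, M0 ≤ M → b * (M : ℝ) ^ j * exp (-(a * M)) ≤ 1 := by
  have h1 := tendsto_rpow_mul_exp_neg_mul_atTop_nhds_zero (j : ℝ) a ha
  have h2 : Tendsto (fun M : ℕ => b * (M : ℝ) ^ j * exp (-(a * M))) atTop (𝓝 0) := by
    have h3 := (h1.comp tendsto_natCast_atTop_atTop).const_mul b
    rw [mul_zero] at h3
    refine h3.congr fun M => ?_
    simp only [Function.comp, rpow_natCast, neg_mul, mul_assoc]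
  obtain ⟨M0, hM0⟩ := eventually_atTop.1 (h2.eventually (gt_mem_nhds zero_lt_one))
  exact ⟨M0, fun M hM => (hM0 M hM).le⟩

theorem thin_good (k : ℕ) (ε : ℝ) (hε : 0 < ε) (C c1 c2 : ℕ) : ∃ M0 : ℕ, ∀ M : ℕ, M0 ≤ M →
    ∀ [NeZero M] (S K Z R V Φ T : Type) [Fintype S] [Fintype K] [Fintype Z] [Fintype R]
      [Fintype V] [Fintype Φ] [Fintype T], Fintype.card Φ ≤ c1 → Fintype.card T ≤ c2 →
      Fintype.card S = M ^ (32 + 20 * k) → Fintype.card K = Fintype.card S ^ 2 →
      Fintype.card R = 10 →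
    ∀ (ι : (R × K) ⊕ Z → V) (key : R → Z → K) (lab : Φ → Z → S) (tr : T → R)
      (e : T → K × S → Z), Function.Injective ι →
      (∀ r κ, {z | key r z = κ}.ncard ≤ Fintype.card S) →
      (∀ φ s, {z | lab φ z = s}.ncard = Fintype.card S ^ 2) →
      (∀ t, Function.Injective (e t)) → (∀ t κ s, key (tr t) (e t (κ, s)) = κ) →
      {q | Shared key q}.ncard ≤ C * Fintype.card S ^ 3 →
      4 * {ω : V → Fin M | ¬ TGood (Valid ι key ω) lab e k ε
        ((Fintype.card S : ℝ) ^ 2 * (1 / M : ℝ) ^ 11) ((1 / M : ℝ) ^ 10)}.ncard ≤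
        Nat.card (V → Fin M) := by
  set C' : ℝ := C + 1 with hC'
  have hC0 : 0 < C' := by positivity
  set a : ℝ := min (ε ^ 2 / (22 * (k + 1) ^ 2)) (ε ^ 3 / (20 * (ε + C'))) with ha
  have ha0 : 0 < a := lt_min (by positivity) (by positivity)
  obtain ⟨M0, hM0⟩ := exists_M0 ((32 + 20 * k) * (k + 2)) a (4 * (2 * c1 + 2 * c2)) ha0
  refine ⟨M0, fun M hM _ S K Z R V Φ T _ _ _ _ _ _ _ hΦ hT hS hK hR ι key lab tr e hι hkey hlab
    he hke hsh => ?_⟩
  have hM1 := hM0 M hM
  set n := Fintype.card S with hn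
  have hMpos : 0 < M := Nat.pos_of_ne_zero (NeZero.ne M)
  have hn1 : 1 ≤ n := by rw [hS]; exact Nat.one_le_pow _ _ hMpos
  have hn' : (1 : ℝ) ≤ n := by exact_mod_cast hn1
  have hp := p_pos (M := M)
  have hp1 := p_le_one (M := M)
  have hpw : ∀ c : ℕ, c + 1 ≤ 32 + 20 * k → (M : ℝ) ≤ n * (1 / M : ℝ) ^ c := by
    intro c hc
    rw [hS]
    exact le_pow_mul hc
  set p : ℝ := 1 / M with hpdef
  set x : ℝ := exp (-(a * M)) * Fintype.card (V → Fin M) with hx
  have hx0 : 0 ≤ x := by positivity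
  have hM' : (0 : ℝ) ≤ M := Nat.cast_nonneg M
  have hexp : ∀ y : ℝ, a * M ≤ y → exp (-y) * Fintype.card (V → Fin M) ≤ x := by
    intro y hy
    exact mul_le_mul_of_nonneg_right (exp_le_exp.2 (by linarith)) (Nat.cast_nonneg _)
  have hk0 : (0 : ℝ) ≤ k := Nat.cast_nonneg k
  have ha1 : a ≤ ε ^ 2 / (22 * (k + 1) ^ 2) := min_le_left _ _
  have ha2 : a ≤ ε ^ 3 / (20 * (ε + C')) := min_le_right _ _
  have ha3 : a ≤ ε ^ 2 / 22 := by
    refine ha1.trans (div_le_div_of_nonneg_left (by positivity) (by norm_num) ?_)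
    nlinarith
  have hkey' : ∀ r κ, (univ.filter fun z => key r z = κ).card ≤ n := by
    intro r κ
    rw [← ncard_eq_filter]
    exact hkey r κ
  set P : ℝ := p ^ 11 * (p ^ 10) ^ k with hP
  have hP0 : 0 < P := by positivity
  have hP1 : P ≤ 1 := mul_le_one₀ (pow_le_one₀ hp.le hp1) (by positivity)
    (pow_le_one₀ (by positivity) (pow_le_one₀ hp.le hp1))
  set θ : ℝ := C' * n / (ε * P) with hθ
  have hθ0 : 0 < θ := by positivity
  -- the three families of bad events
  let B1 : Φ × S → (V → Fin M) → Prop := fun i ω => ¬ ((1 - ε) * (n ^ 2 * p ^ 11) ≤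
      (univ.filter fun z => Valid ι key ω z ∧ lab i.1 z = i.2).card ∧
    ((univ.filter fun z => Valid ι key ω z ∧ lab i.1 z = i.2).card : ℝ) ≤
      (1 + ε) * (n ^ 2 * p ^ 11))
  let B2 : T × (Fin (k + 1) → S) → (V → Fin M) → Prop := fun i ω =>
    ¬ ((1 - ε) * (n ^ 2 * p ^ 11 * (p ^ 10) ^ k) ≤
      (univ.filter fun κ => ∀ j, Valid ι key ω (e i.1 (κ, i.2 j))).card)
  let B3 : T × K → (V → Fin M) → Prop := fun i ω => (fibPairs key (e i.1) i.2 : ℝ) ≤ θ ∧
    ¬ (((univ.filter fun s => Valid ι key ω (e i.1 (i.2, s))).card : ℝ) ≤ (1 + ε) * (n * p ^ 10))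
  have h1 : ∀ i, ((univ.filter fun ω => B1 i ω).card : ℝ) ≤ 2 * x := by
    intro i
    have h := tail_M (M := M) hι hR hn1 hkey' (fun z => lab i.1 z = i.2)
      (by rw [← ncard_eq_filter]; exact hlab i.1 i.2) hε
    refine le_trans (card_filter_mono fun ω hω => ?_) (h.trans ?_)
    · convert hω
    · refine mul_le_mul_of_nonneg_left (hexp _ ?_) (by norm_num)
      exact mul_le_mul ha3 (hpw 22 (by omega)) hM' (by positivity)
  have h2 : ∀ i, ((univ.filter fun ω => B2 i ω).card : ℝ) ≤ x := by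
    intro i
    have h := tail_A (M := M) hι hR hn1 hK hkey' (tr i.1) (e i.1) (he i.1) (hke i.1) k i.2 hε
    refine le_trans (card_filter_mono fun ω hω => ?_) (h.trans (hexp _ ?_))
    · convert hω
    · exact mul_le_mul ha1 (hpw (22 + 20 * k) (by omega)) hM' (by positivity)
  have h3 : ∀ i, ((univ.filter fun ω => B3 i ω).card : ℝ) ≤ x := by
    intro i
    by_cases hi : (fibPairs key (e i.1) i.2 : ℝ) ≤ θ
    · have h := tail_m (M := M) hι hR hn1 hn.symm (tr i.1) (e i.1) (he i.1) (hke i.1) i.2 hi hε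
      refine le_trans (card_filter_mono fun ω hω => ?_) (h.trans (hexp _ ?_))
      · convert hω.2
      · have h4 : (ε * (n * p ^ 10)) ^ 2 / (2 * (10 * n + 10 * θ)) =
            ε ^ 3 / (20 * (ε * P + C')) * (n * p ^ (31 + 10 * k)) := by
          have h5 : p ^ (31 + 10 * k) = p ^ 20 * P := by rw [hP]; ring
          rw [h5, hθ]
          field_simp
          ring
        rw [h4]
        refine mul_le_mul (ha2.trans ?_) (hpw _ (by omega)) hM' (by positivity)
        refine div_le_div_of_nonneg_left (by positivity) (by positivity) ?_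
        nlinarith
    · have : (univ.filter fun ω => B3 i ω) = ∅ := by
        rw [filter_eq_empty_iff]
        exact fun ω _ h => hi h.1
      rw [this, card_empty, Nat.cast_zero]
      exact hx0
  have g1 := card_exists_le B1 _ h1
  have g2 := card_exists_le B2 _ h2
  have g3 := card_exists_le B3 _ h3
  have hsub : {ω : V → Fin M | ¬ TGood (Valid ι key ω) lab e k ε (n ^ 2 * p ^ 11) (p ^ 10)} ⊆
      ((univ.filter fun ω => ∃ i, B1 i ω) ∪ (univ.filter fun ω => ∃ i, B2 i ω) ∪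
        (univ.filter fun ω => ∃ i, B3 i ω) : Finset (V → Fin M)) := by
    intro ω hω
    by_contra hcon
    simp only [coe_union, coe_filter, mem_univ, true_and, Set.mem_union, Set.mem_setOf_eq,
      not_or, not_exists] at hcon
    obtain ⟨⟨k1, k2⟩, k3⟩ := hcon
    apply hω
    refine ⟨fun φ s => ?_, fun t τ => ?_, fun t => ?_⟩
    · rw [ncard_eq_filter]
      exact not_not.1 (k1 (φ, s))
    · rw [ncard_eq_filter]
      exact not_not.1 (k2 (t, τ))
    · refine ⟨univ.filter fun κ => θ < (fibPairs key (e t) κ : ℝ), ?_, fun κ hκ => ?_⟩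
      · refine (card_bad_le (e t) (he t) hθ0).trans ?_
        rw [div_le_iff₀ hθ0]
        have h4 : ε * (n ^ 2 * p ^ 11 * (p ^ 10) ^ k) * θ = C' * n ^ 3 := by
          have h5 : (n : ℝ) ^ 2 * p ^ 11 * (p ^ 10) ^ k = n ^ 2 * P := by rw [hP]; ring
          rw [h5, hθ]
          field_simp
        rw [h4, ← ncard_eq_filter]
        have h6 : ({q | Shared key q}.ncard : ℝ) ≤ C * (n : ℝ) ^ 3 := by exact_mod_cast hsh
        have h7 : (0 : ℝ) ≤ (n : ℝ) ^ 3 := by positivity
        nlinarith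
      · rw [ncard_eq_filter]
        have h4 : (fibPairs key (e t) κ : ℝ) ≤ θ := by
          by_contra h5
          exact hκ (mem_filter.2 ⟨mem_univ _, not_le.1 h5⟩)
        by_contra h5
        exact k3 (t, κ) ⟨h4, h5⟩
  have g4 := Set.ncard_le_ncard hsub (Finset.finite_toSet _)
  rw [Set.ncard_coe_finset] at g4
  have g5 := g4.trans ((card_union_le _ _).trans (Nat.add_le_add_right (card_union_le _ _) _))
  have g6 : ({ω : V → Fin M | ¬ TGood (Valid ι key ω) lab e k ε (n ^ 2 * p ^ 11)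
      (p ^ 10)}.ncard : ℝ) ≤ Fintype.card (Φ × S) * (2 * x) +
      Fintype.card (T × (Fin (k + 1) → S)) * x + Fintype.card (T × K) * x := by
    refine le_trans ?_ (add_le_add (add_le_add g1 g2) g3)
    exact_mod_cast g5
  set y : ℝ := (n : ℝ) ^ (k + 2) with hy
  have y1 : (Fintype.card (Φ × S) : ℝ) ≤ c1 * y := by
    rw [Fintype.card_prod]
    push_cast
    refine mul_le_mul (by exact_mod_cast hΦ) ?_ (by positivity) (by positivity)
    exact le_self_pow₀ hn' (by omega)
  have y2 : (Fintype.card (T × (Fin (k + 1) → S)) : ℝ) ≤ c2 * y := by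
    rw [Fintype.card_prod, Fintype.card_fun, Fintype.card_fin]
    push_cast
    refine mul_le_mul (by exact_mod_cast hT) ?_ (by positivity) (by positivity)
    exact pow_le_pow_right₀ hn' (by omega)
  have y3 : (Fintype.card (T × K) : ℝ) ≤ c2 * y := by
    rw [Fintype.card_prod, hK]
    push_cast
    refine mul_le_mul (by exact_mod_cast hT) ?_ (by positivity) (by positivity)
    exact pow_le_pow_right₀ hn' (by omega)
  have y4 : y = (M : ℝ) ^ ((32 + 20 * k) * (k + 2)) := by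
    rw [hy, hS]
    push_cast
    rw [← pow_mul]
  have g7 : 4 * (Fintype.card (Φ × S) * (2 * x) +
      Fintype.card (T × (Fin (k + 1) → S)) * x + Fintype.card (T × K) * x) ≤
      (Fintype.card (V → Fin M) : ℝ) := by
    have h4 := mul_le_mul_of_nonneg_right y1 hx0
    have h5 := mul_le_mul_of_nonneg_right y2 hx0
    have h6 := mul_le_mul_of_nonneg_right y3 hx0
    have h7 := mul_le_mul_of_nonneg_right hM1 (Nat.cast_nonneg (Fintype.card (V → Fin M)))
    rw [← y4, one_mul, mul_assoc, ← hx] at h7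
    linarith
  rw [Nat.card_eq_fintype_card]
  have g8 : 4 * ({ω : V → Fin M | ¬ TGood (Valid ι key ω) lab e k ε (n ^ 2 * p ^ 11)
      (p ^ 10)}.ncard : ℝ) ≤ (Fintype.card (V → Fin M) : ℝ) := by linarith
  exact_mod_cast g8

theorem stmtA6_of (hU : StmtA0U) (hT : StmtA0T) : StmtA6 := by
  intro k ε hε
  refine ⟨32 + 20 * k, by omega, fun C => ?_⟩
  obtain ⟨M0, hM0⟩ := thin_good k ε hε C (Fintype.card Fl) (Fintype.card vtypes)
  refine ⟨max M0 1, fun M hM S _ hS ω hω => ?_⟩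
  haveI : NeZero M := ⟨by have := le_trans (le_max_right _ _) hM; omega⟩
  obtain ⟨hU1, hU2⟩ := hU S ω
  let E : ∀ t : vtypes, (S × S × S) ≃ (S × S) × S := fun t =>
    Equiv.ofBijective _ (hT S ω t.1 t.2)
  have hE : ∀ t z, E t z = (qkey ω t.1.1 z, blab ω z t.1.2) := fun t z => rfl
  have hE1 : ∀ (t : vtypes) κ s, qkey ω t.1.1 ((E t).symm (κ, s)) = κ := fun t κ s =>
    congrArg Prod.fst ((E t).apply_symm_apply (κ, s))
  have hE2 : ∀ (t : vtypes) κ s, blab ω ((E t).symm (κ, s)) t.1.2 = s := fun t κ s =>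
    congrArg Prod.snd ((E t).apply_symm_apply (κ, s))
  have h := hM0 M (le_trans (le_max_left _ _) hM) S (S × S) (S × S × S) Ro (Var S) Fl vtypes
    le_rfl le_rfl hS (by rw [Fintype.card_prod, sq]) rfl id (qkey ω) (fun φ z => blab ω z φ)
    (fun t => t.1.1) (fun t => (E t).symm) Function.injective_id (fun r κ => (hU1 r κ).le) hU2
    (fun t => (E t).symm.injective) hE1 hω
  refine le_trans (Nat.mul_le_mul_left 4 (Set.ncard_le_ncard ?_ (Set.toFinite _))) h
  intro η hη hg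
  apply hη
  have hp := p_pos (M := M)
  have hn : (0 : ℝ) < Fintype.card S := by
    rw [hS]
    exact_mod_cast pow_pos (Nat.pos_of_ne_zero (NeZero.ne M)) _
  have hv : ∀ z, (mkData ω η).vb z ↔ Valid id (qkey ω) η z := by
    intro z
    change ((η (.inr z)).val = 0 ∧ ∀ r, (η (.inl (r, qkey ω r z))).val = 0) ↔
      (η (.inr z) = 0 ∧ ∀ r, η (.inl (r, qkey ω r z)) = 0)
    simp only [Fin.val_eq_zero_iff]
  have hH : ∀ (t : vtypes) κ s, (mkData ω η).Has t.1.1 t.1.2 κ s ↔
      Valid id (qkey ω) η ((E t).symm (κ, s)) := by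
    intro t κ s
    constructor
    · rintro ⟨z, h1, h2, h3⟩
      have h4 : (E t).symm (κ, s) = z := by
        rw [Equiv.symm_apply_eq, hE]
        exact Prod.ext h2.symm h3.symm
      rw [h4]
      exact (hv z).1 h1
    · intro h1
      exact ⟨_, (hv _).2 h1, hE1 t κ s, hE2 t κ s⟩
  refine ⟨(Fintype.card S : ℝ) ^ 2 * (1 / M : ℝ) ^ 11, by positivity, fun φ s => ?_,
    (1 / M : ℝ) ^ 10, by positivity, fun p hp => ⟨(hT S ω p hp).1, fun τ => ?_, ?_⟩⟩
  · have h1 : (mkData ω η).cnt φ s = {z | Valid id (qkey ω) η z ∧ blab ω z φ = s}.ncard := by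
      unfold Data.cnt Data.blocks
      rw [← Set.ncard_coe_finset]
      congr 1
      ext z
      simp only [coe_filter, mem_filter, mem_univ, true_and, Set.mem_setOf_eq, hv]
      rfl
    rw [h1]
    exact hg.hM φ s
  · have h1 := hg.hA ⟨p, hp⟩ τ
    simp only [← hH] at h1
    exact h1
  · obtain ⟨bad, h1, h2⟩ := hg.hm ⟨p, hp⟩
    refine ⟨bad, h1, fun κ hκ => ?_⟩
    have h3 : (mkData ω η).fib p.1 κ =
        {s | Valid id (qkey ω) η ((E ⟨p, hp⟩).symm (κ, s))}.ncard := by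
      unfold Data.fib Data.blocks
      rw [← Set.ncard_coe_finset]
      symm
      refine Set.ncard_congr (fun s _ => (E ⟨p, hp⟩).symm (κ, s)) ?_ ?_ ?_
      · intro s hs
        simp only [coe_filter, mem_filter, mem_univ, true_and, Set.mem_setOf_eq, hv]
        exact ⟨hs, hE1 ⟨p, hp⟩ κ s⟩
      · intro s s' _ _ h
        exact (Prod.mk.inj ((E ⟨p, hp⟩).symm.injective h)).2
      · intro z hz
        simp only [coe_filter, mem_filter, mem_univ, true_and, Set.mem_setOf_eq, hv] at hz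
        have h4 : (E ⟨p, hp⟩).symm (κ, blab ω z p.2) = z := by
          rw [Equiv.symm_apply_eq, hE]
          exact Prod.ext hz.2.symm rfl
        refine ⟨blab ω z p.2, ?_, h4⟩
        change Valid id (qkey ω) η ((E ⟨p, hp⟩).symm (κ, blab ω z p.2))
        rw [h4]
        exact hz.1
    rw [h3]
    exact h2 κ hκ

end Vale.Agent.P172V
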