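import Vale.Agent.P172V.A1b
import Vale.Agent.P172V.A4
import Vale.Agent.P172V.A0U
import Vale.Agent.P172V.A0T
import Vale.Agent.P172V.A6

/-!
# P172V: part A, unconditional
-/

namespace Vale.Agent.P172V

theorem stmtA : StmtA :=
  stmtA_of (stmtA3_of (stmtA2_of stmtA1')) (stmtA4_of (stmtA2_of stmtA1'))
    (stmtA6_of stmtA0U stmtA0T)

end Vale.Agent.P172V
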