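import Vale.Agent.P172V.Stmts

/-!
# P172V: row B0 (valid blocks map to the Cayley graph)
-/

namespace Vale.Agent.P172V

/-- the fourth side of a square -/
theorem sq_close {G : Type} [Group G] {gi gi' go go' l1 l2 l3 l4 pi pi' po po' : G}
    (p1 : pi * l1 = po) (p2 : pi' * l2 = po) (p3 : pi * l3 = po') (p4 : pi' * l4 = po')
    (h1 : go = gi * l1) (h2 : go = gi' * l2) (h3 : go' = gi * l3) : go' = gi' * l4 := by
  have e1 : l1 = pi⁻¹ * po := by rw [← p1]; group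
  have e2 : l2 = pi'⁻¹ * po := by rw [← p2]; group
  have e3 : l3 = pi⁻¹ * po' := by rw [← p3]; group
  have e4 : l4 = pi'⁻¹ * po' := by rw [← p4]; group
  have e5 : gi' = gi * l1 * l2⁻¹ := by rw [← h1, h2]; group
  rw [h3, e5, e1, e2, e3, e4]
  group

theorem stmtB0 : StmtB0 := by
  intro S Q Z D z hz
  obtain ⟨g0, h0⟩ := VK.GS.exists_pot (Γ := D.gs) ⟨.inr z, hz⟩
  set ι : Fl → D.Grp := fun φ => PresentedGroup.of (D.bl z φ) with hι
  have hq : ∀ r, ∃ p : Vx → D.Grp, ∀ φ ∈ pos (some r), φ ∈ slots r → p (ev φ) * ι φ = p (od φ) := by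
    intro r
    obtain ⟨p, hp⟩ := VK.GS.exists_pot (Γ := D.gs) ⟨.inl (r, D.key r z), D.hv z r hz⟩
    refine ⟨p, fun φ h1 h2 => ?_⟩
    simp only [hι, D.hbl r z φ h2]
    exact hp φ h1
  choose p hp using hq
  set h : Vx → D.Grp := fun x => (g0 .v)⁻¹ * g0 x with hh
  have hv : h .v = 1 := inv_mul_cancel _
  have h1 : ∀ φ ∈ gam0, h (od φ) = h (ev φ) * ι φ := by
    intro φ hφ
    have : g0 (ev φ) * ι φ = g0 (od φ) := h0 φ hφ
    simp only [hh, ← this, mul_assoc]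
  let g : Vx → D.Grp := fun x => match x with
    | .a => h .v * ι .va
    | .b => h .v * ι .vb
    | .c' => h .v * ι .vc'
    | .d' => h .v * ι .vd'
    | .e' => h .t1 * ι .t1e'
    | .f' => h .t2 * ι .t2f'
    | .w => h .v * ι .va * (ι .wa)⁻¹
    | .w' => h .v * ι .vc' * (ι .w'c')⁻¹
    | x => h x
  have sq : ∀ r φ1 φ2 φ3 φ4, (φ1 ∈ pos (some r) ∧ φ1 ∈ slots r ∧ φ2 ∈ pos (some r) ∧ φ2 ∈ slots r ∧
      φ3 ∈ pos (some r) ∧ φ3 ∈ slots r ∧ φ4 ∈ pos (some r) ∧ φ4 ∈ slots r ∧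
      od φ2 = od φ1 ∧ ev φ3 = ev φ1 ∧ ev φ4 = ev φ2 ∧ od φ4 = od φ3) →
      g (od φ1) = g (ev φ1) * ι φ1 → g (od φ2) = g (ev φ2) * ι φ2 → g (od φ3) = g (ev φ3) * ι φ3 →
      g (od φ4) = g (ev φ4) * ι φ4 := by
    rintro r φ1 φ2 φ3 φ4 ⟨a1, b1, a2, b2, a3, b3, a4, b4, e1, e2, e3, e4⟩ k1 k2 k3
    have p1 := hp r φ1 a1 b1
    have p2 := hp r φ2 a2 b2
    have p3 := hp r φ3 a3 b3
    have p4 := hp r φ4 a4 b4
    rw [e1] at p2 k2
    rw [e2] at p3 k3
    rw [e3, e4] at p4 ⊢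
    exact sq_close p1 p2 p3 p4 k1 k2 k3
  have wa : g (od .wa) = g (ev .wa) * ι .wa := (inv_mul_cancel_right _ _).symm
  have w'c' : g (od .w'c') = g (ev .w'c') * ι .w'c' := (inv_mul_cancel_right _ _).symm
  refine ⟨g, hv, fun φ hφ => ?_⟩
  show g (od φ) = g (ev φ) * ι φ
  cases φ with
  | vu => exact h1 .vu (by decide)
  | t1u => exact h1 .t1u (by decide)
  | t2u => exact h1 .t2u (by decide)
  | vc => exact h1 .vc (by decide)
  | s3c => exact h1 .s3c (by decide)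
  | r3c => exact h1 .r3c (by decide)
  | vd => exact h1 .vd (by decide)
  | s4d => exact h1 .s4d (by decide)
  | r4d => exact h1 .r4d (by decide)
  | t1e => exact h1 .t1e (by decide)
  | s3e => exact h1 .s3e (by decide)
  | s4e => exact h1 .s4e (by decide)
  | t2f => exact h1 .t2f (by decide)
  | r3f => exact h1 .r3f (by decide)
  | r4f => exact h1 .r4f (by decide)
  | va => rfl
  | vb => rfl
  | vc' => rfl
  | vd' => rfl
  | t1e' => rfl
  | t2f' => rfl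
  | wa => exact wa
  | w'c' => exact w'c'
  | t1a => exact sq .q1 .vu .t1u .va .t1a (by decide) (h1 .vu (by decide)) (h1 .t1u (by decide)) rfl
  | t2b => exact sq .q2 .vu .t2u .vb .t2b (by decide) (h1 .vu (by decide)) (h1 .t2u (by decide)) rfl
  | wb => exact sq .cc .va .wa .vb .wb (by decide) rfl wa rfl
  | w'd' => exact sq .cc' .vc' .w'c' .vd' .w'd' (by decide) rfl w'c' rfl
  | s3c' =>
    exact sq .q3 .vc .s3c .vc' .s3c' (by decide) (h1 .vc (by decide)) (h1 .s3c (by decide)) rfl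
  | r3c' =>
    exact sq .q3 .vc .r3c .vc' .r3c' (by decide) (h1 .vc (by decide)) (h1 .r3c (by decide)) rfl
  | s4d' =>
    exact sq .q4 .vd .s4d .vd' .s4d' (by decide) (h1 .vd (by decide)) (h1 .s4d (by decide)) rfl
  | r4d' =>
    exact sq .q4 .vd .r4d .vd' .r4d' (by decide) (h1 .vd (by decide)) (h1 .r4d (by decide)) rfl
  | s3e' =>
    exact sq .q5 .t1e .s3e .t1e' .s3e' (by decide) (h1 .t1e (by decide)) (h1 .s3e (by decide)) rfl
  | s4e' =>
    exact sq .q5 .t1e .s4e .t1e' .s4e' (by decide) (h1 .t1e (by decide)) (h1 .s4e (by decide)) rfl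
  | r3f' =>
    exact sq .q6 .t2f .r3f .t2f' .r3f' (by decide) (h1 .t2f (by decide)) (h1 .r3f (by decide)) rfl
  | r4f' =>
    exact sq .q6 .t2f .r4f .t2f' .r4f' (by decide) (h1 .t2f (by decide)) (h1 .r4f (by decide)) rfl
  | z5 => exact absurd rfl hφ.1
  | z6 => exact absurd rfl hφ.2

end Vale.Agent.P172V
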