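import Vale.Agent.P172V.BDefs

/-!
# P172V: rows B1F3, B1F4, B1Z
-/

set_option linter.all false

namespace Vale.Agent.P172V

open Finset Vale.Agent.P201.S

theorem stmtB1F3 : StmtB1F3 := by
  intro A K l1 l2 d h
  have D := Fold.vk3_data d l1 l2 h
  have key : ∀ f, (Fold.subPC D).wd f = BrRed.wo K (Fold.vk3B K l1 l2 f) := fun f => by
    unfold BrRed.wo
    conv_rhs => rw [← Fold.map_low d.1 _ (D.hB f), List.map_map]
    rfl
  exact ⟨Fold.subPC D, Equiv.refl _, fun f => key (some f), key none⟩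

theorem stmtB1F4 : StmtB1F4 := by
  intro A K l1 l2 d d' h h1 h2 h3 h4
  let D : K.FbD := ⟨d, d', l1, l2, h, h3, h1, h2, h4⟩
  exact ⟨D.fold, Equiv.refl _, fun f => D.word_map _, D.word_map _⟩

namespace B1Z

variable {A : Type} {R : Set (List (A × Bool))} {W : List (A × Bool) → ℕ}

/-- the word `w` is the outer word of a complex of weight `k` -/
def Real (R : Set (List (A × Bool))) (W : List (A × Bool) → ℕ) (k : ℕ) (w : List (A × Bool)) :
    Prop :=
  ∃ K : PC A, (∀ f : K.F, K.wd (some f) ∈ R) ∧ ∑ f : K.F, W (K.wd (some f)) = k ∧ K.wd none = w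

/-- the point -/
def point (A : Type) : PC A where
  V := Unit
  E := Empty
  F := Empty
  org := fun _ => ()
  lab := fun e => e.elim
  bd := fun _ => []
  chain := fun _ => List.isChain_nil
  closed := fun _ a ha => absurd ha (by simp)
  once := fun d => d.1.elim
  ne := fun f => f.elim
  conn := fun _ _ => Relation.ReflTransGen.refl
  dconn := by
    rintro (_ | f) (_ | g)
    · exact Relation.ReflTransGen.refl
    · exact g.elim
    · exact f.elim
    · exact f.elim
  euler := by simp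

theorem outer (K : PC A) : ∃ r, VPth K.org r (K.bd none) r := by
  by_cases h : K.bd none = []
  · obtain ⟨r⟩ := vnonempty K
    exact ⟨r, by rw [h]; exact VPth.nil _⟩
  · exact K.exists_vpth' none h

theorem pair {k : ℕ} {l1 l2 : List (A × Bool)} (a : A × Bool) (h : Real R W k (l1 ++ l2)) :
    Real R W k (l1 ++ a :: (a.1, !a.2) :: l2) := by
  obtain ⟨K, h1, h2, h3⟩ := h
  obtain ⟨r, hp⟩ := outer K
  obtain ⟨m1, m2, hm, rfl, rfl⟩ := List.map_eq_append_iff.1 h3
  rw [hm, VPth.append_iff] at hp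
  obtain ⟨v, hp1, hp2⟩ := hp
  have key : ∀ f : K.F, (K.spur hm hp1 hp2 a.1 a.2).wd (some f) = K.wd (some f) :=
    fun f => List.map_map
  refine ⟨K.spur hm hp1 hp2 a.1 a.2, fun f => ?_, ?_, vmap_spur K.lab a.1 a.2 m1 m2⟩
  · exact (key f).symm ▸ h1 f
  · rw [← h2]
    exact Finset.sum_congr rfl fun f _ => congrArg W (key f)

theorem pairs {k : ℕ} {l1 l2 : List (A × Bool)} (c : List (A × Bool)) (h : Real R W k (l1 ++ l2)) :
    Real R W k (l1 ++ c ++ (winv c ++ l2)) := by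
  induction c generalizing l1 l2 with
  | nil => simpa [winv] using h
  | cons x c ih =>
    have h1 := pair x h
    have h2 : l1 ++ x :: (x.1, !x.2) :: l2 = (l1 ++ [x]) ++ ((x.1, !x.2) :: l2) := by simp
    rw [h2] at h1
    have h4 : l1 ++ x :: c ++ (winv c ++ [(x.1, !x.2)] ++ l2) =
        l1 ++ [x] ++ c ++ (winv c ++ (x.1, !x.2) :: l2) := by simp
    rw [vwinv_cons, h4]
    exact ih h1

theorem face {k : ℕ} {l1 c l3 : List (A × Bool)} {b : A × Bool} (hr : c ++ [b] ∈ R)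
    (h : Real R W k (l1 ++ c ++ l3)) : Real R W (W (c ++ [b]) + k) (l1 ++ (b.1, !b.2) :: l3) := by
  obtain ⟨K, h1, h2, h3⟩ := h
  obtain ⟨r, hp⟩ := outer K
  obtain ⟨m12, m3, hm, hm12, rfl⟩ := List.map_eq_append_iff.1 h3
  obtain ⟨m1, m2, rfl, rfl, rfl⟩ := List.map_eq_append_iff.1 hm12
  rw [hm, VPth.append_iff] at hp
  obtain ⟨v, hp12, hp3⟩ := hp
  rw [VPth.append_iff] at hp12
  obtain ⟨u, hp1, hp2⟩ := hp12
  have key : ∀ f : K.F, (K.addFace hm hp1 hp2 hp3 b.1 (!b.2)).wd (some (some f)) = K.wd (some f) :=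
    fun f => List.map_map
  have key0 : (K.addFace hm hp1 hp2 hp3 b.1 (!b.2)).wd (some none) =
      m2.map (fun d => (K.lab d.1, d.2)) ++ [b] :=
    (vmap_face K.lab b.1 (!(!b.2)) m2 []).trans (by simp)
  refine ⟨K.addFace hm hp1 hp2 hp3 b.1 (!b.2), ?_, ?_, vmap_face K.lab b.1 (!b.2) m1 m3⟩
  · rintro (_ | f)
    · exact key0.symm ▸ hr
    · exact (key f).symm ▸ h1 f
  · change ∑ f : Option K.F, W ((K.addFace hm hp1 hp2 hp3 b.1 (!b.2)).wd (some f)) = _
    rw [Fintype.sum_option, key0, ← h2]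
    exact congrArg _ (Finset.sum_congr rfl fun f _ => congrArg W (key f))

end B1Z

open B1Z in
theorem stmtB1Z : StmtB1Z := by
  intro A R W hR k u h
  suffices ∃ w, Real R W k w ∧ P201.S.val w = u⁻¹ by
    obtain ⟨w, ⟨K, h1, h2, rfl⟩, h4⟩ := this
    exact ⟨K, h1, h2, h4⟩
  induction h with
  | nil => exact ⟨[], ⟨point A, fun f => f.elim, Finset.sum_empty, rfl⟩, inv_one.symm⟩
  | cons k u v r hr _ ih =>
    obtain ⟨w, h1, h2⟩ := ih
    obtain ⟨V, rfl⟩ : ∃ V, P201.S.val V = v := Quot.exists_rep v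
    obtain ⟨c, b, rfl⟩ : ∃ c b, r = c ++ [b] :=
      ⟨_, _, (List.dropLast_append_getLast (hR r hr)).symm⟩
    have h3 := pairs (l1 := w) (l2 := []) V (by simpa using h1)
    refine ⟨_, face hr (pairs c h3), ?_⟩
    have h4 : (b.1, !b.2) :: (winv c ++ (winv V ++ [])) = winv (c ++ [b]) ++ winv V := by
      simp [winv]
    rw [h4, vval_append, vval_append, vval_append, vval_winv, vval_winv, h2]
    change _ = (P201.S.val V * P201.S.val (c ++ [b]) * (P201.S.val V)⁻¹ * u)⁻¹
    group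

end Vale.Agent.P172V
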