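import Vale.Agent.P172V.BDefs

/-!
# P172V: rows B1N and B1V (helper79)
-/

namespace Vale.Agent.P172V

open Finset Vale.Agent.P201.S

section
variable {A : Type} {R : Set (List (A × Bool))} {W : List (A × Bool) → ℕ}

theorem Ex.mul {k1 k2 : ℕ} {u1 u2 : FreeGroup A} (h1 : Ex R W k1 u1) (h2 : Ex R W k2 u2) :
    Ex R W (k1 + k2) (u1 * u2) := by
  induction h1 with
  | nil => simpa using h2
  | cons k u v r hr _ ih =>
    have h3 := Ex.cons _ _ v r hr ih
    rw [← add_assoc, ← mul_assoc] at h3
    exact h3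

theorem Ex.single {r : List (A × Bool)} (hr : r ∈ R) (v : FreeGroup A) :
    Ex R W (W r) (v * FreeGroup.mk r * v⁻¹) := by
  have := Ex.cons (W := W) 0 1 v r hr Ex.nil
  simpa using this

theorem Ex.conj {k : ℕ} {u : FreeGroup A} (h : Ex R W k u) (g : FreeGroup A) :
    Ex R W k (g * u * g⁻¹) := by
  induction h with
  | nil => simpa using Ex.nil
  | cons k u v r hr _ ih =>
    have h3 := Ex.cons _ _ (g * v) r hr ih
    have e : g * v * FreeGroup.mk r * (g * v)⁻¹ * (g * u * g⁻¹) =
        g * (v * FreeGroup.mk r * v⁻¹ * u) * g⁻¹ := by group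
    rwa [e] at h3

theorem Ex.inv (hR : ∀ r ∈ R, FreeGroup.invRev r ∈ R ∧ W (FreeGroup.invRev r) = W r)
    {k : ℕ} {u : FreeGroup A} (h : Ex R W k u) : Ex R W k u⁻¹ := by
  induction h with
  | nil => simpa using Ex.nil
  | cons k u v r hr _ ih =>
    have h3 := ih.mul (Ex.single (W := W) (hR r hr).1 v)
    rw [(hR r hr).2, ← FreeGroup.inv_mk, add_comm] at h3
    have e : u⁻¹ * (v * (FreeGroup.mk r)⁻¹ * v⁻¹) = (v * FreeGroup.mk r * v⁻¹ * u)⁻¹ := by group
    rwa [e] at h3

theorem nu_le {k : ℕ} {u : FreeGroup A} (h : Ex R W k u) : nu R W u ≤ k :=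
  iInf₂_le (f := fun (k : ℕ) (_ : Ex R W k u) => (k : ℕ∞)) k h

theorem nu_cases (u : FreeGroup A) : nu R W u = ⊤ ∨ ∃ k : ℕ, nu R W u = k ∧ Ex R W k u := by
  classical
  by_cases h : ∃ k, Ex R W k u
  · refine Or.inr ⟨Nat.find h, le_antisymm (nu_le (Nat.find_spec h)) ?_, Nat.find_spec h⟩
    exact le_iInf₂ fun k hk => Nat.cast_le.2 (Nat.find_min' h hk)
  · push Not at h
    left
    simp [nu, h]

theorem ex_of_nu {k : ℕ} {u : FreeGroup A} (h : nu R W u = k) : Ex R W k u := by
  rcases nu_cases (R := R) (W := W) u with h1 | ⟨k', h1, h2⟩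
  · rw [h1] at h
    exact absurd h (ENat.top_ne_natCast k)
  · rw [h1] at h
    rwa [Nat.cast_injective h] at h2

theorem nu_le_of {u v : FreeGroup A} (h : ∀ k, Ex R W k u → Ex R W k v) : nu R W v ≤ nu R W u :=
  le_iInf₂ fun k hk => nu_le (h k hk)

theorem nu_norm (hR : ∀ r ∈ R, FreeGroup.invRev r ∈ R ∧ W (FreeGroup.invRev r) = W r) :
    IsNorm (nu R W) where
  one := le_antisymm (by simpa using nu_le (R := R) (W := W) Ex.nil) zero_le
  mul := by
    intro a b
    rcases nu_cases (R := R) (W := W) a with h1 | ⟨k1, h1, h2⟩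
    · simp [h1]
    rcases nu_cases (R := R) (W := W) b with h3 | ⟨k2, h3, h4⟩
    · simp [h3]
    rw [h1, h3, ← Nat.cast_add]
    exact nu_le (h2.mul h4)
  inv := fun a => le_antisymm (nu_le_of fun _ h => h.inv hR)
    (nu_le_of fun _ h => by simpa using h.inv hR)
  conj := fun v a => le_antisymm (nu_le_of fun _ h => h.conj v)
    (nu_le_of fun _ h => by simpa [mul_assoc] using h.conj v⁻¹)

theorem nu_mk_le {r : List (A × Bool)} (hr : r ∈ R) : nu R W (FreeGroup.mk r) ≤ W r := by
  simpa using nu_le (Ex.single (W := W) hr 1)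

theorem nu_ne_top (hR : ∀ r ∈ R, FreeGroup.invRev r ∈ R ∧ W (FreeGroup.invRev r) = W r)
    {u : FreeGroup A} (hu : u ∈ Subgroup.normalClosure (FreeGroup.mk '' R)) : nu R W u ≠ ⊤ := by
  have hν := nu_norm hR
  let H : Subgroup (FreeGroup A) :=
    { carrier := {u | nu R W u ≠ ⊤}
      mul_mem' := fun {a b} ha hb =>
        ne_top_of_le_ne_top (WithTop.add_ne_top.2 ⟨ha, hb⟩) (hν.mul a b)
      one_mem' := by
        show nu R W 1 ≠ ⊤
        rw [hν.one]; exact ENat.zero_ne_top
      inv_mem' := fun {a} ha => by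
        show nu R W a⁻¹ ≠ ⊤
        rw [hν.inv]; exact ha }
  have : H.Normal := ⟨fun a ha g => by
    show nu R W (g * a * g⁻¹) ≠ ⊤
    rw [hν.conj]; exact ha⟩
  refine Subgroup.normalClosure_le_normal (N := H) ?_ hu
  rintro _ ⟨r, hr, rfl⟩
  exact ne_top_of_le_ne_top (ENat.natCast_ne_top _) (nu_mk_le hr)

end

theorem stmtB1N : StmtB1N := fun _ _ _ hR =>
  ⟨nu_norm hR, fun _ hr => nu_mk_le hr, fun _ _ h => nu_le h, fun _ _ h => ex_of_nu h,
    fun _ hu => nu_ne_top hR hu⟩

theorem chain_break {α : Type} (R : α → α → Prop) : ∀ l : List α, ¬ l.IsChain R →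
    ∃ l1 a b l2, l = l1 ++ a :: b :: l2 ∧ ¬ R a b := by
  intro l
  induction l with
  | nil => intro h; exact absurd List.isChain_nil h
  | cons a l ih =>
    intro h
    cases l with
    | nil => exact absurd (List.isChain_singleton a) h
    | cons b l =>
      by_cases hab : R a b
      · have : ¬ (b :: l).IsChain R := fun h' => h (List.isChain_cons_cons.2 ⟨hab, h'⟩)
        obtain ⟨l1, c, d, l2, he, hn⟩ := ih this
        exact ⟨a :: l1, c, d, l2, by rw [he]; rfl, hn⟩
      · exact ⟨[], a, b, l, rfl, hab⟩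

theorem stmtB1V_of (hP : StmtB1P) (hZ : StmtB1Z) (h3 : StmtB1F3) (h4 : StmtB1F4) : StmtB1V := by
  intro A _ R W hR hR1 k u hu
  have hν := nu_norm hR
  have key : ∀ m : ℕ, ∀ K : PC A, (K.bd none).length ≤ m → (∀ f : K.F, K.wd (some f) ∈ R) →
      ∑ f : K.F, W (K.wd (some f)) = k → FreeGroup.mk (K.wd none) = u →
      ∃ K : PC A, (∀ f : K.F, K.wd (some f) ∈ R) ∧ ∑ f : K.F, W (K.wd (some f)) = k ∧
        K.wd none = u.toWord := by
    intro m
    induction m with
    | zero =>
      intro K hm h1 h2 h5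
      refine ⟨K, h1, h2, ?_⟩
      have h6 : K.bd none = [] := List.length_eq_zero_iff.1 (by omega)
      rw [← h5]
      simp [PC.wd, h6]
    | succ m ih =>
      intro K hm h1 h2 h5
      by_cases hr : (K.bd none).IsChain (fun d d' => K.lab d.1 = K.lab d'.1 → d.2 = d'.2)
      · refine ⟨K, h1, h2, ?_⟩
        have h6 : FreeGroup.IsReduced (K.wd none) := by
          unfold FreeGroup.IsReduced PC.wd
          rw [List.isChain_map]
          exact hr
        rw [← h5, FreeGroup.toWord_mk, h6.reduce_eq]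
      · obtain ⟨l1, d, d', l2, he, hn⟩ := chain_break _ _ hr
        have hl : K.lab d.1 = K.lab d'.1 := by
          by_contra h
          exact hn (fun h' => absurd h' h)
        have hs : d'.2 = !d.2 := by
          have : d.2 ≠ d'.2 := fun h => hn (fun _ => h)
          revert this
          cases d.2 <;> cases d'.2 <;> simp
        have hF : Folded K (l1 ++ l2) := by
          by_cases hd : d.1 = d'.1
          · have : d' = rv d := Prod.ext hd.symm hs
            subst this
            exact h3 A K l1 l2 d he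
          · by_cases ho : K.org d = K.org (rv d')
            · exfalso
              obtain ⟨g, hg⟩ := hP A K _ hν l1 l2 d d' he hl hs hd ho
              rw [h5, hu] at hg
              have h7 : ∑ f ∈ univ.erase g, nu R W (FreeGroup.mk (K.wd (some f))) ≤
                  ((∑ f ∈ univ.erase g, W (K.wd (some f)) : ℕ) : ℕ∞) := by
                rw [Nat.cast_sum]
                exact sum_le_sum fun f _ => nu_mk_le (h1 f)
              have h8 := Nat.cast_le.1 (hg.trans h7)
              rw [← add_sum_erase _ _ (mem_univ g)] at h2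
              have h9 := (hR1 _ (h1 g)).2
              omega
            · exact h4 A K l1 l2 d d' he hl hs hd ho
        obtain ⟨K', e, hc, hw⟩ := hF
        refine ih K' ?_ (fun f => by rw [hc]; exact h1 _) ?_ ?_
        · have e1 : (K'.bd none).length = (K'.wd none).length := by
            unfold PC.wd; rw [List.length_map]
          rw [e1, hw, BrRed.wo, List.length_map]
          rw [he] at hm
          simp only [List.length_append, List.length_cons] at hm ⊢
          omega
        · rw [← h2, ← e.sum_comp (fun f => W (K.wd (some f)))]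
          exact sum_congr rfl fun f _ => by rw [hc]
        · rw [← h5, hw]
          have hwd : K.wd none = BrRed.wo K l1 ++
              (K.lab d.1, d.2) :: (K.lab d.1, !d.2) :: BrRed.wo K l2 := by
            unfold PC.wd BrRed.wo
            rw [he]
            simp only [List.map_append, List.map_cons]
            rw [hs, hl]
          rw [hwd, BrRed.wo_append]
          exact (Quot.sound FreeGroup.Red.Step.not).symm
  obtain ⟨K, h1, h2, h5⟩ := hZ A R W (fun r hr => (hR1 r hr).1) k u⁻¹ ((ex_of_nu hu).inv hR)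
  exact key _ K le_rfl h1 h2 (by rw [h5, inv_inv])

end Vale.Agent.P172V
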