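import Vale.Agent.P172V.BDefs

/-!
# P172V: rows B1R, B1M, B1P (helper79)
-/

namespace Vale.Agent.P172V

open Finset Vale.Agent.P201.S Vale.Agent.P201.S.BrRed

namespace Rec

variable {A : Type} {K : PC A} (T : K.Cotree) {ν : FreeGroup A → ℕ∞}

open Classical in
theorem nu_list (hν : IsNorm ν) (L : List (K.E × Bool)) : L.Nodup →
    (∀ x ∈ L, ∀ g, (T.dd g).1 = x.1 → x = rv (T.dd g)) →
    ν (L.map T.c).prod ≤ ∑ g with rv (T.dd g) ∈ L, ν (T.c (T.dd g)) := by
  induction L with
  | nil => intro _ _; simp [hν.one]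
  | cons x L ih =>
    intro hn hx
    rw [List.nodup_cons] at hn
    have ih' := ih hn.2 (fun y hy => hx y (List.mem_cons_of_mem _ hy))
    rw [List.map_cons, List.prod_cons]
    by_cases h : ∃ g, (T.dd g).1 = x.1
    · obtain ⟨g, hg⟩ := h
      have hxg := hx x (List.mem_cons_self) g hg
      have hs : (univ.filter (fun g' => rv (T.dd g') ∈ x :: L))
          = insert g (univ.filter (fun g' => rv (T.dd g') ∈ L)) := by
        ext g'
        simp only [mem_filter, mem_univ, true_and, List.mem_cons, mem_insert]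
        constructor
        · rintro (h1 | h1)
          · rw [hxg] at h1
            exact Or.inl (dd_inj T (BrRed.rv_inj h1))
          · exact Or.inr h1
        · rintro (h1 | h1)
          · exact Or.inl (by rw [h1, hxg])
          · exact Or.inr h1
      have hni : g ∉ univ.filter (fun g' => rv (T.dd g') ∈ L) := by
        simp only [mem_filter, mem_univ, true_and]
        rw [← hxg]
        exact hn.1
      rw [hs, sum_insert hni]
      have h3 : ν (T.c x) = ν (T.c (T.dd g)) := by
        rw [hxg, c_rv, hν.inv]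
      exact (hν.mul _ _).trans (add_le_add h3.le ih')
    · have h1 : T.c x = 1 := c_one T (fun f hf => h ⟨f, hf⟩)
      rw [h1, one_mul]
      refine ih'.trans (sum_le_sum_of_subset ?_)
      intro g hg
      simp only [mem_filter, mem_univ, true_and, List.mem_cons] at hg ⊢
      exact Or.inr hg

open Classical in
theorem step (hν : IsNorm ν) {a b : List (K.E × Bool)} {x : K.E × Bool} {p : K.V}
    (hp : Path K p (a ++ x :: b) p) (hn : (a ++ b).Nodup)
    (hx : ∀ y ∈ a ++ b, ∀ g, (T.dd g).1 = y.1 → y = rv (T.dd g)) :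
    ν (T.c x) ≤ ν (FreeGroup.mk (wo K (a ++ x :: b))) +
      ∑ g with rv (T.dd g) ∈ a ++ b, ν (T.c (T.dd g)) := by
  have h1 := prod_path T hp
  have h2 := nu_list T hν _ hn hx
  rw [List.map_append, List.map_cons, List.prod_append, List.prod_cons] at h1
  rw [List.map_append, List.prod_append] at h2
  have h3 : (a.map T.c).prod * T.c x * ((a.map T.c).prod)⁻¹ =
      (T.pot p * FreeGroup.mk (wo K (a ++ x :: b)) * (T.pot p)⁻¹) *
        ((a.map T.c).prod * (b.map T.c).prod)⁻¹ := by
    rw [← h1]; group
  rw [← hν.conj (a.map T.c).prod (T.c x), h3]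
  refine (hν.mul _ _).trans (add_le_add (hν.conj _ _).le ?_)
  rw [hν.inv]
  exact h2

open Classical in
theorem one_step (hν : IsNorm ν) (f : K.F) :
    ν (T.c (T.dd f)) ≤ ν (FreeGroup.mk (K.wd (some f))) +
      ∑ g with T.par g = some f, ν (T.c (T.dd g)) := by
  obtain ⟨a, b, hab⟩ := List.append_of_mem (T.mem f)
  obtain ⟨y, _, hp⟩ := path_face' (K := K) (f := some f) (K.ne f)
  have hn := nodup_bd K (some f)
  rw [hab] at hp hn
  rw [List.nodup_middle, List.nodup_cons] at hn
  have hsub : ∀ y ∈ a ++ b, y ∈ K.bd (some f) := by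
    intro y hy
    rw [hab]
    simp only [List.mem_append, List.mem_cons] at hy ⊢
    tauto
  have h := step T hν hp hn.2 (by
    intro y hy g hg
    rcases eq_or_rv hg with h | h
    · exfalso
      have h5 := T.mem g
      rw [← h] at h5
      have := Option.some_injective _ (face_unique K (hsub y hy) h5)
      rw [← this] at h
      exact hn.1 (h ▸ hy)
    · exact h)
  have e : wo K (a ++ T.dd f :: b) = K.wd (some f) := by rw [← hab]; rfl
  rw [e] at h
  refine h.trans (add_le_add le_rfl (sum_le_sum_of_subset ?_))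
  intro g hg
  simp only [mem_filter, mem_univ, true_and] at hg ⊢
  exact (rv_dd_mem T).1 (hsub _ hg)

theorem out_cond {x : K.E × Bool} (hx : x ∈ K.bd none) (g : K.F) (hg : (T.dd g).1 = x.1) :
    x = rv (T.dd g) := by
  rcases eq_or_rv hg with h | h
  · exfalso
    have h5 := T.mem g
    rw [← h] at h5
    exact absurd (face_unique K hx h5) (by simp)
  · exact h

theorem out_eq (hν : IsNorm ν) : ν (FreeGroup.mk (K.wd none)) = ν ((K.bd none).map T.c).prod := by
  by_cases h : K.bd none = []
  · simp [PC.wd, h, ← FreeGroup.one_eq_mk]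
  · obtain ⟨y, _, hp⟩ := path_face' (K := K) h
    rw [prod_path T hp, hν.conj]
    rfl

open Classical in
theorem out_step (hν : IsNorm ν) :
    ν (FreeGroup.mk (K.wd none)) ≤ ∑ g with T.par g = none, ν (T.c (T.dd g)) := by
  rw [out_eq T hν]
  refine (nu_list T hν _ (nodup_bd K none) (fun x hx g hg => out_cond T hx g hg)).trans
    (sum_le_sum_of_subset ?_)
  intro g hg
  simp only [mem_filter, mem_univ, true_and] at hg ⊢
  exact (rv_dd_mem T).1 hg

/-- downward induction in the cotree -/
theorem rank_ind (P : K.F → Prop) (h : ∀ f, (∀ g, T.rank f < T.rank g → P g) → P f) (f : K.F) :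
    P f := by
  classical
  have key : ∀ n f, univ.sup T.rank - T.rank f = n → P f := by
    intro n
    induction n using Nat.strong_induction_on with
    | _ n ih =>
      intro f hf
      refine h f fun g hg => ih _ ?_ g rfl
      have : T.rank g ≤ univ.sup T.rank := le_sup (f := T.rank) (mem_univ g)
      omega
  exact key _ f rfl

open Classical in
theorem sub_le (hν : IsNorm ν) (f : K.F) :
    ν (T.c (T.dd f)) ≤ ∑ g ∈ T.sub f, ν (FreeGroup.mk (K.wd (some g))) := by
  induction f using rank_ind T with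
  | h f ih =>
    rw [sum_sub T _ f]
    refine (one_step T hν f).trans (add_le_add le_rfl (sum_le_sum ?_))
    intro g hg
    exact ih g (T.dec _ _ (mem_filter.1 hg).2)

theorem exists_T (K : PC A) : ∃ (T : K.STree) (C : K.Cotree), ∀ e, T.Ed e ↔ ∀ f, (C.dd f).1 ≠ e := by
  obtain ⟨r⟩ := vnonempty K
  obtain ⟨T, _⟩ := VK5.ex_stree K r
  obtain ⟨C, _, h, _⟩ := stmtT1 A K T
  exact ⟨T, C, h⟩

open Classical in
theorem core_cards' {M : Type} [AddCommMonoid M] (m : K.F → M) {f f' : K.F}
    (hpar : T.par f' = some f) :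
    ∑ x ∈ T.sub f, m x = m f + m f' + ∑ g with (T.par g = some f ∧ g ≠ f') ∨ T.par g = some f',
      ∑ x ∈ T.sub g, m x := by
  rw [sum_sub T m f]
  have h1 : (univ.filter (fun g => T.par g = some f))
      = insert f' (univ.filter (fun g => T.par g = some f ∧ g ≠ f')) := by
    ext g
    simp only [mem_filter, mem_univ, true_and, mem_insert]
    constructor
    · intro h
      by_cases hg : g = f'
      · exact Or.inl hg
      · exact Or.inr ⟨h, hg⟩
    · rintro (h | h)
      · rw [h]; exact hpar
      · exact h.1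
  have h2 : f' ∉ univ.filter (fun g => T.par g = some f ∧ g ≠ f') := by simp
  have h3 : (univ.filter (fun g => (T.par g = some f ∧ g ≠ f') ∨ T.par g = some f'))
      = (univ.filter (fun g => T.par g = some f ∧ g ≠ f')) ∪
        (univ.filter (fun g => T.par g = some f')) := by
    rw [← filter_or]
  have h4 : Disjoint (univ.filter (fun g => T.par g = some f ∧ g ≠ f'))
      (univ.filter (fun g => T.par g = some f')) := by
    rw [disjoint_filter]
    rintro x _ ⟨h5, _⟩ h6
    rw [h5] at h6
    have h7 := T.dec _ _ hpar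
    rw [Option.some_injective _ h6] at h7
    omega
  rw [h1, sum_insert h2, sum_sub T m f', h3, sum_union h4]
  abel

open Classical in
theorem pair_step (hν : IsNorm ν) {f f' : K.F} (hne : f ≠ f') {l1 l2 m1 m2 : List (K.E × Bool)}
    {d : K.E × Bool} (hf : K.bd (some f) = l1 ++ d :: l2) (hf' : K.bd (some f') = m1 ++ rv d :: m2)
    (hpar : T.par f' = some f) (hdd : T.dd f' = rv d) :
    ν (T.c (T.dd f)) ≤ ν (FreeGroup.mk (wo K (l2 ++ l1 ++ (m2 ++ m1)))) +
      ∑ g with (T.par g = some f ∧ g ≠ f') ∨ T.par g = some f', ν (T.c (T.dd g)) := by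
  obtain ⟨x, _, h1, h2⟩ := path_rest hf
  obtain ⟨y, _, h3, h4⟩ := path_rest hf'
  rw [BrRed.rv_rv] at h4
  have hp1 : Path K (K.org (rv d)) (l2 ++ l1) (K.org d) := path_append.2 ⟨_, h2, h1⟩
  have hp2 : Path K (K.org d) (m2 ++ m1) (K.org (rv d)) := path_append.2 ⟨_, h4, h3⟩
  have hp : Path K (K.org (rv d)) (l2 ++ l1 ++ (m2 ++ m1)) (K.org (rv d)) :=
    path_append.2 ⟨_, hp1, hp2⟩
  have hnf := nodup_bd K (some f)
  have hnf' := nodup_bd K (some f')
  rw [hf, List.nodup_middle, List.nodup_cons] at hnf
  rw [hf', List.nodup_middle, List.nodup_cons] at hnf'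
  have hdis : ∀ x, x ∈ K.bd (some f) → x ∈ K.bd (some f') → False := fun x h1 h2 =>
    hne (Option.some_injective _ (face_unique K h1 h2))
  have hdf : d ∈ K.bd (some f) := by rw [hf]; simp
  have hdf' : rv d ∈ K.bd (some f') := by rw [hf']; simp
  have hA : ∀ y ∈ l2 ++ l1, y ∈ K.bd (some f) ∧ y ≠ d := by
    intro y hy
    refine ⟨by rw [hf]; simp only [List.mem_append, List.mem_cons] at hy ⊢; tauto, ?_⟩
    rintro rfl
    exact hnf.1 ((List.perm_append_comm).mem_iff.1 hy)
  have hB : ∀ y ∈ m2 ++ m1, y ∈ K.bd (some f') ∧ y ≠ rv d := by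
    intro y hy
    refine ⟨by rw [hf']; simp only [List.mem_append, List.mem_cons] at hy ⊢; tauto, ?_⟩
    rintro rfl
    exact hnf'.1 ((List.perm_append_comm).mem_iff.1 hy)
  have hddf : T.dd f ≠ d := by
    intro h
    have h5 : T.par f = some f' := by rw [← rv_dd_mem, h]; exact hdf'
    have h6 := T.dec _ _ h5
    have h7 := T.dec _ _ hpar
    omega
  have hmem : T.dd f ∈ l2 ++ l1 ++ (m2 ++ m1) := by
    have := T.mem f
    rw [hf] at this
    simp only [List.mem_append, List.mem_cons] at this ⊢
    tauto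
  have hnL : (l2 ++ l1 ++ (m2 ++ m1)).Nodup := by
    refine List.Nodup.append ((List.perm_append_comm.nodup_iff).1 hnf.2)
      ((List.perm_append_comm.nodup_iff).1 hnf'.2) ?_
    intro x hx hx'
    exact hdis x (hA x hx).1 (hB x hx').1
  obtain ⟨a, b, hab⟩ := List.append_of_mem hmem
  have hsub : ∀ y ∈ a ++ b, y ∈ l2 ++ l1 ∨ y ∈ m2 ++ m1 := by
    intro y hy
    rw [← List.mem_append, hab]
    simp only [List.mem_append, List.mem_cons] at hy ⊢
    tauto
  rw [hab] at hp hnL ⊢
  rw [List.nodup_middle, List.nodup_cons] at hnL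
  have h := step T hν hp hnL.2 (by
    intro y hy g hg
    rcases eq_or_rv hg with h | h
    · exfalso
      have h5 := T.mem g
      rw [← h] at h5
      rcases hsub y hy with h6 | h6
      · have := Option.some_injective _ (face_unique K (hA y h6).1 h5)
        rw [← this] at h
        exact hnL.1 (h ▸ hy)
      · have := Option.some_injective _ (face_unique K (hB y h6).1 h5)
        rw [← this, hdd] at h
        exact (hB y h6).2 h
    · exact h)
  refine h.trans (add_le_add le_rfl (sum_le_sum_of_subset ?_))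
  intro g hg
  simp only [mem_filter, mem_univ, true_and] at hg ⊢
  rcases hsub _ hg with h6 | h6
  · refine Or.inl ⟨(rv_dd_mem T).1 (hA _ h6).1, ?_⟩
    rintro rfl
    exact (hA _ h6).2 (by rw [hdd, BrRed.rv_rv])
  · exact Or.inr ((rv_dd_mem T).1 (hB _ h6).1)

/-- a cotree with prescribed dual edge -/
theorem exists_cotree' (K : PC A) {f' : K.F} {y : Option K.F} {d : K.E × Bool}
    (h1 : d ∈ K.bd (some f')) (h2 : rv d ∈ K.bd y)
    (hd : (dG K).dist y none ≤ (dG K).dist (some f') none) (hy : y ≠ some f') :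
    ∃ T : K.Cotree, T.par f' = y ∧ T.dd f' = d := by
  classical
  choose par dd hm hr hdist using dG_parent K
  let D : Option K.F → ℕ := fun a => (dG K).dist a none
  obtain ⟨C, hC1, hC2, _⟩ := BrMir.hypT2 A K (fun g => if g = f' then y else par g)
    (fun g => if g = f' then d else dd g) (fun g => 2 * D (some g) + if g = f' then 1 else 0)
    (K.org d)
    (by
      intro g
      by_cases hg : g = f'
      · simp only [hg, if_true]; exact h1
      · simp only [hg, if_false]; exact hm g)
    (by
      intro g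
      by_cases hg : g = f'
      · simp only [hg, if_true]; exact h2
      · simp only [hg, if_false]; exact hr g)
    (by
      intro g k hgk
      by_cases hg : g = f'
      · simp only [hg, if_true] at hgk ⊢
        have hk : k ≠ f' := by
          rintro rfl
          exact hy hgk
        simp only [hk, if_false]
        rw [hgk] at hd
        have : D (some k) ≤ D (some f') := hd
        omega
      · simp only [hg, if_false] at hgk ⊢
        have h3 := hdist g
        rw [hgk] at h3
        have : D (some k) < D (some g) := h3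
        split_ifs <;> omega)
  refine ⟨C, ?_, ?_⟩
  · rw [hC1]; simp
  · rw [hC2]; simp

theorem merge_aux (hν : IsNorm ν) {f f' : K.F} (hne : f ≠ f') {l1 l2 m1 m2 : List (K.E × Bool)}
    {d : K.E × Bool} (hf : K.bd (some f) = l1 ++ d :: l2) (hf' : K.bd (some f') = m1 ++ rv d :: m2)
    (hD : (dG K).dist (some f) none ≤ (dG K).dist (some f') none) :
    ν (FreeGroup.mk (K.wd none)) ≤ ν (FreeGroup.mk (wo K (l2 ++ l1 ++ (m2 ++ m1)))) +
      ∑ g ∈ (univ.erase f).erase f', ν (FreeGroup.mk (K.wd (some g))) := by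
  classical
  obtain ⟨T, hpar, hdd⟩ := exists_cotree' K (f' := f') (y := some f) (d := rv d)
    (by rw [hf']; simp) (by rw [BrRed.rv_rv, hf]; simp) hD (by simpa using hne)
  set w : K.F → ℕ∞ := fun g => if g = f then ν (FreeGroup.mk (wo K (l2 ++ l1 ++ (m2 ++ m1))))
    else if g = f' then 0 else ν (FreeGroup.mk (K.wd (some g))) with hw
  have key : ∀ h, h ≠ f' → ν (T.c (T.dd h)) ≤ ∑ g ∈ T.sub h, w g := by
    intro h
    induction h using rank_ind T with
    | h h ih =>
      intro hh
      by_cases hf0 : h = f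
      · subst hf0
        rw [core_cards' T w hpar]
        have e1 : w h = ν (FreeGroup.mk (wo K (l2 ++ l1 ++ (m2 ++ m1)))) := by simp [hw]
        have e2 : w f' = 0 := by simp [hw, hne.symm]
        rw [e1, e2, add_zero]
        refine (pair_step T hν hne hf hf' hpar hdd).trans (add_le_add le_rfl (sum_le_sum ?_))
        intro g hg
        rcases (mem_filter.1 hg).2 with h5 | h5
        · exact ih g (T.dec _ _ h5.1) h5.2
        · have h6 := T.dec _ _ h5
          have h7 := T.dec _ _ hpar
          refine ih g (by omega) ?_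
          rintro rfl
          omega
      · rw [sum_sub T w h]
        have e1 : w h = ν (FreeGroup.mk (K.wd (some h))) := by simp [hw, hf0, hh]
        rw [e1]
        refine (one_step T hν h).trans (add_le_add le_rfl (sum_le_sum ?_))
        intro g hg
        have h5 := (mem_filter.1 hg).2
        refine ih g (T.dec _ _ h5) ?_
        rintro rfl
        rw [hpar] at h5
        exact hf0 (Option.some_injective _ h5).symm
  have h1 : ν (FreeGroup.mk (K.wd none)) ≤ ∑ g, w g := by
    rw [sum_univ T w]
    refine (out_step T hν).trans (sum_le_sum ?_)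
    intro g hg
    refine key g ?_
    rintro rfl
    have h5 := (mem_filter.1 hg).2
    rw [hpar] at h5
    cases h5
  refine h1.trans (le_of_eq ?_)
  rw [← add_sum_erase _ _ (mem_univ f), ← add_sum_erase _ _ (mem_erase.2 ⟨hne.symm, mem_univ f'⟩)]
  have e1 : w f = ν (FreeGroup.mk (wo K (l2 ++ l1 ++ (m2 ++ m1)))) := by simp [hw]
  have e2 : w f' = 0 := by simp [hw, hne.symm]
  rw [e1, e2, zero_add]
  congr 1
  refine sum_congr rfl fun g hg => ?_
  have h5 := mem_erase.1 hg
  have h6 := mem_erase.1 h5.2
  simp [hw, h5.1, h6.1]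

end Rec

open Rec

theorem stmtB1R : StmtB1R := by
  classical
  intro A K ν hν
  obtain ⟨_, T, _⟩ := exists_T K
  rw [sum_univ T]
  exact (out_step T hν).trans (sum_le_sum fun g _ => sub_le T hν g)

theorem stmtB1M : StmtB1M := by
  classical
  intro A K ν hν f f' l1 l2 m1 m2 d hne hf hf'
  rcases le_total ((dG K).dist (some f) none) ((dG K).dist (some f') none) with h | h
  · exact merge_aux hν hne hf hf' h
  · have h1 := merge_aux hν hne.symm (d := rv d) hf' (by rw [BrRed.rv_rv]; exact hf) h
    have e : FreeGroup.mk (wo K (m2 ++ m1 ++ (l2 ++ l1))) =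
        (FreeGroup.mk (wo K (l2 ++ l1)))⁻¹ * FreeGroup.mk (wo K (l2 ++ l1 ++ (m2 ++ m1))) *
          ((FreeGroup.mk (wo K (l2 ++ l1)))⁻¹)⁻¹ := by
      rw [wo_append K (m2 ++ m1), wo_append K (l2 ++ l1), ← FreeGroup.mul_mk, ← FreeGroup.mul_mk]
      group
    rw [e, hν.conj, erase_right_comm] at h1
    exact h1

theorem stmtB1P : StmtB1P := by
  classical
  intro A K ν hν l1 l2 d d' h hlab hsgn hne hends
  obtain ⟨T, C, htree⟩ := exists_T K
  have hnd := nodup_bd K none
  have hcons : K.org d' = K.org (rv d) := by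
    have hch := K.chain none
    rw [h, List.isChain_append] at hch
    exact (List.isChain_cons_cons.mp hch.2.1).1
  have hcc : C.c d * C.c d' = 1 := by
    have e1 : K.lt d' = (K.lt d)⁻¹ := by
      simp only [PC.lt, hsgn, ← hlab]
      simp [FreeGroup.inv_mk, FreeGroup.invRev]
    unfold PC.Cotree.c
    rw [e1, hcons, ← hends]
    group
  have hsplit : ((K.bd none).map C.c).prod = ((l1 ++ l2).map C.c).prod := by
    rw [h]
    simp only [List.map_append, List.map_cons, List.prod_append, List.prod_cons]
    rw [← mul_assoc (C.c d), hcc, one_mul]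
  have hd : d ∈ K.bd none := by rw [h]; simp
  have hd' : d' ∈ K.bd none := by rw [h]; simp
  have hsub : ∀ x ∈ l1 ++ l2, x ∈ K.bd none := by
    intro x hx
    rw [h]
    simp only [List.mem_append, List.mem_cons] at hx ⊢
    tauto
  rw [h, List.nodup_middle, List.nodup_cons, List.nodup_middle, List.nodup_cons] at hnd
  have hdn : d ∉ l1 ++ l2 := by
    intro hx
    apply hnd.1
    simp only [List.mem_append, List.mem_cons] at hx ⊢
    tauto
  obtain ⟨g0, hg0, hg1⟩ : ∃ g0, C.par g0 = none ∧ rv (C.dd g0) ∉ l1 ++ l2 := by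
    by_contra hcon
    push Not at hcon
    have hnt : ∀ x ∈ K.bd none, x ∉ l1 ++ l2 → ∀ f, (C.dd f).1 ≠ x.1 := by
      intro x hx hx' f hfx
      have h1 := out_cond C hx f hfx
      exact hx' (h1 ▸ hcon f ((rv_dd_mem C).1 (h1 ▸ hx)))
    exact VK5.not_both K T hne hcons.symm hends ((htree d.1).2 (hnt d hd hdn))
      ((htree d'.1).2 (hnt d' hd' hnd.2.1))
  refine ⟨g0, ?_⟩
  rw [out_eq C hν, hsplit]
  refine (nu_list C hν _ hnd.2.2 (fun x hx g hg => out_cond C (hsub x hx) g hg)).trans ?_
  refine (sum_le_sum fun g _ => sub_le C hν g).trans ?_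
  rw [← sum_biUnion]
  · refine sum_le_sum_of_subset ?_
    intro x hx
    obtain ⟨g, hg, hx⟩ := mem_biUnion.1 hx
    have h1 := (mem_filter.1 hg).2
    refine mem_erase.2 ⟨?_, mem_univ _⟩
    rintro rfl
    have h2 := VK5.desc_top C hg0 ((mem_sub C).1 hx)
    exact hg1 (h2 ▸ h1)
  · intro a ha b hb hab
    simp only [coe_filter, mem_univ, true_and, Set.mem_ofPred_eq] at ha hb
    rw [Function.onFun, Finset.disjoint_left]
    intro x hx hx'
    rw [mem_sub] at hx hx'
    exact hab (desc_disj C ((rv_dd_mem C).1 (hsub _ ha)) ((rv_dd_mem C).1 (hsub _ hb)) hx hx')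

end Vale.Agent.P172V
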