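import Vale.Agent.P172V.B1F
import Vale.Agent.P172V.B1N
import Vale.Agent.P172V.B1R

/-!
# P172V: row B1V
-/

namespace Vale.Agent.P172V

theorem stmtB1V : StmtB1V := stmtB1V_of stmtB1P stmtB1Z stmtB1F3 stmtB1F4

end Vale.Agent.P172V
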