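import Vale.Agent.P172V.B3A

/-!
# P172V, row B2: the local inequality
-/

namespace Vale.Agent.P172V

open Finset

theorem pos_edge : ∀ k, ∀ p ∈ pos k, IsEdge p := by decide

theorem ev_ne_od : ∀ p q, IsEdge p → ev p ≠ od q ∧ od p ≠ ev q := by decide

theorem edge_inj : ∀ p q, IsEdge p → ev p = ev q → od p = od q → p = q := by decide

theorem gam0_girth : ∀ a ∈ gam0, ∀ b ∈ gam0, ev b = ev a → b ≠ a → ∀ c ∈ gam0, od c = od a →
    c ≠ a → ∀ d ∈ gam0, od d = od b → d ≠ b → ev c ≠ ev d := by decide +kernel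

section Cyc

variable {Z : Finset Fl} (hE : ∀ p ∈ Z, IsEdge p)
  (hd : ∀ y, #{p ∈ Z | ev p = y} + #{p ∈ Z | od p = y} = 0 ∨
    #{p ∈ Z | ev p = y} + #{p ∈ Z | od p = y} = 2)
include hE hd

theorem other_ev {p : Fl} (hp : p ∈ Z) : ∃ q ∈ Z, ev q = ev p ∧ q ≠ p := by
  have h1 : #{q ∈ Z | od q = ev p} = 0 :=
    card_eq_zero.2 (filter_eq_empty_iff.2 fun q _ h => (ev_ne_od p q (hE p hp)).1 h.symm)
  have h2 : p ∈ {q ∈ Z | ev q = ev p} := mem_filter.2 ⟨hp, rfl⟩
  have h3 := card_pos.2 ⟨p, h2⟩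
  have h4 := hd (ev p)
  obtain ⟨q, hq, hqp⟩ := exists_mem_ne (s := {q ∈ Z | ev q = ev p}) (by omega) p
  exact ⟨q, (mem_filter.1 hq).1, (mem_filter.1 hq).2, hqp⟩

theorem other_od {p : Fl} (hp : p ∈ Z) : ∃ q ∈ Z, od q = od p ∧ q ≠ p := by
  have h1 : #{q ∈ Z | ev q = od p} = 0 :=
    card_eq_zero.2 (filter_eq_empty_iff.2 fun q _ h => (ev_ne_od p q (hE p hp)).2 h.symm)
  have h2 : p ∈ {q ∈ Z | od q = od p} := mem_filter.2 ⟨hp, rfl⟩
  have h3 := card_pos.2 ⟨p, h2⟩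
  have h4 := hd (od p)
  obtain ⟨q, hq, hqp⟩ := exists_mem_ne (s := {q ∈ Z | od q = od p}) (by omega) p
  exact ⟨q, (mem_filter.1 hq).1, (mem_filter.1 hq).2, hqp⟩

theorem cyc_path (hne : Z.Nonempty) : ∃ a ∈ Z, ∃ b ∈ Z, ∃ c ∈ Z, ∃ d ∈ Z,
    ev b = ev a ∧ b ≠ a ∧ od c = od a ∧ c ≠ a ∧ od d = od b ∧ d ≠ b ∧
      od b ≠ od a ∧ ev c ≠ ev a ∧ ev d ≠ ev a := by
  obtain ⟨a, ha⟩ := hne
  obtain ⟨b, hb, e1, n1⟩ := other_ev hE hd ha
  obtain ⟨c, hc, e2, n2⟩ := other_od hE hd ha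
  obtain ⟨d, hd', e3, n3⟩ := other_od hE hd hb
  exact ⟨a, ha, b, hb, c, hc, d, hd', e1, n1, e2, n2, e3, n3,
    fun h => n1 (edge_inj _ _ (hE b hb) e1 h), fun h => n2 (edge_inj _ _ (hE c hc) h e2),
    fun h => n3 (edge_inj _ _ (hE d hd') (h.trans e1.symm) e3)⟩

theorem four_le_card (hne : Z.Nonempty) : 4 ≤ #Z := by
  obtain ⟨a, ha, b, hb, c, hc, d, hd', e1, n1, e2, n2, e3, n3, m1, m2, m3⟩ := cyc_path hE hd hne
  have h : ([a, b, c, d] : List Fl).Nodup := by
    simp only [List.nodup_cons, List.mem_cons, List.not_mem_nil, or_false, not_or,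
      not_false_eq_true, List.nodup_nil, and_true]
    refine ⟨⟨n1.symm, n2.symm, ?_⟩, ⟨?_, n3.symm⟩, ?_⟩
    · rintro rfl; exact m3 rfl
    · rintro rfl; exact m2 e1
    · rintro rfl; exact m1 (e3.symm.trans e2)
  have h2 : ([a, b, c, d] : List Fl).toFinset ⊆ Z := by
    intro x hx
    simp only [List.mem_toFinset, List.mem_cons, List.not_mem_nil, or_false] at hx
    rcases hx with rfl | rfl | rfl | rfl <;> assumption
  have h3 := card_le_card h2
  rwa [List.toFinset_card_of_nodup h] at h3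

theorem six_le_card (hne : Z.Nonempty) (hG : Z ⊆ gam0) : 6 ≤ #Z := by
  obtain ⟨a, ha, b, hb, c, hc, d, hd', e1, n1, e2, n2, e3, n3, m1, m2, m3⟩ := cyc_path hE hd hne
  have m4 := gam0_girth a (hG ha) b (hG hb) e1 n1 c (hG hc) e2 n2 d (hG hd') e3 n3
  obtain ⟨x, hx, e4, n4⟩ := other_ev hE hd hc
  obtain ⟨y, hy, e5, n5⟩ := other_ev hE hd hd'
  have h : ([a, b, c, d, x, y] : List Fl).Nodup := by
    simp only [List.nodup_cons, List.mem_cons, List.not_mem_nil, or_false, not_or,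
      not_false_eq_true, List.nodup_nil, and_true]
    refine ⟨⟨n1.symm, n2.symm, ?_, ?_, ?_⟩, ⟨?_, n3.symm, ?_, ?_⟩, ⟨?_, n4.symm, ?_⟩,
      ⟨?_, n5.symm⟩, ?_⟩
    · rintro rfl; exact m3 rfl
    · rintro rfl; exact m2 e4.symm
    · rintro rfl; exact m3 e5.symm
    · rintro rfl; exact m2 e1
    · rintro rfl; exact m2 (e4.symm.trans e1)
    · rintro rfl; exact m3 (e5.symm.trans e1)
    · rintro rfl; exact m4 rfl
    · rintro rfl; exact m4 e5
    · rintro rfl; exact m4 e4.symm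
    · rintro rfl; exact m4 (e4.symm.trans e5)
  have h2 : ([a, b, c, d, x, y] : List Fl).toFinset ⊆ Z := by
    intro x hx
    simp only [List.mem_toFinset, List.mem_cons, List.not_mem_nil, or_false] at hx
    rcases hx with rfl | rfl | rfl | rfl | rfl | rfl <;> assumption
  have h3 := card_le_card h2
  rwa [List.toFinset_card_of_nodup h] at h3

end Cyc

/-- a ranking compatible with decreasing multiplicity -/
theorem exists_rank {α : Type*} (O : Finset α) (m : α → ℕ) :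
    ∃ rk : α → ℕ, Set.InjOn rk O ∧ ∀ o ∈ O, ∀ o' ∈ O, rk o' < rk o → m o ≤ m o' := by
  classical
  let e : α → ℕ := fun o => if h : o ∈ O then (O.equivFin ⟨o, h⟩ : ℕ) else 0
  have he : ∀ o ∈ O, e o < #O := fun o h => by simp only [e, dif_pos h]; exact Fin.is_lt _
  have hi : Set.InjOn e O := fun o h o' h' hh => by
    have h1 : o ∈ O := h
    have h2 : o' ∈ O := h'
    simp only [e, dif_pos h1, dif_pos h2] at hh
    exact congrArg Subtype.val (O.equivFin.injective (Fin.ext hh))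
  refine ⟨fun o => #O * (O.sup m - m o) + e o, fun o h o' h' hh => hi h h' ?_,
    fun o h o' h' hh => ?_⟩
  · have := congrArg (· % #O) hh
    simpa only [Nat.mul_add_mod, Nat.mod_eq_of_lt (he o h), Nat.mod_eq_of_lt (he o' h')] using this
  · by_contra hlt
    have h1 : m o ≤ O.sup m := le_sup (f := m) h
    have h2 : O.sup m - m o + 1 ≤ O.sup m - m o' := by omega
    have h3 := Nat.mul_le_mul_left #O h2
    have h4 := he o h
    simp only at hh
    rw [mul_add, mul_one] at h3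
    omega

/-- layer cake -/
theorem layer_cake {F α : Type*} [Fintype F] [DecidableEq α] (ob : F → α) (b : α → ℤ) :
    ∑ f, b (ob f) = ∑ t ∈ range (Fintype.card F),
      ∑ o ∈ {o ∈ univ.image ob | t < #{f | ob f = o}}, b o := by
  rw [sum_comp b ob]
  simp only [sum_filter]
  rw [sum_comm]
  refine sum_congr rfl fun o _ => ?_
  rw [← sum_filter, sum_const]
  congr 1
  have h : #{f | ob f = o} ≤ Fintype.card F := card_le_univ _
  rw [show {t ∈ range (Fintype.card F) | t < #{f | ob f = o}} = range #{f | ob f = o} by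
    ext t; simp only [mem_filter, mem_range]; omega, card_range]

theorem stmtB2_of (hA : StmtB3A) : StmtB2 := by
  intro S Q Z _ D s0 s1 n K0 hS F _ _ ob0 Zf μ hcyc hμ0 hm hK
  classical
  set ob : F → Obj Q Z := fun f => (ob0 f).1 with hob
  change F → Finset Fl at Zf
  change F × Fl → F × Fl at μ
  have hμ : ∀ x : F × Fl, μ (μ x) = x := hμ0
  have hm' : ∀ x, μ x ≠ x → x.2 ∈ Zf x.1 ∧ D.lab (ob x.1) x.2 = D.lab (ob (μ x).1) (μ x).2 ∧
      ¬ (ob x.1 = ob (μ x).1 ∧ x.2 = (μ x).2) := fun x hx =>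
    ⟨(hm x hx).1, (hm x hx).2.1, fun h => (hm x hx).2.2 (Prod.ext (Subtype.ext h.1) h.2)⟩
  have hpos : ∀ f, Zf f ⊆ pos (kind (ob f)) := fun f p hp => (hcyc f).2.1 p hp
  have hdeg : ∀ f y, #{p ∈ Zf f | ev p = y} + #{p ∈ Zf f | od p = y} = 0 ∨
      #{p ∈ Zf f | ev p = y} + #{p ∈ Zf f | od p = y} = 2 := fun f y => (hcyc f).2.2 y
  have hlen : ∀ f, 2 * gl (ob f) ≤ #(Zf f) := by
    intro f
    have hE : ∀ p ∈ Zf f, IsEdge p := fun p hp => pos_edge _ p (hpos f hp)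
    have h1 := hpos f
    rcases h : ob f with q | z
    · exact four_le_card hE (hdeg f) (hcyc f).1
    · rw [h] at h1
      exact six_le_card hE (hdeg f) (hcyc f).1 h1
  set O : Finset (Obj Q Z) := univ.image ob with hO
  have hmem : ∀ f, ob f ∈ O := fun f => mem_image_of_mem _ (mem_univ f)
  obtain ⟨rk, hrk, hrkm⟩ := exists_rank O fun o => #{f | ob f = o}
  let ρ : Fl → ℕ := fun p => Fintype.equivFin Fl p
  have hρ : Function.Injective ρ := fun p q h => (Fintype.equivFin Fl).injective (Fin.ext h)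
  let lt : F × Fl → F × Fl → Prop := fun x y =>
    rk (ob y.1) < rk (ob x.1) ∨ (ob y.1 = ob x.1 ∧ ρ y.2 < ρ x.2)
  let sp : F × Fl → Prop := fun x => D.lab (ob x.1) x.2 = s0 ∨ D.lab (ob x.1) x.2 = s1
  let P : F × Fl → Prop := fun x => (μ x = x ∧ sp x) ∨ (μ x ≠ x ∧ lt x (μ x))
  let T : F → Finset Fl := fun f => {p ∈ Zf f | P (f, p)}
  set U : Finset (F × Fl) := {x | x.2 ∈ Zf x.1 ∧ μ x = x ∧ ¬ sp x} with hU
  set TT : Finset (F × Fl) := {x | x.2 ∈ Zf x.1 ∧ P x} with hTT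
  set A : Finset (F × Fl) := {x | x.2 ∈ Zf x.1} with hAdef
  have h1 : A ⊆ U ∪ (TT ∪ TT.image μ) := by
    intro x hx
    have hx' : x.2 ∈ Zf x.1 := (mem_filter.1 hx).2
    simp only [mem_union]
    by_cases h : μ x = x
    · by_cases h' : sp x
      · exact Or.inr (Or.inl (mem_filter.2 ⟨mem_univ _, hx', Or.inl ⟨h, h'⟩⟩))
      · exact Or.inl (mem_filter.2 ⟨mem_univ _, hx', h, h'⟩)
    by_cases h' : lt x (μ x)
    · exact Or.inr (Or.inl (mem_filter.2 ⟨mem_univ _, hx', Or.inr ⟨h, h'⟩⟩))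
    have h2 : μ (μ x) ≠ μ x := by rw [hμ]; exact fun e => h e.symm
    refine Or.inr (Or.inr (mem_image.2 ⟨μ x, mem_filter.2 ⟨mem_univ _, (hm' _ h2).1,
      Or.inr ⟨h2, ?_⟩⟩, hμ x⟩))
    rw [hμ]
    have h3 := (hm' x h).2.2
    simp only [lt, not_or, not_and, not_lt] at h' h3 ⊢
    rcases h'.1.lt_or_eq with h4 | h4
    · exact Or.inl h4
    · have h5 : ob x.1 = ob (μ x).1 := hrk (hmem _) (hmem _) h4
      exact Or.inr ⟨h5, lt_of_le_of_ne (h'.2 h5.symm) fun e => h3 h5 (hρ e)⟩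
  have h2 : #A ≤ #U + 2 * #TT := by
    have := (card_le_card h1).trans ((card_union_le _ _).trans (Nat.add_le_add_left
      ((card_union_le _ _).trans (Nat.add_le_add_left card_image_le _)) _))
    omega
  have hcard : ∀ (W : F → Finset Fl), #({x | x.2 ∈ W x.1} : Finset (F × Fl)) = ∑ f, #(W f) := by
    intro W
    rw [card_filter, Fintype.sum_prod_type]
    refine sum_congr rfl fun f _ => ?_
    rw [← card_filter]
    simp
  have h3 : #A = ∑ f, #(Zf f) := hcard Zf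
  have h4 : #TT = ∑ f, #(T f) := by
    rw [← hcard T]
    congr 1
    ext x
    simp [hTT, T]
  have hex : ∀ o, ∃ W : Finset Fl, o ∈ O → (∃ f, ob f = o ∧ W = T f) ∧
      ∀ f, ob f = o → #(T f) ≤ #W := by
    intro o
    by_cases ho : o ∈ O
    · obtain ⟨f0, -, hf0⟩ := mem_image.1 ho
      obtain ⟨f, hf, hmax⟩ := exists_max_image ({f | ob f = o} : Finset F) (fun f => #(T f))
        ⟨f0, mem_filter.2 ⟨mem_univ _, hf0⟩⟩
      exact ⟨T f, fun _ => ⟨⟨f, (mem_filter.1 hf).2, rfl⟩,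
        fun f' hf' => hmax f' (mem_filter.2 ⟨mem_univ _, hf'⟩)⟩⟩
    · exact ⟨∅, fun h => absurd h ho⟩
  choose W hW using hex
  have h5 : ∀ t, (#{o ∈ O | t < #{f | ob f = o}} : ℤ) ≤
      2 * n * ∑ o ∈ {o ∈ O | t < #{f | ob f = o}}, ((gl o : ℤ) - #(W o)) := by
    intro t
    refine hA S Q Z D s0 s1 n K0 hS _ rk ρ W ?_ (hrk.mono (coe_subset.2 (filter_subset _ _)))
      ?_ ?_ ?_ ?_
    · exact (card_filter_le _ _).trans (card_image_le.trans hK)
    · intro o ho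
      obtain ⟨f, -, rfl⟩ := mem_image.1 (mem_filter.1 ho).1
      exact (ob0 f).2
    · intro o ho
      obtain ⟨⟨f, rfl, e⟩, -⟩ := hW o (mem_filter.1 ho).1
      rw [e]
      exact (filter_subset _ _).trans (hpos f)
    · intro o ho x
      obtain ⟨⟨f, rfl, e⟩, -⟩ := hW o (mem_filter.1 ho).1
      rw [e]
      have := card_le_card (filter_subset_filter (fun t => od t = x)
        (show T f ⊆ Zf f from filter_subset _ _))
      have := hdeg f x
      omega
    · intro o ho p hp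
      obtain ⟨⟨f, rfl, e⟩, -⟩ := hW o (mem_filter.1 ho).1
      rw [e] at hp
      rcases (mem_filter.1 hp).2 with ⟨-, h | h⟩ | ⟨h, h'⟩
      · exact Or.inl h
      · exact Or.inr (Or.inl h)
      have h2 : μ (μ (f, p)) ≠ μ (f, p) := by rw [hμ]; exact fun e => h e.symm
      refine Or.inr (Or.inr ⟨ob (μ (f, p)).1, mem_filter.2 ⟨hmem _, ?_⟩, (μ (f, p)).2,
        hpos _ (hm' _ h2).1, (hm' _ h).2.1.symm, h'⟩)
      rcases h' with h' | ⟨h', -⟩
      · exact (mem_filter.1 ho).2.trans_le (hrkm _ (hmem _) _ (hmem _) h')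
      · rw [h']
        exact (mem_filter.1 ho).2
  have h6 := layer_cake ob fun o => (gl o : ℤ) - #(W o)
  have h7 := layer_cake ob fun _ => 1
  simp only [sum_const, card_univ, nsmul_eq_mul, mul_one] at h7
  have h8 : (Fintype.card F : ℤ) ≤ 2 * n * ∑ f, ((gl (ob f) : ℤ) - #(W (ob f))) := by
    rw [h7, h6, mul_sum]
    exact sum_le_sum fun t _ => h5 t
  have h9 : 2 * ∑ f, ((gl (ob f) : ℤ) - #(W (ob f))) ≤ #U := by
    have e : 2 * ∑ f, ((gl (ob f) : ℤ) - #(W (ob f))) ≤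
        ∑ f, (#(Zf f) : ℤ) - 2 * ∑ f, (#(T f) : ℤ) := by
      rw [mul_sum, mul_sum, ← sum_sub_distrib]
      refine sum_le_sum fun f _ => ?_
      have e1 := hlen f
      have e2 := (hW _ (hmem f)).2 f rfl
      omega
    rw [h3, h4] at h2
    zify at h2
    linarith
  have h10 : (Fintype.card F : ℤ) ≤ n * #U := by
    have := mul_le_mul_of_nonneg_left h9 (show (0 : ℤ) ≤ n by positivity)
    linarith
  have h11 : Fintype.card F ≤ n * #U := by exact_mod_cast h10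
  refine h11.trans (Nat.mul_le_mul_left _ (card_le_card fun x hx => ?_))
  exact (@mem_filter _ _ (_) _ _).2 ⟨mem_univ _, ((@mem_filter _ _ (_) _ _).1 hx).2⟩

theorem stmtB2 : StmtB2 := stmtB2_of stmtB3A

end Vale.Agent.P172V
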