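import Mathlib

/-!
# P172V, part B2 (first half): the potential `Phi` and the prefix claim, for an abstract design
-/

namespace Vale.Agent.P172V

open Finset

/-- The combinatorial data used by the local inequality.  `own φ` is one chosen role containing the
flag `φ`; `B` = 2,1,0,2,2,0,2,2,1,1 for Q1,Q2,C,Q3,Q4,C',Q5,Q6,D5,D6. -/
structure Des (Role Flag S K Z : Type*) [Fintype Role] [DecidableEq Role] [Fintype Flag] where
  slots : Role → Finset Flag
  G0 : Finset Flag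
  own : Flag → Role
  B : Role → ℕ
  qlab : Role × K → Flag → S
  key : Role → Z → K
  blab : Z → Flag → S
  own_mem : ∀ φ, φ ∈ slots (own φ)
  blab_eq : ∀ r ζ φ, φ ∈ slots r → blab ζ φ = qlab (r, key r ζ) φ
  sumB : ∑ r, B r = 13
  hB : ∀ r, #{φ | own φ = r} + 2 ≤ B r + #(slots r)

/-- new labels sit at positions outside `T` and outside `Old` -/
theorem card_new_le {Flag S : Type*} [DecidableEq Flag] [DecidableEq S] (Ps T Old : Finset Flag)
    (l : Flag → S) (pr : Flag → ℕ) (Kn : Finset S)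
    (hT : ∀ φ ∈ T, l φ ∈ Kn ∨ ∃ φ' ∈ Ps, pr φ' < pr φ ∧ l φ' = l φ)
    (hO : ∀ φ ∈ Old, l φ ∈ Kn) : #(Ps.image l \ Kn) ≤ #((Ps \ Old) \ T) := by
  refine le_trans (card_le_card ?_) (card_image_le (f := l))
  intro x hx
  obtain ⟨hx1, hx2⟩ := mem_sdiff.1 hx
  have hne : (Ps.filter fun φ => l φ = x).Nonempty := by
    obtain ⟨φ, h1, h2⟩ := mem_image.1 hx1
    exact ⟨φ, mem_filter.2 ⟨h1, h2⟩⟩
  obtain ⟨φ, h1, h2⟩ := exists_min_image _ pr hne
  obtain ⟨h3, h4⟩ := mem_filter.1 h1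
  refine mem_image.2 ⟨φ, mem_sdiff.2 ⟨mem_sdiff.2 ⟨h3, fun h => hx2 (h4 ▸ hO φ h)⟩, fun h => ?_⟩, h4⟩
  rcases hT φ h with h5 | ⟨φ', h5, h6, h7⟩
  · exact hx2 (h4 ▸ h5)
  · exact absurd (h2 φ' (mem_filter.2 ⟨h5, h7.trans h4⟩)) (not_le.2 h6)

namespace Des

variable {Role Flag S K Z : Type*} [Fintype Role] [DecidableEq Role] [Fintype Flag]
  [DecidableEq Flag] [DecidableEq S] [DecidableEq K] [DecidableEq Z]
  (E : Des Role Flag S K Z)

/-- positions of an object (a quad or a block) -/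
def opos : (Role × K) ⊕ Z → Finset Flag
  | .inl q => E.slots q.1
  | .inr _ => E.G0

/-- labels of an object -/
def olab : (Role × K) ⊕ Z → Flag → S
  | .inl q => E.qlab q
  | .inr ζ => E.blab ζ

/-- quads of an object -/
def oq : (Role × K) ⊕ Z → Finset (Role × K)
  | .inl q => {q}
  | .inr ζ => univ.image fun r => (r, E.key r ζ)

/-- the slots counted by `h` -/
def hs (r : Role) : Finset Flag := {φ | φ ∉ E.G0 ∧ E.own φ = r}

/-- what is used about a subset of the positions of a simple cycle of an object -/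
def Ok : (Role × K) ⊕ Z → Finset Flag → Prop
  | .inl q, C => C ⊆ E.slots q.1 ∧ #(C ∩ E.G0) + #(E.slots q.1 \ E.G0) ≤ 2 + #(E.hs q.1)
  | .inr _, C => C ⊆ E.G0 ∧ ∀ r, #{φ ∈ C | E.own φ = r} ≤ E.B r

def QQ (I : Finset ((Role × K) ⊕ Z)) : Finset (Role × K) := I.biUnion E.oq

def vis (I : Finset ((Role × K) ⊕ Z)) (q : Role × K) : Finset Flag :=
  if Sum.inl q ∈ I then E.slots q.1 else E.slots q.1 ∩ E.G0

def RR (I : Finset ((Role × K) ⊕ Z)) : Finset S :=
  (E.QQ I).biUnion fun q => (E.vis I q).image (E.qlab q)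

def wt (I : Finset ((Role × K) ⊕ Z)) (q : Role × K) : ℤ :=
  (if Sum.inl q ∈ I then 0 else #(E.hs q.1)) + 2 - #(E.slots q.1)

def Phi (Sp : Finset S) (I : Finset ((Role × K) ⊕ Z)) : ℤ :=
  #(E.RR I \ Sp) + ∑ q ∈ E.QQ I, E.wt I q

def top : (Role × K) ⊕ Z → ℤ
  | .inl _ => 2
  | .inr _ => 13

omit [DecidableEq Flag] [DecidableEq S] [DecidableEq Z] in
theorem mem_QQ {I : Finset ((Role × K) ⊕ Z)} {q : Role × K} :
    q ∈ E.QQ I ↔ Sum.inl q ∈ I ∨ ∃ ζ, Sum.inr ζ ∈ I ∧ q.2 = E.key q.1 ζ := by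
  unfold QQ
  rw [mem_biUnion]
  constructor
  · rintro ⟨o | ζ, h1, h2⟩
    · left
      rw [oq, mem_singleton] at h2
      rwa [h2]
    · right
      obtain ⟨r, -, rfl⟩ := mem_image.1 h2
      exact ⟨ζ, h1, rfl⟩
  · rintro (h | ⟨ζ, h1, h2⟩)
    · exact ⟨_, h, mem_singleton_self _⟩
    · exact ⟨_, h1, mem_image.2 ⟨q.1, mem_univ _, by rw [← h2]⟩⟩

theorem mem_RR {I : Finset ((Role × K) ⊕ Z)} {x : S} :
    x ∈ E.RR I ↔ ∃ q ∈ E.QQ I, ∃ φ ∈ E.slots q.1, (Sum.inl q ∈ I ∨ φ ∈ E.G0) ∧ E.qlab q φ = x := by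
  unfold RR
  simp only [mem_biUnion, mem_image]
  refine exists_congr fun q => and_congr_right fun _ => exists_congr fun φ => ?_
  unfold vis
  split_ifs with h <;> simp [h, and_assoc]

/-- the labels of an object of `I` are in `RR I` -/
theorem olab_mem_RR {I : Finset ((Role × K) ⊕ Z)} {o : (Role × K) ⊕ Z} (ho : o ∈ I) {φ : Flag}
    (hφ : φ ∈ E.opos o) : E.olab o φ ∈ E.RR I := by
  rw [mem_RR]
  rcases o with q | ζ
  · exact ⟨q, E.mem_QQ.2 (Or.inl ho), φ, hφ, Or.inl ho, rfl⟩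
  · exact ⟨(E.own φ, E.key (E.own φ) ζ), E.mem_QQ.2 (Or.inr ⟨ζ, ho, rfl⟩), φ, E.own_mem φ,
      Or.inr hφ, (E.blab_eq _ _ _ (E.own_mem φ)).symm⟩

theorem RR_insert {I : Finset ((Role × K) ⊕ Z)} (o : (Role × K) ⊕ Z) :
    E.RR (insert o I) ⊆ E.RR I ∪ (E.opos o).image (E.olab o) := by
  intro x hx
  rw [mem_union, mem_image]
  obtain ⟨q, hq, φ, hφ, h1, rfl⟩ := E.mem_RR.1 hx
  by_cases hqo : Sum.inl q = o
  · subst hqo
    exact Or.inr ⟨φ, hφ, rfl⟩
  have h1' : Sum.inl q ∈ I ∨ φ ∈ E.G0 := h1.imp_left fun h => (mem_insert.1 h).resolve_left hqo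
  by_cases hqI : q ∈ E.QQ I
  · exact Or.inl (E.mem_RR.2 ⟨q, hqI, φ, hφ, h1', rfl⟩)
  rw [mem_QQ] at hq hqI
  rcases hq with hq | ⟨ζ, hζ, hq⟩
  · exact absurd (Or.inl ((mem_insert.1 hq).resolve_left hqo)) hqI
  rcases mem_insert.1 hζ with rfl | hζ
  · refine Or.inr ⟨φ, h1'.resolve_left fun h => hqI (Or.inl h), ?_⟩
    rw [olab, E.blab_eq q.1 ζ φ hφ, ← hq]
  · exact absurd (Or.inr ⟨ζ, hζ, hq⟩) hqI

theorem card_RR_insert (Sp : Finset S) {I : Finset ((Role × K) ⊕ Z)} (o : (Role × K) ⊕ Z)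
    (T Old : Finset Flag) (pr : Flag → ℕ)
    (hT : ∀ φ ∈ T, E.olab o φ ∈ E.RR I ∪ Sp ∨
      ∃ φ' ∈ E.opos o, pr φ' < pr φ ∧ E.olab o φ' = E.olab o φ)
    (hO : ∀ φ ∈ Old, E.olab o φ ∈ E.RR I ∪ Sp) :
    #(E.RR (insert o I) \ Sp) ≤ #(E.RR I \ Sp) + #((E.opos o \ Old) \ T) := by
  have h1 := card_new_le (E.opos o) T Old (E.olab o) pr (E.RR I ∪ Sp) hT hO
  refine le_trans (card_le_card ?_) ((card_union_le _ _).trans (Nat.add_le_add_left h1 _))
  intro x hx
  obtain ⟨hx1, hx2⟩ := mem_sdiff.1 hx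
  rw [mem_union, mem_sdiff, mem_sdiff, mem_union]
  rcases mem_union.1 (E.RR_insert o hx1) with h | h
  · exact Or.inl ⟨h, hx2⟩
  · by_cases h' : x ∈ E.RR I
    · exact Or.inl ⟨h', hx2⟩
    · exact Or.inr ⟨h, fun h'' => h''.elim h' hx2⟩

/-- one step of the potential -/
theorem Phi_insert (Sp : Finset S) {I : Finset ((Role × K) ⊕ Z)} {o : (Role × K) ⊕ Z} (ho : o ∉ I)
    (T : Finset Flag) (hC : E.Ok o T) (pr : Flag → ℕ)
    (hT : ∀ φ ∈ T, E.olab o φ ∈ E.RR I ∪ Sp ∨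
      ∃ φ' ∈ E.opos o, pr φ' < pr φ ∧ E.olab o φ' = E.olab o φ) :
    E.Phi Sp (insert o I) ≤ E.Phi Sp I + (top o - #T) := by
  unfold Phi
  rcases o with q | ζ
  · have hQ : E.QQ (insert (Sum.inl q) I) = insert q (E.QQ I) := by
      rw [QQ, biUnion_insert, oq, QQ, insert_eq]
    have hw : ∀ q' ∈ (E.QQ I).erase q, E.wt (insert (Sum.inl q) I) q' = E.wt I q' := by
      intro q' hq'
      have : q' ≠ q := (mem_erase.1 hq').1
      simp [wt, this]
    have hw0 : E.wt (insert (Sum.inl q) I) q = 2 - #(E.slots q.1) := by simp [wt]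
    have hTs : T ⊆ E.slots q.1 := hC.1
    by_cases hq : q ∈ E.QQ I
    · have h1 := E.card_RR_insert Sp (Sum.inl q) T (E.slots q.1 ∩ E.G0) pr hT fun φ hφ =>
        mem_union_left _ (E.mem_RR.2 ⟨q, hq, φ, (mem_inter.1 hφ).1, Or.inr (mem_inter.1 hφ).2, rfl⟩)
      have h2 : #((E.opos (Sum.inl q) \ (E.slots q.1 ∩ E.G0)) \ T) + #T =
          #(E.slots q.1 \ E.G0) + #(T ∩ E.G0) := by
        rw [← card_union_of_disjoint sdiff_disjoint, ← card_union_of_disjoint]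
        · congr 1
          ext φ
          have := @hTs φ
          simp only [opos, mem_union, mem_sdiff, mem_inter]
          tauto
        · exact disjoint_left.2 fun φ h h' => (mem_sdiff.1 h).2 (mem_inter.1 h').2
      have h4 := hC.2
      have hw1 : E.wt I q = #(E.hs q.1) + 2 - #(E.slots q.1) := by simp [wt, ho]
      rw [hQ, insert_eq_of_mem hq, ← add_sum_erase _ _ hq, ← add_sum_erase _ _ hq,
        sum_congr rfl hw, hw0, hw1, top]
      zify at h1 h2 h4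
      linarith
    · have h1 := E.card_RR_insert Sp (Sum.inl q) T ∅ pr hT (by simp)
      rw [sdiff_empty, card_sdiff_of_subset (show T ⊆ E.opos (Sum.inl q) from hTs), opos] at h1
      have h2 := card_le_card hTs
      rw [erase_eq_of_notMem hq] at hw
      rw [hQ, sum_insert hq, sum_congr rfl hw, hw0, top]
      zify [h2] at h1
      linarith
  · set Nw : Finset Role := {r | (r, E.key r ζ) ∉ E.QQ I} with hNw
    have hQ : E.QQ (insert (Sum.inr ζ) I) = E.QQ I ∪ Nw.image fun r => (r, E.key r ζ) := by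
      rw [QQ, biUnion_insert, oq, ← QQ]
      ext q
      simp only [mem_union, mem_image, mem_univ, true_and, hNw, mem_filter]
      constructor
      · rintro (⟨r, rfl⟩ | h)
        · by_cases h : (r, E.key r ζ) ∈ E.QQ I
          · exact Or.inl h
          · exact Or.inr ⟨r, h, rfl⟩
        · exact Or.inl h
      · rintro (h | ⟨r, -, rfl⟩)
        · exact Or.inr h
        · exact Or.inl ⟨r, rfl⟩
    have hdis : Disjoint (E.QQ I) (Nw.image fun r => (r, E.key r ζ)) := by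
      refine disjoint_right.2 fun q hq => ?_
      obtain ⟨r, hr, rfl⟩ := mem_image.1 hq
      exact (mem_filter.1 hr).2
    have hw : ∀ q', E.wt (insert (Sum.inr ζ) I) q' = E.wt I q' := by
      intro q'
      simp [wt]
    have hw1 : ∀ r ∈ Nw, E.wt I (r, E.key r ζ) = #(E.hs r) + 2 - #(E.slots r) := by
      intro r hr
      have : Sum.inl (r, E.key r ζ) ∉ I := fun h => (mem_filter.1 hr).2 (E.mem_QQ.2 (Or.inl h))
      simp [wt, this]
    have h1 := E.card_RR_insert Sp (Sum.inr ζ) T {φ ∈ E.G0 | E.own φ ∉ Nw} pr hT fun φ hφ => by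
      obtain ⟨h1, h2⟩ := mem_filter.1 hφ
      refine mem_union_left _ (E.mem_RR.2 ⟨(E.own φ, E.key (E.own φ) ζ), ?_, φ, E.own_mem φ,
        Or.inr h1, (E.blab_eq _ _ _ (E.own_mem φ)).symm⟩)
      simpa [hNw] using h2
    have hTG : T ⊆ E.G0 := hC.1
    have h2 : #((E.opos (Sum.inr ζ) \ {φ ∈ E.G0 | E.own φ ∉ Nw}) \ T) =
        ∑ r ∈ Nw, #{φ ∈ E.G0 \ T | E.own φ = r} := by
      rw [← card_biUnion]
      · congr 1
        ext φ
        simp only [opos, mem_sdiff, mem_filter, mem_biUnion]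
        constructor
        · rintro ⟨⟨h1, h2⟩, h3⟩
          refine ⟨E.own φ, ?_, ⟨h1, h3⟩, rfl⟩
          by_contra h
          exact h2 ⟨h1, h⟩
        · rintro ⟨r, h1, ⟨h2, h3⟩, rfl⟩
          exact ⟨⟨h2, fun h => h.2 h1⟩, h3⟩
      · intro r _ r' _ hrr
        exact disjoint_left.2 fun φ h h' => hrr ((mem_filter.1 h).2.symm.trans (mem_filter.1 h').2)
    have h3 : (#T : ℤ) = ∑ r, (#{φ ∈ T | E.own φ = r} : ℤ) := by
      rw [card_eq_sum_card_fiberwise (f := E.own) (t := univ) fun _ _ => mem_univ _]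
      push_cast
      rfl
    have h4 : ∀ r, (#{φ ∈ T | E.own φ = r} : ℤ) ≤ E.B r := fun r => by
      exact_mod_cast hC.2 r
    have h5 : ∀ r, (#{φ ∈ E.G0 \ T | E.own φ = r} : ℤ) + (#(E.hs r) + 2 - #(E.slots r)) ≤
        E.B r - #{φ ∈ T | E.own φ = r} := by
      intro r
      have e1 : #{φ ∈ E.G0 \ T | E.own φ = r} + #{φ ∈ T | E.own φ = r} + #(E.hs r) =
          #{φ | E.own φ = r} := by
        rw [← card_union_of_disjoint, ← card_union_of_disjoint]
        · congr 1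
          ext φ
          have := @hTG φ
          simp only [hs, mem_union, mem_sdiff, mem_filter, mem_univ, true_and]
          tauto
        · refine disjoint_left.2 fun φ h h' => (mem_filter.1 h').2.1 ?_
          rcases mem_union.1 h with h | h
          · exact (mem_sdiff.1 (mem_filter.1 h).1).1
          · exact hTG (mem_filter.1 h).1
        · exact disjoint_left.2 fun φ h h' => (mem_sdiff.1 (mem_filter.1 h).1).2 (mem_filter.1 h').1
      have e2 := E.hB r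
      omega
    have h6 : ∑ r ∈ Nw, ((#{φ ∈ E.G0 \ T | E.own φ = r} : ℤ) + (#(E.hs r) + 2 - #(E.slots r))) ≤
        ∑ r, ((E.B r : ℤ) - #{φ ∈ T | E.own φ = r}) :=
      (sum_le_sum fun r _ => h5 r).trans (sum_le_sum_of_subset_of_nonneg (subset_univ _)
        fun r _ _ => sub_nonneg.2 (h4 r))
    have h7 : ∑ r, (E.B r : ℤ) = 13 := by exact_mod_cast E.sumB
    rw [sum_add_distrib, sum_sub_distrib (s := univ), h7, ← h3] at h6
    rw [hQ, sum_union hdis, sum_image fun r _ r' _ h => (Prod.ext_iff.1 h).1, top]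
    simp only [hw]
    rw [sum_congr rfl hw1]
    rw [h2] at h1
    have h8 : (#(E.RR (insert (Sum.inr ζ) I) \ Sp) : ℤ) ≤
        #(E.RR I \ Sp) + ∑ r ∈ Nw, (#{φ ∈ E.G0 \ T | E.own φ = r} : ℤ) := by exact_mod_cast h1
    linarith

/-- the potential is bounded by the sum of the steps -/
theorem Phi_le {L : Type*} [LinearOrder L] (Sp : Finset S) (rk : (Role × K) ⊕ Z → L)
    (pr : Flag → ℕ) (T : (Role × K) ⊕ Z → Finset Flag) (I : Finset ((Role × K) ⊕ Z))
    (hC : ∀ o ∈ I, E.Ok o (T o))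
    (hT : ∀ o ∈ I, ∀ φ ∈ T o, E.olab o φ ∈ Sp ∨ ∃ o' ∈ I, ∃ φ' ∈ E.opos o',
      (rk o' < rk o ∨ (o' = o ∧ pr φ' < pr φ)) ∧ E.olab o' φ' = E.olab o φ) :
    E.Phi Sp I ≤ ∑ o ∈ I, (top o - #(T o)) := by
  induction I using Finset.induction_on_max_value rk with
  | empty => simp [Phi, QQ, RR]
  | insert a s ha hmax ih =>
    have h1 := E.Phi_insert Sp ha (T a) (hC a (mem_insert_self _ _)) pr fun φ hφ => by
      rcases hT a (mem_insert_self _ _) φ hφ with h | ⟨o', ho', φ', hφ', h | ⟨rfl, h⟩, h'⟩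
      · exact Or.inl (mem_union_right _ h)
      · have : o' ∈ s := (mem_insert.1 ho').resolve_left fun e => by
          rw [e] at h; exact lt_irrefl _ h
        exact Or.inl (mem_union_left _ (h' ▸ E.olab_mem_RR this hφ'))
      · exact Or.inr ⟨φ', hφ', h, h'⟩
    have h2 := ih (fun o ho => hC o (mem_insert_of_mem ho)) fun o ho φ hφ => by
      rcases hT o (mem_insert_of_mem ho) φ hφ with h | ⟨o', ho', φ', hφ', h, h'⟩
      · exact Or.inl h
      · refine Or.inr ⟨o', ?_, φ', hφ', h, h'⟩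
        rcases h with h | ⟨rfl, -⟩
        · exact (mem_insert.1 ho').resolve_left fun e => by
            rw [e] at h; exact absurd (hmax o ho) (not_le.2 h)
        · exact ho
    rw [sum_insert ha]
    linarith

/-- all labels of a set of quads -/
def LL (Q : Finset (Role × K)) : Finset S := Q.biUnion fun q => (E.slots q.1).image (E.qlab q)

theorem LL_le (Sp : Finset S) (I : Finset ((Role × K) ⊕ Z)) :
    (#(E.LL (E.QQ I) \ Sp) : ℤ) + ∑ q ∈ E.QQ I, (2 - (#(E.slots q.1) : ℤ)) ≤ E.Phi Sp I := by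
  have h1 : E.LL (E.QQ I) \ Sp ⊆ (E.RR I \ Sp) ∪
      ((E.QQ I).filter fun q => Sum.inl q ∉ I).biUnion fun q => (E.hs q.1).image (E.qlab q) := by
    intro x hx
    obtain ⟨hx1, hx2⟩ := mem_sdiff.1 hx
    obtain ⟨q, hq, hx3⟩ := mem_biUnion.1 hx1
    obtain ⟨φ, hφ, rfl⟩ := mem_image.1 hx3
    rw [mem_union, mem_sdiff]
    rcases E.mem_QQ.1 hq with h | ⟨ζ, hζ, h⟩
    · exact Or.inl ⟨E.mem_RR.2 ⟨q, hq, φ, hφ, Or.inl h, rfl⟩, hx2⟩
    have e : E.qlab (E.own φ, E.key (E.own φ) ζ) φ = E.qlab q φ := by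
      rw [← E.blab_eq _ _ _ (E.own_mem φ), E.blab_eq q.1 ζ φ hφ, ← h]
    have hq' : (E.own φ, E.key (E.own φ) ζ) ∈ E.QQ I := E.mem_QQ.2 (Or.inr ⟨ζ, hζ, rfl⟩)
    by_cases h2 : Sum.inl (E.own φ, E.key (E.own φ) ζ) ∈ I ∨ φ ∈ E.G0
    · exact Or.inl ⟨E.mem_RR.2 ⟨_, hq', φ, E.own_mem φ, h2, e⟩, hx2⟩
    · rw [not_or] at h2
      exact Or.inr (mem_biUnion.2 ⟨_, mem_filter.2 ⟨hq', h2.1⟩,
        mem_image.2 ⟨φ, mem_filter.2 ⟨mem_univ _, h2.2, rfl⟩, e⟩⟩)
  have h2 := (card_le_card h1).trans ((card_union_le _ _).trans (Nat.add_le_add_left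
    (card_biUnion_le.trans (sum_le_sum fun q _ => card_image_le)) _))
  have h3 : ∑ q ∈ E.QQ I, E.wt I q = ∑ q ∈ (E.QQ I).filter fun q => Sum.inl q ∉ I, (#(E.hs q.1) : ℤ) +
      ∑ q ∈ E.QQ I, (2 - (#(E.slots q.1) : ℤ)) := by
    rw [sum_filter, ← sum_add_distrib]
    refine sum_congr rfl fun q _ => ?_
    unfold wt
    split_ifs <;> ring
  have h4 : (#(E.LL (E.QQ I) \ Sp) : ℤ) ≤ #(E.RR I \ Sp) +
      ∑ q ∈ (E.QQ I).filter fun q => Sum.inl q ∉ I, (#(E.hs q.1) : ℤ) := by exact_mod_cast h2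
  unfold Phi
  linarith

end Des

end Vale.Agent.P172V
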