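import Vale.Agent.P172V.Stmts
import Vale.Agent.P172V.Loc1

/-!
# P172V, row B3A: the inequality for initial segments of the list of objects
-/

namespace Vale.Agent.P172V

open Finset

/-- one role containing a given flag -/
def own : Fl → Ro
  | .vu => .q1 | .va => .q1 | .t1u => .q1 | .t1a => .q1 | .vb => .q2 | .t2u => .q2 | .t2b => .q2
  | .wa => .cc | .wb => .cc
  | .vc' => .q3 | .vc => .q3 | .s3c' => .q3 | .s3c => .q3 | .r3c' => .q3 | .r3c => .q3
  | .vd' => .q4 | .vd => .q4 | .s4d' => .q4 | .s4d => .q4 | .r4d' => .q4 | .r4d => .q4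
  | .w'c' => .cc' | .w'd' => .cc'
  | .t1e => .q5 | .t1e' => .q5 | .s3e => .q5 | .s3e' => .q5 | .s4e => .q5 | .s4e' => .q5
  | .t2f => .q6 | .t2f' => .q6 | .r3f => .q6 | .r3f' => .q6 | .r4f => .q6 | .r4f' => .q6
  | .z5 => .d5 | .z6 => .d6

/-- budget of a role in a block step -/
def bud : Ro → ℕ
  | .q1 => 2 | .q2 => 1 | .cc => 0 | .q3 => 2 | .q4 => 2 | .cc' => 0 | .q5 => 2 | .q6 => 2
  | .d5 => 1 | .d6 => 1

/-- the odd vertex of the `Gamma0` slots of a role -/
def ox : Ro → Vx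
  | .q1 => .u | .q2 => .u | .cc => .z | .q3 => .c | .q4 => .d | .cc' => .z | .q5 => .e | .q6 => .f
  | .d5 => .e | .d6 => .f

theorem pos_subset : ∀ r, pos (some r) ⊆ slots r := by decide

theorem slots_card : ∀ r, #(slots r) = cst r + 2 := by decide

theorem od_of_slot : ∀ r, ∀ φ ∈ slots r ∩ gam0, od φ = ox r := by decide

theorem own_mem : ∀ φ, φ ∈ slots (own φ) := by decide

theorem quad_alt : ∀ r, slots r ∩ gam0 = ∅ ∧
    #(slots r \ gam0) ≤ 2 + #({φ | φ ∉ gam0 ∧ own φ = r} : Finset Fl) ∨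
    #(slots r \ gam0) ≤ #({φ | φ ∉ gam0 ∧ own φ = r} : Finset Fl) := by decide

theorem block_alt : ∀ r, #{φ ∈ gam0 | own φ = r} ≤ bud r ∨ bud r = 2 := by decide

/-- the abstract design of a `Data` -/
def Data.des {S Q Z : Type} (D : Data S Q Z) : Des Ro Fl S Q Z where
  slots := slots
  G0 := gam0
  own := own
  B := bud
  qlab := fun q => D.ql q.1 q.2
  key := D.key
  blab := D.bl
  own_mem := own_mem
  blab_eq := D.hbl
  sumB := by decide
  hB := by decide

theorem stmtB3A : StmtB3A := by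
  intro S Q Z _ D s0 s1 n K0 hS O rk ρ T hO _ hV hT h2 hlab
  classical
  have hlabe : ∀ o, D.des.olab o = D.lab o := by rintro (q | z) <;> rfl
  have hpos : ∀ o, pos (kind o) ⊆ D.des.opos o := by
    rintro (q | z)
    · exact pos_subset q.1
    · exact Subset.rfl
  have hOk : ∀ o ∈ O, D.des.Ok o (T o) := by
    rintro (q | z) ho
    · have h1 : T (.inl q) ⊆ slots q.1 := (hT _ ho).trans (pos_subset q.1)
      refine ⟨h1, ?_⟩
      change #(T (.inl q) ∩ gam0) + #(slots q.1 \ gam0) ≤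
        2 + #({φ | φ ∉ gam0 ∧ own φ = q.1} : Finset Fl)
      rcases quad_alt q.1 with ⟨h3, h4⟩ | h3
      · have : T (.inl q) ∩ gam0 = ∅ :=
          subset_empty.1 (h3 ▸ inter_subset_inter_right h1)
        rw [this, card_empty, zero_add]
        exact h4
      · have : #(T (.inl q) ∩ gam0) ≤ 2 := by
          refine le_trans (card_le_card fun φ hφ => ?_) (h2 _ ho (ox q.1))
          exact mem_filter.2 ⟨(mem_inter.1 hφ).1, od_of_slot _ _ (inter_subset_inter_right h1 hφ)⟩
        omega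
    · have h1 : T (.inr z) ⊆ gam0 := hT _ ho
      refine ⟨h1, fun r => ?_⟩
      change #{φ ∈ T (.inr z) | own φ = r} ≤ bud r
      rcases block_alt r with h3 | h3
      · exact (card_le_card (filter_subset_filter _ h1)).trans h3
      · rw [h3]
        refine le_trans (card_le_card fun φ hφ => ?_) (h2 _ ho (ox r))
        obtain ⟨h4, h5⟩ := mem_filter.1 hφ
        exact mem_filter.2 ⟨h4, od_of_slot _ _ (mem_inter.2 ⟨h5 ▸ own_mem φ, h1 h4⟩)⟩
  have h3 := D.des.Phi_le {s0, s1} rk ρ T O hOk fun o ho φ hφ => by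
    rw [hlabe]
    rcases hlab o ho φ hφ with h | h | ⟨o', ho', φ', hφ', h, h'⟩
    · exact Or.inl (by simp [h])
    · exact Or.inl (by simp [h])
    · exact Or.inr ⟨o', ho', φ', hpos o' hφ', h', by rw [hlabe, h]⟩
  have h4 := D.des.LL_le {s0, s1} O
  have hc : #O.toLeft + #O.toRight = #O := card_toLeft_add_card_toRight
  have hQ1 : #O.toLeft ≤ #(D.des.QQ O) :=
    card_le_card fun q hq => D.des.mem_QQ.2 (Or.inl (mem_toLeft.1 hq))
  have hQ2 : #(D.des.QQ O) ≤ 10 * #O.toRight + #O.toLeft := by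
    have : D.des.QQ O ⊆ (O.toRight.biUnion fun z => univ.image fun r => (r, D.key r z)) ∪
        O.toLeft := by
      intro q hq
      rcases D.des.mem_QQ.1 hq with h | ⟨z, hz, h⟩
      · exact mem_union_right _ (mem_toLeft.2 h)
      · exact mem_union_left _ (mem_biUnion.2 ⟨z, mem_toRight.2 hz,
          mem_image.2 ⟨q.1, mem_univ _, Prod.ext rfl h.symm⟩⟩)
    refine (card_le_card this).trans ((card_union_le _ _).trans (Nat.add_le_add_right ?_ _))
    rw [mul_comm]
    exact card_biUnion_le_card_mul _ _ _ fun z _ => card_image_le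
  have h5 := hS (D.des.QQ O) O.toRight (fun q hq => by
      rcases D.des.mem_QQ.1 hq with h | ⟨z, hz, h⟩
      · exact hV _ h
      · rw [show q.2 = D.key q.1 z from h]
        exact D.hv z q.1 (hV _ hz))
    (fun z hz => hV _ (mem_toRight.1 hz))
    (fun z hz r => D.des.mem_QQ.2 (Or.inr ⟨z, mem_toRight.1 hz, rfl⟩)) (by omega)
  have h6 : ∑ q ∈ D.des.QQ O, (2 - (#(D.des.slots q.1) : ℤ)) =
      -((∑ q ∈ D.des.QQ O, cst q.1 : ℕ) : ℤ) := by
    push_cast
    rw [← sum_neg_distrib]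
    refine sum_congr rfl fun q _ => ?_
    change 2 - (#(slots q.1) : ℤ) = _
    rw [slots_card]
    push_cast
    ring
  have h7 : ∑ o ∈ O, (Des.top o - (#(T o) : ℤ)) =
      ∑ o ∈ O, ((gl o : ℤ) - #(T o)) + 10 * #O.toRight := by
    have e : (10 * #O.toRight : ℤ) = ∑ o ∈ O, (Des.top o - (gl o : ℤ)) := by
      conv_rhs => rw [← toLeft_disjSum_toRight (u := O), sum_disjSum]
      simp [Des.top, gl, mul_comm]
    rw [e, ← sum_add_distrib]
    exact sum_congr rfl fun o _ => by ring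
  have h8 : D.des.LL (D.des.QQ O) = D.labels (D.des.QQ O) := rfl
  rw [h8, h6] at h4
  rw [h7] at h3
  zify at h5 hc hQ1
  have h9 : (#(D.labels (D.des.QQ O) \ {s0, s1}) : ℤ) ≤
      ∑ o ∈ O, ((gl o : ℤ) - #(T o)) + (∑ q ∈ D.des.QQ O, (cst q.1 : ℤ) + 10 * #O.toRight) := by
    push_cast at h4
    linarith
  have h10 := mul_le_mul_of_nonneg_left h9 (show (0 : ℤ) ≤ 2 * n by positivity)
  linarith

end Vale.Agent.P172V
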