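import Vale.Agent.P172V.BDefs

/-!
# P172V row B4: local to global for planar complexes (helper19).
-/

namespace Vale.Agent.P172V

open Finset Vale.Agent.P201.S

namespace LG

variable {A : Type}

theorem wt_le {K : PC A} {w : K.E → ℕ} (hw : ∀ e, w e ≤ 1) (l : List (K.E × Bool)) :
    K.wtD w l ≤ l.length := by
  induction l with
  | nil => simp [PC.wtD]
  | cons a l ih =>
    simp only [PC.wtD, List.map_cons, List.sum_cons, List.length_cons] at ih ⊢
    have := hw a.1
    omega

theorem face_reach {K : PC A} {w : K.E → ℕ} (hw : ∀ e, w e ≤ 1) {M : ℕ} {f : Option K.F}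
    (hf : (K.bd f).length ≤ M) {d d' : K.E × Bool} (hd : d ∈ K.bd f) (hd' : d' ∈ K.bd f) :
    K.Reach w (2 * M) (K.org d) (K.org d') := by
  have hne : K.bd f ≠ [] := List.ne_nil_of_mem hd
  have hh : (K.bd f).head hne ∈ (K.bd f).head? := by
    rw [List.head?_eq_some_head hne]; rfl
  have key : ∀ z ∈ K.bd f, K.Reach w M (K.org ((K.bd f).head hne)) (K.org z) := by
    intro z hz
    obtain ⟨l1, l2, h⟩ := List.append_of_mem hz
    have hc := K.chain f
    have h1 := PC.wk_prefix (K := K) l1 z l2 (h ▸ hc) ((K.bd f).head hne) (h ▸ hh)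
    refine ⟨l1, h1, (wt_le hw l1).trans ?_⟩
    have h2 := congrArg List.length h
    simp only [List.length_append, List.length_cons] at h2
    omega
  have := (key d hd).symm.trans (key d' hd')
  exact this.mono (by omega)

theorem exists_dart (K : PC A) [Nonempty K.F] (v : K.V) : ∃ d, K.org d = v := by
  obtain ⟨f⟩ := ‹Nonempty K.F›
  have h1 : ∃ d, d ∈ K.bd (some f) := by
    cases h : K.bd (some f) with
    | nil => exact absurd h (K.ne f)
    | cons a l => exact ⟨a, by simp⟩
  obtain ⟨d, _⟩ := h1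
  by_cases h : K.org d = v
  · exact ⟨d, h⟩
  · have h2 := K.conn v (K.org d)
    rcases Relation.ReflTransGen.cases_head h2 with h3 | ⟨c, h3, _⟩
    · exact ⟨d, h3.symm⟩
    · obtain ⟨d', h4, _⟩ := h3
      exact ⟨d', h4⟩

theorem exists_adj (K : PC A) (f0 : K.F) : ∃ h, K.DAdj none (some h) := by
  by_contra hcon
  push Not at hcon
  have h := K.dconn none (some f0)
  have key : ∀ x, Relation.ReflTransGen (fun a b => ∃ d, d ∈ K.bd a ∧ rv d ∈ K.bd b) none x →
      x = none := by
    intro x hx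
    induction hx with
    | refl => rfl
    | tail _ h2 ih =>
      rename_i b c _
      subst ih
      cases c with
      | none => rfl
      | some h => exact absurd h2 (hcon h)
  exact absurd (key _ h) (by simp)

open Classical in
/-- faces with a vertex within weight `r` of `v` -/
noncomputable def ball (K : PC A) (w : K.E → ℕ) (v : K.V) (r : ℕ) : Finset K.F :=
  univ.filter (fun f => ∃ d ∈ K.bd (some f), K.Reach w r v (K.org d))

theorem mem_ball {K : PC A} {w : K.E → ℕ} {v : K.V} {r : ℕ} {f : K.F} :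
    f ∈ ball K w v r ↔ ∃ d ∈ K.bd (some f), K.Reach w r v (K.org d) := by
  simp only [ball, mem_filter, mem_univ, true_and]

theorem ball_mono {K : PC A} {w : K.E → ℕ} {v : K.V} {r s : ℕ} (h : r ≤ s) :
    ball K w v r ⊆ ball K w v s := by
  intro f hf
  obtain ⟨d, hd, hr⟩ := mem_ball.1 hf
  exact mem_ball.2 ⟨d, hd, hr.mono h⟩

/-- the other end of a dart of a face of the ball -/
theorem reach_rv {K : PC A} {w : K.E → ℕ} (hw : ∀ e, w e ≤ 1) {M : ℕ}
    (hlen : ∀ f : K.F, (K.bd (some f)).length ≤ M) {v : K.V} {r : ℕ} {f : K.F}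
    (hf : f ∈ ball K w v r) {d : K.E × Bool} (hd : d ∈ K.bd (some f)) :
    K.Reach w (r + (2 * M + 1)) v (K.org (rv d)) := by
  obtain ⟨d0, hd0, hr⟩ := mem_ball.1 hf
  have h1 := (hr.trans (face_reach hw (hlen f) hd0 hd)).trans (PC.Reach.edge (K := K) (wt := w) d)
  have := hw d.1
  exact h1.mono (by omega)

theorem card_bdry_ball {K : PC A} {w : K.E → ℕ} (hw : ∀ e, w e ≤ 1) {M : ℕ}
    (hlen : ∀ f : K.F, (K.bd (some f)).length ≤ M) {v : K.V} {r : ℕ}
    (hno : ∀ d ∈ K.bd none, ¬ K.Reach w (r + (2 * M + 1)) v (K.org d)) :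
    (K.bdry (ball K w v r)).card ≤ (ball K w v (r + (2 * M + 1)) \ ball K w v r).card * M := by
  classical
  have key : ∀ (d : K.E × Bool) (f : K.F), f ∈ ball K w v r → d ∈ K.bd (some f) →
      (¬ ∃ g ∈ ball K w v r, rv d ∈ K.bd (some g)) →
      d.1 ∈ (ball K w v (r + (2 * M + 1)) \ ball K w v r).biUnion
        (fun g => ((K.bd (some g)).map Prod.fst).toFinset) := by
    intro d f hf hd hn
    have h1 := reach_rv hw hlen hf hd
    have h2 := K.fc_mem (rv d)
    cases hg : K.fc (rv d) with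
    | none =>
      rw [hg] at h2
      exact absurd h1 (hno _ h2)
    | some g =>
      rw [hg] at h2
      rw [mem_biUnion]
      refine ⟨g, mem_sdiff.2 ⟨mem_ball.2 ⟨_, h2, h1⟩, fun h => hn ⟨g, h, h2⟩⟩, ?_⟩
      rw [List.mem_toFinset, List.mem_map]
      exact ⟨rv d, h2, rfl⟩
  have hsub : K.bdry (ball K w v r) ⊆ (ball K w v (r + (2 * M + 1)) \ ball K w v r).biUnion
        (fun g => ((K.bd (some g)).map Prod.fst).toFinset) := by
    intro e he
    rw [Dl.mem_bdry] at he
    by_cases h1 : ∃ f ∈ ball K w v r, (e, true) ∈ K.bd (some f)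
    · obtain ⟨f, hf, hd⟩ := h1
      exact key (e, true) f hf hd (fun h => he ⟨fun _ => h, fun _ => ⟨f, hf, hd⟩⟩)
    · have h2 : ∃ f ∈ ball K w v r, (e, false) ∈ K.bd (some f) := by
        by_contra h2
        exact he ⟨fun h => absurd h h1, fun h => absurd h h2⟩
      obtain ⟨f, hf, hd⟩ := h2
      exact key (e, false) f hf hd h1
  refine (card_le_card hsub).trans (card_biUnion_le_card_mul _ _ _ ?_)
  intro g _
  refine (List.toFinset_card_le _).trans ?_
  rw [List.length_map]
  exact hlen g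

/-- every vertex is close to the outer boundary -/
theorem radius (K : PC A) [Nonempty K.F] (w : K.E → ℕ) (hw : ∀ e, w e ≤ 1) (M : ℕ) (hM : 0 < M)
    (hlen : ∀ f : K.F, (K.bd (some f)).length ≤ M) (j0 : ℕ) (e0 : ℝ) (he : 0 ≤ e0)
    (hj : (Fintype.card K.F : ℝ) < (1 + e0 / M) ^ j0)
    (iso : ∀ D : Finset K.F, (∀ h, K.DAdj none (some h) → h ∉ D) →
      e0 * D.card ≤ ∑ b ∈ K.bdry D, (w b : ℝ))
    (v : K.V) : ∃ d ∈ K.bd none, K.Reach w ((2 * M + 1) * j0) v (K.org d) := by
  classical
  by_contra hcon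
  push Not at hcon
  have hMr : (0 : ℝ) < M := by exact_mod_cast hM
  have hstep : ∀ j, j ≤ j0 → (1 + e0 / M) ^ j ≤ ((ball K w v ((2 * M + 1) * j)).card : ℝ) := by
    intro j
    induction j with
    | zero =>
      intro _
      obtain ⟨d, hd⟩ := exists_dart K v
      have hfd := K.fc_mem d
      cases hφ : K.fc d with
      | none =>
        rw [hφ] at hfd
        refine absurd ?_ (hcon d hfd)
        rw [hd]
        exact (PC.Reach.refl v).mono (by omega)
      | some f0 =>
        rw [hφ] at hfd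
        have h1 : f0 ∈ ball K w v ((2 * M + 1) * 0) :=
          mem_ball.2 ⟨d, hfd, by rw [hd]; exact (PC.Reach.refl v).mono (by omega)⟩
        have h2 : 1 ≤ (ball K w v ((2 * M + 1) * 0)).card := card_pos.2 ⟨f0, h1⟩
        rw [pow_zero]
        exact_mod_cast h2
    | succ j ih =>
      intro hjj
      have ih' := ih (by omega)
      set r := (2 * M + 1) * j with hr
      have hrr : (2 * M + 1) * (j + 1) = r + (2 * M + 1) := by rw [hr]; ring
      have hle : r + (2 * M + 1) ≤ (2 * M + 1) * j0 := by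
        rw [← hrr]
        exact Nat.mul_le_mul_left _ hjj
      have hno : ∀ d ∈ K.bd none, ¬ K.Reach w (r + (2 * M + 1)) v (K.org d) :=
        fun d hd hre => hcon d hd (hre.mono hle)
      have hw1 := card_bdry_ball hw hlen hno
      have hiso := iso (ball K w v r) (by
        intro h hadj hh
        obtain ⟨d, hd1, hd2⟩ := hadj
        have h1 := reach_rv hw hlen hh hd2
        rw [PC.rv_rv] at h1
        exact hno d hd1 h1)
      have h2 : ∑ b ∈ K.bdry (ball K w v r), (w b : ℝ) ≤ ((K.bdry (ball K w v r)).card : ℝ) := by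
        have := Finset.sum_le_card_nsmul (K.bdry (ball K w v r)) (fun b => (w b : ℝ)) 1
          (fun b _ => by exact_mod_cast hw b)
        simpa using this
      have hsub : ball K w v r ⊆ ball K w v (r + (2 * M + 1)) := ball_mono (by omega)
      rw [card_sdiff_of_subset hsub] at hw1
      have h3 : ((K.bdry (ball K w v r)).card : ℝ) ≤
          (((ball K w v (r + (2 * M + 1))).card : ℝ) - (ball K w v r).card) * M := by
        rw [← Nat.cast_sub (card_le_card hsub)]
        exact_mod_cast hw1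
      have h4 : e0 / M * (ball K w v r).card ≤
          ((ball K w v (r + (2 * M + 1))).card : ℝ) - (ball K w v r).card := by
        rw [div_mul_eq_mul_div, div_le_iff₀ hMr]
        linarith only [hiso, h2, h3]
      rw [hrr, pow_succ]
      have h10 : 0 ≤ 1 + e0 / M := by positivity
      have h11 := mul_le_mul_of_nonneg_right ih' h10
      nlinarith only [h11, h4]
  have h1 := hstep j0 le_rfl
  have h2 : ((ball K w v ((2 * M + 1) * j0)).card : ℝ) ≤ Fintype.card K.F := by
    exact_mod_cast card_le_univ _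
  linarith

/-! ### restriction -/

theorem em_mem {K' K : PC A} (i : Dl.Em K' K) {g : K'.F} {x : K'.E} {b : Bool} :
    (x, b) ∈ K'.bd (some g) ↔ (i.e x, b) ∈ K.bd (some (i.f g)) := by
  rw [← i.bd g, List.mem_map]
  constructor
  · intro h
    exact ⟨_, h, rfl⟩
  · rintro ⟨⟨y, c⟩, h, h2⟩
    simp only [Prod.mk.injEq] at h2
    obtain ⟨h3, h4⟩ := h2
    rw [← i.einj h3, ← h4]
    exact h

theorem em_len {K' K : PC A} (i : Dl.Em K' K) (g : K'.F) :
    (K'.bd (some g)).length = (K.bd (some (i.f g))).length := by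
  rw [← i.bd g, List.length_map]

theorem em_loc {K' K : PC A} (i : Dl.Em K' K) {ω : A → ℕ} {n K0 : ℕ} (h : Loc K ω n K0) :
    Loc K' ω n K0 := by
  classical
  intro P hP
  have hc : (P.image i.f).card = P.card := card_image_of_injective _ i.finj
  have h1 := h (P.image i.f) (by omega)
  rw [hc] at h1
  refine h1.trans (Nat.mul_le_mul_left _ ?_)
  have hb : ∀ (x : K'.E) (b : Bool), (∃ f ∈ P.image i.f, (i.e x, b) ∈ K.bd (some f)) ↔
      (∃ g ∈ P, (x, b) ∈ K'.bd (some g)) := by
    intro x b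
    constructor
    · rintro ⟨f, hf, hx⟩
      obtain ⟨g, hg, rfl⟩ := mem_image.1 hf
      exact ⟨g, hg, (em_mem i).2 hx⟩
    · rintro ⟨g, hg, hx⟩
      exact ⟨i.f g, mem_image_of_mem _ hg, (em_mem i).1 hx⟩
  have hsub : K.bdry (P.image i.f) ⊆ (K'.bdry P).image i.e := by
    intro y hy
    have hy' := Dl.mem_bdry.1 hy
    have h2 : ∃ b, ∃ f ∈ P.image i.f, (y, b) ∈ K.bd (some f) := by
      by_contra h3
      push Not at h3
      exact hy' ⟨fun ⟨f, hf, hx⟩ => absurd hx (h3 _ f hf), fun ⟨f, hf, hx⟩ => absurd hx (h3 _ f hf)⟩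
    obtain ⟨b, f, hf, hx⟩ := h2
    obtain ⟨g, _, rfl⟩ := mem_image.1 hf
    rw [← i.bd g, List.mem_map] at hx
    obtain ⟨x, _, hx2⟩ := hx
    have h4 : i.e x.1 = y := congrArg Prod.fst hx2
    refine mem_image.2 ⟨x.1, ?_, h4⟩
    rw [Dl.mem_bdry, ← hb, ← hb, h4]
    exact hy'
  refine (sum_le_sum_of_subset hsub).trans (le_of_eq ?_)
  rw [sum_image (fun a _ b _ hab => i.einj hab)]
  exact sum_congr rfl (fun x _ => by rw [i.lab])

theorem res_card {K' K : PC A} {i : Dl.Em K' K} {C : Finset K.F} (hi : Dl.IsRes i C) :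
    Fintype.card K'.F = C.card := by
  classical
  have h : C = univ.image i.f := by
    ext g
    rw [hi.rng g]
    simp only [mem_image, mem_univ, true_and]
  rw [h, Finset.card_image_of_injective _ i.finj]
  rfl

theorem res_wt {K' K : PC A} {i : Dl.Em K' K} {C : Finset K.F} (hi : Dl.IsRes i C) (ω : A → ℕ) :
    ∑ e ∈ K'.bdry univ, (ω (K'.lab e) : ℝ) = ∑ e ∈ K.bdry C, (ω (K.lab e) : ℝ) := by
  refine Finset.sum_bij (fun e _ => i.e e) (fun e he => (hi.bdr e).1 he)
    (fun a _ b _ h => i.einj h) ?_ ?_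
  · intro y hy
    obtain ⟨x, hx⟩ := hi.sur y hy
    exact ⟨x, (hi.bdr x).2 (hx ▸ hy), hx⟩
  · intro e _
    show (ω (K'.lab e) : ℝ) = (ω (K.lab (i.e e)) : ℝ)
    rw [i.lab]

/-- induction step -/
theorem step (K : PC A) (ω : A → ℕ) (hω : ∀ a, ω a ≤ 1) {M Kc Y : ℕ} (hM : 0 < M)
    (hlen : ∀ f : K.F, (K.bd (some f)).length ≤ M) (hY : Y = (2 * M + 1) * M) {e1 dl : ℝ}
    (he : 0 < e1) (hdl : dl = 1 / (4 * M)) (hKc : 2 ≤ Kc)
    (hnum : ∀ F : ℝ, (Kc * Y : ℝ) ≤ F →
      (∀ s : ℝ, dl * F ≤ s → s ≤ F / 2 →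
        psi e1 (dl * Kc * Y) F + 2 * (2 * (2 * Y * (Real.log (F / 1) / Real.log (1 + e1 / 4) + 4)) + Y) <
          psi e1 (dl * Kc * Y) s + psi e1 (dl * Kc * Y) (F - s) ∧
        2 * (2 * Y * (Real.log (F / 1) / Real.log (1 + e1 / 4) + 4)) + Y < psi e1 (dl * Kc * Y) s))
    (hbig : Kc * Y < Fintype.card K.F)
    (hiso : ∀ D : Finset K.F, K.Bond D → D ≠ univ →
      psi e1 (dl * Kc * Y) (D.card : ℝ) ≤ ∑ e ∈ K.bdry D, (ω (K.lab e) : ℝ)) :
    psi e1 (dl * Kc * Y) (Fintype.card K.F) ≤ ∑ e ∈ K.bdry univ, (ω (K.lab e) : ℝ) := by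
  classical
  have hMr : (0 : ℝ) < M := by exact_mod_cast hM
  have hdl0 : 0 < dl := by rw [hdl]; positivity
  have hA : (0 : ℝ) ≤ dl * Kc * Y := by positivity
  have hY1 : 1 ≤ Y := by rw [hY]; exact Nat.one_le_iff_ne_zero.mpr (by positivity)
  have hKY : 2 ≤ Kc * Y := hKc.trans (Nat.le_mul_of_pos_right _ hY1)
  have hF2 : 2 ≤ Fintype.card K.F := by omega
  have hne : Nonempty K.F := Fintype.card_pos_iff.mp (by omega)
  set L : ℝ := Real.log ((Fintype.card K.F : ℝ) / 1) / Real.log (1 + e1 / 4) with hLdef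
  have hFr : (Kc * Y : ℝ) ≤ Fintype.card K.F := by exact_mod_cast hbig.le
  have hratio : 1 ≤ (Fintype.card K.F : ℝ) / 1 := by
    rw [div_one]
    exact_mod_cast (by omega : 1 ≤ Fintype.card K.F)
  have hlog : 0 < Real.log (1 + e1 / 4) := Real.log_pos (by linarith only [he])
  have hL0 : 0 ≤ L := div_nonneg (Real.log_nonneg hratio) hlog.le
  set j1 : ℕ := ⌊L⌋₊ + 1 with hj1
  have hj : (Fintype.card K.F : ℝ) < (1 + (e1 / 2) / M) ^ (M * j1) := by
    have h1 : L < j1 := by
      rw [hj1]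
      push_cast
      exact Nat.lt_floor_add_one L
    have h2 : Real.log ((Fintype.card K.F : ℝ) / 1) < j1 * Real.log (1 + e1 / 4) := by
      rw [hLdef, div_lt_iff₀ hlog] at h1
      exact h1
    rw [← Real.log_pow] at h2
    have h3 := (Real.log_lt_log_iff (by linarith only [hratio]) (by positivity)).mp h2
    rw [div_one] at h3
    refine h3.trans_le ?_
    rw [pow_mul]
    apply pow_le_pow_left₀ (by positivity)
    have h4 : (-2 : ℝ) ≤ (e1 / 2) / M := by
      have : 0 ≤ (e1 / 2) / M := by positivity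
      linarith only [this]
    have h5 := one_add_mul_le_pow h4 M
    have h6 : (M : ℝ) * (e1 / 2 / M) = e1 / 2 := by field_simp
    rw [h6] at h5
    linarith only [h5, he]
  have hrad := radius K (fun e => ω (K.lab e)) (fun e => hω _) M hM hlen (M * j1) (e1 / 2)
    (by positivity) hj
    (fun D hD => by
      apply PC.card_le_of_bonds K D _ (fun e => by positivity) _ (by positivity)
      intro C hC _ hCD
      have hCne : C ≠ univ := by
        rintro rfl
        obtain ⟨h, hh⟩ := exists_adj K hne.some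
        exact hCD h (hD h hh) hh (Finset.mem_univ _)
      exact (Psi.le_psi (A := dl * Kc * Y) he.le (by positivity)).trans (hiso C hC hCne))
  have hRY : (2 * M + 1) * (M * j1) = Y * j1 := by rw [hY]; ring
  rw [hRY] at hrad
  have hR2 : ((Y * j1 : ℕ) : ℝ) ≤ 2 * Y * (L + 4) := by
    have h1 : (⌊L⌋₊ : ℝ) ≤ L := Nat.floor_le hL0
    have h2 : (1 : ℝ) ≤ Y := by exact_mod_cast hY1
    rw [hj1]
    push_cast
    nlinarith only [h2, h1, hL0]
  obtain ⟨d0, hd0⟩ : ∃ d0 : K.E × Bool, d0 ∈ (K.bd none).head? := by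
    obtain ⟨v⟩ : Nonempty K.V := inferInstance
    obtain ⟨d, hd, _⟩ := hrad v
    cases hh : (K.bd none) with
    | nil => rw [hh] at hd; simp at hd
    | cons a l => exact ⟨a, by simp⟩
  obtain ⟨T, hT0, hT2, hT3⟩ := PC.exists_stree_out (K := K) (fun e => ω (K.lab e)) (K.org d0)
    (by
      intro d hd
      have : d = d0 := Option.some.inj ((Option.mem_def.mp hd).symm.trans (Option.mem_def.mp hd0))
      rw [this])
    (Y * j1)
    (fun v => by
      obtain ⟨d, hd, hr⟩ := hrad v
      exact ⟨K.org d, Or.inr ⟨d, hd, rfl⟩, hr⟩)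
  have hcut := F5b.cut_tree (K := K) stmtT1 T (fun e => (ω (K.lab e) : ℝ)) (fun e => by positivity)
    (fun k : ℕ => psi e1 (dl * Kc * Y) (k : ℝ)) (by simp [Psi.psi_zero])
    (fun a b => by
      push_cast
      exact Psi.psi_add he.le hA (by positivity) (by positivity))
    hiso M hlen Y ((Y * j1 : ℕ) : ℝ)
    (fun e => by
      have : ω (K.lab e) ≤ Y := (hω _).trans hY1
      exact_mod_cast this)
    (fun v hv e he' => hT2 v hv e he')
    (fun v S hS => by
      refine le_trans ?_ (by exact_mod_cast hT3 v :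
        ((∑ e ∈ univ.filter (fun e => T.Anc v e ∧ e ∉ K.outE), ω (K.lab e) : ℕ) : ℝ) ≤ _)
      push_cast
      apply Finset.sum_le_sum_of_subset_of_nonneg
      · intro e he'
        exact Finset.mem_filter.mpr ⟨Finset.mem_univ _, hS e he'⟩
      · intro e _ _
        positivity)
    hF2
  rcases hcut with h | ⟨s, hs1, hs2, h⟩
  · exact h
  · have hs1' : dl * (Fintype.card K.F : ℝ) ≤ s := by
      rw [hdl, div_mul_eq_mul_div, one_mul, div_le_iff₀ (by positivity)]
      have : ((Fintype.card K.F : ℕ) : ℝ) ≤ ((4 * M * s : ℕ) : ℝ) := by exact_mod_cast hs1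
      push_cast at this ⊢
      linarith only [this]
    have hs2' : (s : ℝ) ≤ (Fintype.card K.F : ℝ) / 2 := by
      have : ((2 * s : ℕ) : ℝ) ≤ ((Fintype.card K.F : ℕ) : ℝ) := by exact_mod_cast hs2
      push_cast at this
      linarith only [this]
    obtain ⟨h1, h2⟩ := hnum (Fintype.card K.F) hFr s hs1' hs2'
    rw [← hLdef] at h1 h2
    rcases h with h | h
    · linarith only [hR2, h2, h]
    · rw [Nat.cast_sub (by omega)] at h
      linarith only [hR2, h1, h]

end LG

/-- (B4) local to global -/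
theorem stmtB4 : StmtB4 := by
  intro n m hn
  set M : ℕ := m + 1 with hM
  set Y : ℕ := (2 * M + 1) * M with hY
  have hM0 : 0 < M := by omega
  have hY1 : 1 ≤ Y := Nat.one_le_iff_ne_zero.mpr (by positivity)
  have hYr : (0 : ℝ) < Y := by exact_mod_cast hY1
  have hnr : (0 : ℝ) < n := by exact_mod_cast hn
  have he : (0 : ℝ) < 1 / n := by positivity
  obtain ⟨K1, hK1, hnum⟩ := Psi.numerics (1 / Y) (1 / n) (1 / (4 * M)) (by positivity) he
    (by positivity)
  refine ⟨max K1 2 * Y, 2 * n, ?_⟩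
  intro A
  set Kc : ℕ := max K1 2 with hKc
  set dl : ℝ := 1 / (4 * M) with hdl
  have main : ∀ k : ℕ, ∀ (K : PC A) (ω : A → ℕ), (∀ a, ω a ≤ 1) →
      (∀ f : K.F, (K.bd (some f)).length ≤ M) → Loc K ω n (Kc * Y) → Fintype.card K.F = k →
      psi (1 / n) (dl * Kc * Y) (Fintype.card K.F) ≤ ∑ e ∈ K.bdry univ, (ω (K.lab e) : ℝ) := by
    intro k
    induction k using Nat.strong_induction_on with
    | _ k ih =>
      intro K ω hω hlen hloc hk
      by_cases hs : Fintype.card K.F ≤ Kc * Y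
      · refine (Psi.psi_le he.le).trans ?_
        have h1 := hloc univ (by rw [card_univ]; exact hs)
        rw [card_univ] at h1
        have h2 : (Fintype.card K.F : ℝ) ≤ n * ∑ e ∈ K.bdry univ, (ω (K.lab e) : ℝ) := by
          exact_mod_cast h1
        rw [div_mul_eq_mul_div, one_mul, div_le_iff₀ hnr]
        linarith only [h2]
      · push Not at hs
        refine LG.step K ω hω hM0 hlen hY he hdl (le_max_right _ _)
          (fun F h2 => (hnum Kc (le_max_left _ _) Y hY1 F 1 (by field_simp; rfl) h2).1) hs ?_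
        intro D hD hDne
        obtain ⟨K', i, hi⟩ := Dl.exists_res K D hD
        have h4 : D.card < Fintype.card K.F := by
          rw [← Finset.card_univ]
          exact Finset.card_lt_card (Finset.ssubset_univ_iff.mpr hDne)
        have h5 := ih D.card (by omega) K' ω hω (fun f => by rw [LG.em_len i]; exact hlen _)
          (LG.em_loc i hloc) (LG.res_card hi)
        rw [LG.res_card hi, LG.res_wt hi] at h5
        exact h5
  intro K ω hω hlen hloc
  have h1 := (Psi.le_psi (A := dl * Kc * Y) he.le (by positivity)).trans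
    (main _ K ω hω (fun f => (hlen f).trans (by omega)) hloc rfl)
  have h2 : (Fintype.card K.F : ℝ) ≤ 2 * n * ∑ e ∈ K.bdry univ, (ω (K.lab e) : ℝ) := by
    have h3 : (1 : ℝ) / n / 2 * Fintype.card K.F = Fintype.card K.F / (2 * n) := by
      field_simp
    rw [h3, div_le_iff₀ (by positivity)] at h1
    linarith only [h1]
  exact_mod_cast h2

end Vale.Agent.P172V
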