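import Vale.Agent.P172V.VK.Defs
import Vale.Agent.P201.Bd3.B4

/-!
# P172V: the rows of part B (helper79).  Planar complexes `PC` are those of P201 (Bd3/B1.lean).
-/

namespace Vale.Agent.P172V

open Finset Vale.Agent.P201.S

/-- a conjugation invariant norm on the free group -/
structure IsNorm {A : Type} (ν : FreeGroup A → ℕ∞) : Prop where
  one : ν 1 = 0
  mul : ∀ a b, ν (a * b) ≤ ν a + ν b
  inv : ∀ a, ν a⁻¹ = ν a
  conj : ∀ v a, ν (v * a * v⁻¹) = ν a

/-- products of conjugates of words of `R`; a word `r` has weight `W r` -/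
inductive Ex {A : Type} (R : Set (List (A × Bool))) (W : List (A × Bool) → ℕ) :
    ℕ → FreeGroup A → Prop
  | nil : Ex R W 0 1
  | cons (k : ℕ) (u v : FreeGroup A) (r : List (A × Bool)) : r ∈ R → Ex R W k u →
      Ex R W (W r + k) (v * FreeGroup.mk r * v⁻¹ * u)

/-- least weight of an expression -/
noncomputable def nu {A : Type} (R : Set (List (A × Bool))) (W : List (A × Bool) → ℕ)
    (u : FreeGroup A) : ℕ∞ := ⨅ (k : ℕ) (_ : Ex R W k u), (k : ℕ∞)

/-- (B1N) `nu` is a norm -/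
def StmtB1N : Prop :=
  ∀ (A : Type) (R : Set (List (A × Bool))) (W : List (A × Bool) → ℕ),
    (∀ r ∈ R, FreeGroup.invRev r ∈ R ∧ W (FreeGroup.invRev r) = W r) →
    IsNorm (nu R W) ∧ (∀ r ∈ R, nu R W (FreeGroup.mk r) ≤ W r) ∧
      (∀ k u, Ex R W k u → nu R W u ≤ k) ∧ (∀ (k : ℕ) u, nu R W u = k → Ex R W k u) ∧
      ∀ u ∈ Subgroup.normalClosure (FreeGroup.mk '' R), nu R W u ≠ ⊤

/-- (B1R) the outer word is a product of conjugates of the face words -/
def StmtB1R : Prop :=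
  ∀ (A : Type) (K : PC A) (ν : FreeGroup A → ℕ∞), IsNorm ν →
    ν (FreeGroup.mk (K.wd none)) ≤ ∑ f : K.F, ν (FreeGroup.mk (K.wd (some f)))

/-- (B1M) the same with two adjacent faces merged -/
def StmtB1M : Prop :=
  ∀ (A : Type) (K : PC A) (ν : FreeGroup A → ℕ∞), IsNorm ν →
    ∀ (f f' : K.F) (l1 l2 m1 m2 : List (K.E × Bool)) (d : K.E × Bool), f ≠ f' →
    K.bd (some f) = l1 ++ d :: l2 → K.bd (some f') = m1 ++ rv d :: m2 →
    ν (FreeGroup.mk (K.wd none)) ≤ ν (FreeGroup.mk (BrRed.wo K (l2 ++ l1 ++ (m2 ++ m1)))) +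
      ∑ g ∈ (univ.erase f).erase f', ν (FreeGroup.mk (K.wd (some g)))

/-- (B1P) a pinched pair of outer edges: some face is not needed -/
def StmtB1P : Prop :=
  ∀ (A : Type) (K : PC A) (ν : FreeGroup A → ℕ∞), IsNorm ν →
    ∀ (l1 l2 : List (K.E × Bool)) (d d' : K.E × Bool), K.bd none = l1 ++ d :: d' :: l2 →
    K.lab d.1 = K.lab d'.1 → d'.2 = !d.2 → d.1 ≠ d'.1 → K.org d = K.org (rv d') →
    ∃ g : K.F, ν (FreeGroup.mk (K.wd none)) ≤ ∑ f ∈ univ.erase g, ν (FreeGroup.mk (K.wd (some f)))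

/-- (B1Z) every expression is realised by a complex (outer word not reduced) -/
def StmtB1Z : Prop :=
  ∀ (A : Type) (R : Set (List (A × Bool))) (W : List (A × Bool) → ℕ), (∀ r ∈ R, r ≠ []) →
    ∀ k u, Ex R W k u → ∃ K : PC A, (∀ f : K.F, K.wd (some f) ∈ R) ∧
      ∑ f : K.F, W (K.wd (some f)) = k ∧ FreeGroup.mk (K.wd none) = u⁻¹

/-- a complex with the same face words and the outer boundary word of `l` -/
def Folded {A : Type} (K : PC A) (l : List (K.E × Bool)) : Prop :=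
  ∃ (K' : PC A) (e : K'.F ≃ K.F), (∀ f, K'.wd (some f) = K.wd (some (e f))) ∧
    K'.wd none = BrRed.wo K l

/-- (B1F3) removing a spur -/
def StmtB1F3 : Prop :=
  ∀ (A : Type) (K : PC A) (l1 l2 : List (K.E × Bool)) (d : K.E × Bool),
    K.bd none = l1 ++ d :: rv d :: l2 → Folded K (l1 ++ l2)

/-- (B1F4) folding two outer edges -/
def StmtB1F4 : Prop :=
  ∀ (A : Type) (K : PC A) (l1 l2 : List (K.E × Bool)) (d d' : K.E × Bool),
    K.bd none = l1 ++ d :: d' :: l2 → K.lab d.1 = K.lab d'.1 → d'.2 = !d.2 → d.1 ≠ d'.1 →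
    K.org d ≠ K.org (rv d') → Folded K (l1 ++ l2)

/-- (B1V) van Kampen lemma for expressions of least weight -/
def StmtB1V : Prop :=
  ∀ (A : Type) [DecidableEq A] (R : Set (List (A × Bool))) (W : List (A × Bool) → ℕ),
    (∀ r ∈ R, FreeGroup.invRev r ∈ R ∧ W (FreeGroup.invRev r) = W r) →
    (∀ r ∈ R, r ≠ [] ∧ 1 ≤ W r) → ∀ (k : ℕ) (u : FreeGroup A), nu R W u = k →
    ∃ K : PC A, (∀ f : K.F, K.wd (some f) ∈ R) ∧ ∑ f : K.F, W (K.wd (some f)) = k ∧
      K.wd none = u.toWord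

/-- the local isoperimetric inequality for all sets of at most `K0` faces -/
def Loc {A : Type} (K : PC A) (ω : A → ℕ) (n K0 : ℕ) : Prop :=
  ∀ P : Finset K.F, P.card ≤ K0 → P.card ≤ n * ∑ e ∈ K.bdry P, ω (K.lab e)

/-- (B4) local to global -/
def StmtB4 : Prop :=
  ∀ n m : ℕ, 1 ≤ n → ∃ K0 C : ℕ, ∀ (A : Type) (K : PC A) (ω : A → ℕ), (∀ a, ω a ≤ 1) →
    (∀ f : K.F, (K.bd (some f)).length ≤ m) → Loc K ω n K0 →
    Fintype.card K.F ≤ C * ∑ e ∈ K.bdry univ, ω (K.lab e)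

end Vale.Agent.P172V
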