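import Vale.Agent.P172V.CN

/-!
# P172V, parts C2 and C3: inductive means and the V-lemma
-/

namespace Vale.Agent.P172V

open Finset

section mean

variable {X : Type*} [PseudoMetricSpace X] (pt : X → X → ℝ → X)

/-- the inductive mean of `k + 1` points -/
noncomputable def imean : (k : ℕ) → (Fin (k + 1) → X) → X
  | 0, Z => Z 0
  | k + 1, Z => pt (imean k (Fin.tail Z)) (Z 0) (1 / ((k : ℝ) + 2))

/-- the variance term of the inductive mean -/
noncomputable def ivar : (k : ℕ) → (Fin (k + 1) → X) → ℝ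
  | 0, _ => 0
  | k + 1, Z => ivar k (Fin.tail Z) +
      ((k : ℝ) + 1) / ((k : ℝ) + 2) * dist (imean pt k (Fin.tail Z)) (Z 0) ^ 2

theorem ivar_nonneg : ∀ (k : ℕ) (Z : Fin (k + 1) → X), 0 ≤ ivar pt k Z
  | 0, _ => le_rfl
  | k + 1, Z => add_nonneg (ivar_nonneg k _) (by positivity)

variable {pt}

theorem imean_le (h : IsCNt pt) (y : X) : ∀ (k : ℕ) (Z : Fin (k + 1) → X),
    ((k : ℝ) + 1) * dist y (imean pt k Z) ^ 2 + ivar pt k Z ≤ ∑ i, dist y (Z i) ^ 2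
  | 0, Z => by simp [imean, ivar]
  | k + 1, Z => by
    have ih := imean_le h y k (Fin.tail Z)
    have hk : (0 : ℝ) < (k : ℝ) + 2 := by positivity
    have h1 := h (imean pt k (Fin.tail Z)) (Z 0) y (1 / ((k : ℝ) + 2)) (by positivity)
      (by rw [div_le_one hk]; have : (0 : ℝ) ≤ k := Nat.cast_nonneg k; linarith)
    rw [Fin.sum_univ_succ]
    simp only [imean, ivar]
    have h2 := mul_le_mul_of_nonneg_left h1 hk.le
    have e : ((k : ℝ) + 2) * ((1 - 1 / ((k : ℝ) + 2)) * dist y (imean pt k (Fin.tail Z)) ^ 2 +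
        1 / ((k : ℝ) + 2) * dist y (Z 0) ^ 2 -
        1 / ((k : ℝ) + 2) * (1 - 1 / ((k : ℝ) + 2)) * dist (imean pt k (Fin.tail Z)) (Z 0) ^ 2) =
        ((k : ℝ) + 1) * dist y (imean pt k (Fin.tail Z)) ^ 2 + dist y (Z 0) ^ 2 -
        ((k : ℝ) + 1) / ((k : ℝ) + 2) * dist (imean pt k (Fin.tail Z)) (Z 0) ^ 2 := by
      field_simp
      ring
    rw [e] at h2
    have e2 : ∑ i : Fin (k + 1), dist y (Z i.succ) ^ 2 = ∑ i, dist y (Fin.tail Z i) ^ 2 := rfl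
    rw [e2]
    push_cast
    have e3 : (k : ℝ) + 1 + 1 = (k : ℝ) + 2 := by ring
    rw [e3]
    linarith

/-- the constant `∑_{j<k} (j+1)/(j+2)` -/
noncomputable def cc (k : ℕ) : ℝ := ∑ j ∈ range k, ((j : ℝ) + 1) / ((j : ℝ) + 2)

theorem cc_nonneg (k : ℕ) : 0 ≤ cc k := sum_nonneg fun _ _ => by positivity

theorem sum_ivar {S : Type*} [Fintype S] (P : S → X) {E : ℝ}
    (hE : ∀ z, E ≤ ∑ s, dist z (P s) ^ 2) : ∀ k : ℕ,
    cc k * (Fintype.card S : ℝ) ^ k * E ≤ ∑ τ : Fin (k + 1) → S, ivar pt k (P ∘ τ)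
  | 0 => by simp [cc, ivar]
  | k + 1 => by
    classical
    have ih := sum_ivar P hE k
    rw [← (Fin.consEquiv fun _ : Fin (k + 2) => S).sum_comp, Fintype.sum_prod_type_right]
    have e : ∀ (τ : Fin (k + 1) → S) (s : S),
        ivar pt (k + 1) (P ∘ (Fin.consEquiv fun _ : Fin (k + 2) => S) (s, τ)) =
        ivar pt k (P ∘ τ) + ((k : ℝ) + 1) / ((k : ℝ) + 2) * dist (imean pt k (P ∘ τ)) (P s) ^ 2 := by
      intro τ s
      rfl
    simp only [e, sum_add_distrib, sum_const, card_univ, nsmul_eq_mul, ← mul_sum]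
    have h2 : (Fintype.card S : ℝ) ^ (k + 1) * E ≤
        ∑ τ : Fin (k + 1) → S, ∑ s, dist (imean pt k (P ∘ τ)) (P s) ^ 2 := by
      refine le_trans (le_of_eq ?_) (sum_le_sum fun τ _ => hE _)
      simp
    have h3 := mul_le_mul_of_nonneg_left h2
      (show (0 : ℝ) ≤ ((k : ℝ) + 1) / ((k : ℝ) + 2) by positivity)
    have h4 := mul_le_mul_of_nonneg_left ih (show (0 : ℝ) ≤ (Fintype.card S : ℝ) by positivity)
    have e2 : cc (k + 1) = cc k + ((k : ℝ) + 1) / ((k : ℝ) + 2) := by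
      simp [cc, sum_range_succ]
    rw [e2]
    have e3 : (cc k + ((k : ℝ) + 1) / ((k : ℝ) + 2)) * (Fintype.card S : ℝ) ^ (k + 1) * E =
        (Fintype.card S : ℝ) * (cc k * (Fintype.card S : ℝ) ^ k * E) +
          ((k : ℝ) + 1) / ((k : ℝ) + 2) * ((Fintype.card S : ℝ) ^ (k + 1) * E) := by ring
    rw [e3]
    linarith

end mean

theorem tuple_sum {S : Type*} [Fintype S] (w f : S → ℝ) : ∀ k : ℕ,
    ∑ τ : Fin (k + 1) → S, (∏ i, w (τ i)) * ∑ i, f (τ i) =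
      ((k : ℝ) + 1) * (∑ s, w s) ^ k * ∑ s, w s * f s
  | 0 => by
    classical
    rw [← (Equiv.funUnique (Fin 1) S).symm.sum_comp]
    simp
  | k + 1 => by
    classical
    have ih := tuple_sum w f k
    rw [← (Fin.consEquiv fun _ : Fin (k + 2) => S).sum_comp, Fintype.sum_prod_type]
    have e : ∀ (s : S) (τ : Fin (k + 1) → S),
        (∏ i, w ((Fin.consEquiv fun _ : Fin (k + 2) => S) (s, τ) i)) *
          ∑ i, f ((Fin.consEquiv fun _ : Fin (k + 2) => S) (s, τ) i) =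
        w s * f s * ∏ i, w (τ i) + w s * ((∏ i, w (τ i)) * ∑ i, f (τ i)) := by
      intro s τ
      rw [Fin.prod_univ_succ, Fin.sum_univ_succ]
      simp only [Fin.consEquiv_apply, Fin.cons_zero, Fin.cons_succ]
      ring
    simp only [e, sum_add_distrib, ← mul_sum, ih, ← sum_mul, ← Fintype.sum_pow]
    push_cast
    ring

theorem F_nonneg {X : Type*} [PseudoMetricSpace X] {η : ℝ} (h0 : 0 < η) (h1 : η ≤ 1)
    (x y z : X) : 0 ≤ dist y z ^ 2 - (1 - η) * dist y x ^ 2 + dist x z ^ 2 / η := by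
  have ht := dist_triangle y z x
  rw [dist_comm z x] at ht
  have h2 : dist y x ^ 2 ≤ (dist y z + dist x z) ^ 2 := pow_le_pow_left₀ dist_nonneg ht 2
  have h3 := mul_le_mul_of_nonneg_left h2 (show 0 ≤ 1 - η by linarith)
  have h4 : 0 ≤ η * (dist y z ^ 2 - (1 - η) * (dist y z + dist x z) ^ 2 + dist x z ^ 2 / η) := by
    have e : η * (dist y z ^ 2 - (1 - η) * (dist y z + dist x z) ^ 2 + dist x z ^ 2 / η) =
        (η * dist y z - (1 - η) * dist x z) ^ 2 + η * dist x z ^ 2 := by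
      field_simp
      ring
    rw [e]
    positivity
  have h5 := nonneg_of_mul_nonneg_right h4 h0 |> fun h => h
  linarith

/-- **The V-lemma**, raw form, with the tuples counted on the good keys. -/
theorem vlem_raw' {X : Type*} [PseudoMetricSpace X] {pt : X → X → ℝ → X} (h : IsCNt pt)
    {K S : Type*} [Fintype K] [DecidableEq K] [Fintype S] (valid : K → S → Prop)
    [∀ κ s, Decidable (valid κ s)]
    (x : X) (P : S → X) (hmin : ∀ z, ∑ s, dist x (P s) ^ 2 ≤ ∑ s, dist z (P s) ^ 2)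
    (y : K → X) (k : ℕ) {η a m μ : ℝ} (h0 : 0 < η) (h1 : η ≤ 1) (ha : 0 ≤ a) (bad : Finset K)
    (hA : ∀ τ : Fin (k + 1) → S, a ≤ ((univ.filter fun κ => ∀ i, valid κ (τ i)) \ bad).card)
    (hm : ∀ κ, κ ∉ bad → ((univ.filter fun s => valid κ s).card : ℝ) ≤ m)
    (hM : ∀ s, ((univ.filter fun κ => valid κ s).card : ℝ) ≤ μ) :
    (1 + 1 / η) * a * (cc k * (Fintype.card S : ℝ) ^ k * ∑ s, dist x (P s) ^ 2) ≤
      ((k : ℝ) + 1) * |m| ^ k *
        (∑ κ, ∑ s ∈ univ.filter fun s => valid κ s, dist (y κ) (P s) ^ 2 -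
          (1 - η) * ∑ κ, ∑ _s ∈ univ.filter fun s => valid κ s, dist (y κ) x ^ 2 +
          μ / η * ∑ s, dist x (P s) ^ 2) := by
  classical
  set F : K → S → ℝ := fun κ s =>
    dist (y κ) (P s) ^ 2 - (1 - η) * dist (y κ) x ^ 2 + dist x (P s) ^ 2 / η with hF
  have hF0 : ∀ κ s, 0 ≤ F κ s := fun κ s => F_nonneg h0 h1 _ _ _
  set w : K → S → ℝ := fun κ s => if valid κ s then 1 else 0 with hw
  have hw0 : ∀ κ s, 0 ≤ w κ s := fun κ s => by simp only [hw]; split_ifs <;> norm_num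
  -- pointwise bound for a tuple
  have hτ : ∀ κ (τ : Fin (k + 1) → S), (1 + 1 / η) * ivar pt k (P ∘ τ) ≤ ∑ i, F κ (τ i) := by
    intro κ τ
    have a1 := imean_le h (y κ) k (P ∘ τ)
    have a2 := imean_le h x k (P ∘ τ)
    have a3 := F_nonneg h0 h1 x (y κ) (imean pt k (P ∘ τ))
    have a4 := mul_le_mul_of_nonneg_left a3 (show (0 : ℝ) ≤ (k : ℝ) + 1 by positivity)
    have a5 := div_le_div_of_nonneg_right a2 h0.le
    simp only [hF, sum_add_distrib, sum_sub_distrib, sum_const, card_univ, Fintype.card_fin,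
      nsmul_eq_mul, ← sum_div]
    simp only [Function.comp] at a1 a2 a3 a4 a5 ⊢
    push_cast
    rw [add_div, mul_div_assoc] at a5
    have e : (1 + 1 / η) * ivar pt k (P ∘ τ) = ivar pt k (P ∘ τ) + ivar pt k (P ∘ τ) / η := by
      ring
    rw [e]
    nlinarith
  -- bound for one good key
  have hκ : ∀ κ, κ ∉ bad → (1 + 1 / η) * ∑ τ : Fin (k + 1) → S, (∏ i, w κ (τ i)) *
      ivar pt k (P ∘ τ) ≤ ((k : ℝ) + 1) * |m| ^ k * ∑ s, w κ s * F κ s := by
    intro κ hκ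
    have b1 : ∑ s, w κ s ≤ |m| := by
      refine le_trans (le_of_eq ?_) ((hm κ hκ).trans (le_abs_self m))
      simp [hw]
    have b2 : (∑ s, w κ s) ^ k ≤ |m| ^ k :=
      pow_le_pow_left₀ (sum_nonneg fun s _ => hw0 κ s) b1 k
    have b3 : 0 ≤ ∑ s, w κ s * F κ s := sum_nonneg fun s _ => mul_nonneg (hw0 κ s) (hF0 κ s)
    calc _ = ∑ τ : Fin (k + 1) → S, (∏ i, w κ (τ i)) * ((1 + 1 / η) * ivar pt k (P ∘ τ)) := by
          rw [mul_sum]; exact sum_congr rfl fun τ _ => by ring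
      _ ≤ ∑ τ : Fin (k + 1) → S, (∏ i, w κ (τ i)) * ∑ i, F κ (τ i) :=
          sum_le_sum fun τ _ => mul_le_mul_of_nonneg_left (hτ κ τ)
            (prod_nonneg fun i _ => hw0 κ _)
      _ = ((k : ℝ) + 1) * (∑ s, w κ s) ^ k * ∑ s, w κ s * F κ s := tuple_sum _ _ k
      _ ≤ _ := by gcongr
  -- counting good keys
  have hcount : ∀ τ : Fin (k + 1) → S, a ≤ ∑ κ ∈ univ \ bad, ∏ i, w κ (τ i) := by
    intro τ
    have c1 : ∑ κ ∈ univ \ bad, ∏ i, w κ (τ i) =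
        (((univ.filter fun κ => ∀ i, valid κ (τ i)) \ bad).card : ℝ) := by
      have : ∀ κ, ∏ i, w κ (τ i) = if ∀ i, valid κ (τ i) then 1 else 0 := by
        intro κ
        simp only [hw]
        rw [prod_ite_zero]
        simp
      simp only [this]
      rw [sum_boole]
      congr 2
      ext κ
      simp [and_comm]
    rw [c1]
    exact hA τ
  have hη : 0 ≤ 1 + 1 / η := by positivity
  have hsum := sum_ivar (pt := pt) P hmin k
  have step1 : a * (cc k * (Fintype.card S : ℝ) ^ k * ∑ s, dist x (P s) ^ 2) ≤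
      ∑ κ ∈ univ \ bad, ∑ τ : Fin (k + 1) → S, (∏ i, w κ (τ i)) * ivar pt k (P ∘ τ) := by
    rw [sum_comm]
    refine (mul_le_mul_of_nonneg_left hsum ha).trans ?_
    rw [mul_sum]
    refine sum_le_sum fun τ _ => ?_
    rw [← sum_mul]
    exact mul_le_mul_of_nonneg_right (hcount τ) (ivar_nonneg _ _ _)
  have step2 : ∑ κ ∈ univ \ bad, ∑ s, w κ s * F κ s ≤ ∑ κ, ∑ s, w κ s * F κ s :=
    sum_le_sum_of_subset_of_nonneg (subset_univ _) fun κ _ _ =>
      sum_nonneg fun s _ => mul_nonneg (hw0 κ s) (hF0 κ s)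
  have step3 : ∑ κ, ∑ s, w κ s * F κ s ≤
      ∑ κ, ∑ s ∈ univ.filter fun s => valid κ s, dist (y κ) (P s) ^ 2 -
        (1 - η) * ∑ κ, ∑ _s ∈ univ.filter fun s => valid κ s, dist (y κ) x ^ 2 +
        μ / η * ∑ s, dist x (P s) ^ 2 := by
    have d1 : ∀ κ, ∑ s, w κ s * F κ s =
        ∑ s ∈ univ.filter fun s => valid κ s, dist (y κ) (P s) ^ 2 -
          (1 - η) * ∑ _s ∈ univ.filter fun s => valid κ s, dist (y κ) x ^ 2 +
          ∑ s, w κ s * (dist x (P s) ^ 2 / η) := by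
      intro κ
      rw [mul_sum, sum_filter, sum_filter, ← sum_sub_distrib, ← sum_add_distrib]
      refine sum_congr rfl fun s _ => ?_
      simp only [hw, hF]
      split_ifs <;> ring
    have d2 : ∑ κ, ∑ s, w κ s * (dist x (P s) ^ 2 / η) ≤ μ / η * ∑ s, dist x (P s) ^ 2 := by
      rw [sum_comm, mul_sum]
      refine sum_le_sum fun s _ => ?_
      rw [← sum_mul]
      have d3 : ∑ κ, w κ s ≤ μ := by
        refine le_trans (le_of_eq ?_) (hM s)
        simp [hw]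
      calc _ ≤ μ * (dist x (P s) ^ 2 / η) := mul_le_mul_of_nonneg_right d3 (by positivity)
        _ = _ := by ring
    simp only [d1, sum_add_distrib, sum_sub_distrib, ← mul_sum]
    linarith
  calc _ = (1 + 1 / η) * (a * (cc k * (Fintype.card S : ℝ) ^ k * ∑ s, dist x (P s) ^ 2)) := by
        ring
    _ ≤ (1 + 1 / η) * ∑ κ ∈ univ \ bad, ∑ τ : Fin (k + 1) → S,
          (∏ i, w κ (τ i)) * ivar pt k (P ∘ τ) := mul_le_mul_of_nonneg_left step1 hη
    _ ≤ ∑ κ ∈ univ \ bad, ((k : ℝ) + 1) * |m| ^ k * ∑ s, w κ s * F κ s := by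
        rw [mul_sum]
        exact sum_le_sum fun κ hκ' => hκ κ (mem_sdiff.1 hκ').2
    _ ≤ _ := by
        rw [← mul_sum]
        exact mul_le_mul_of_nonneg_left (step2.trans step3) (by positivity)

/-- **The V-lemma**, raw form. -/
theorem vlem_raw {X : Type*} [PseudoMetricSpace X] {pt : X → X → ℝ → X} (h : IsCNt pt)
    {K S : Type*} [Fintype K] [Fintype S] (valid : K → S → Prop) [∀ κ s, Decidable (valid κ s)]
    (x : X) (P : S → X) (hmin : ∀ z, ∑ s, dist x (P s) ^ 2 ≤ ∑ s, dist z (P s) ^ 2)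
    (y : K → X) (k : ℕ) {η a β m μ : ℝ} (h0 : 0 < η) (h1 : η ≤ 1) (hβ : β ≤ a)
    (hA : ∀ τ : Fin (k + 1) → S, a ≤ (univ.filter fun κ => ∀ i, valid κ (τ i)).card)
    (bad : Finset K) (hbad : (bad.card : ℝ) ≤ β)
    (hm : ∀ κ, κ ∉ bad → ((univ.filter fun s => valid κ s).card : ℝ) ≤ m)
    (hM : ∀ s, ((univ.filter fun κ => valid κ s).card : ℝ) ≤ μ) :
    (1 + 1 / η) * (a - β) * (cc k * (Fintype.card S : ℝ) ^ k * ∑ s, dist x (P s) ^ 2) ≤
      ((k : ℝ) + 1) * |m| ^ k *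
        (∑ κ, ∑ s ∈ univ.filter fun s => valid κ s, dist (y κ) (P s) ^ 2 -
          (1 - η) * ∑ κ, ∑ _s ∈ univ.filter fun s => valid κ s, dist (y κ) x ^ 2 +
          μ / η * ∑ s, dist x (P s) ^ 2) := by
  classical
  refine vlem_raw' h valid x P hmin y k h0 h1 (sub_nonneg.2 hβ) bad (fun τ => ?_) hm hM
  have c2 := le_card_sdiff bad (univ.filter fun κ => ∀ i, valid κ (τ i))
  have c3 : ((univ.filter fun κ => ∀ i, valid κ (τ i)).card : ℝ) ≤
      (((univ.filter fun κ => ∀ i, valid κ (τ i)) \ bad).card : ℝ) + bad.card := by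
    exact_mod_cast (by omega)
  have := hA τ
  linarith

theorem cc_ge (J : ℕ) (hJ : 0 < J) : ∀ k : ℕ, ((k : ℝ) - J) * (1 - 1 / J) ≤ cc k := by
  have hJ' : (1 : ℝ) ≤ J := by exact_mod_cast hJ
  have h1 : 0 ≤ 1 - 1 / (J : ℝ) := by
    rw [sub_nonneg, div_le_one (by linarith)]; exact hJ'
  intro k
  induction k with
  | zero => simp only [cc]; simp; nlinarith [one_div (J : ℝ)]
  | succ k ih =>
    rcases le_or_gt (k + 1) J with hk | hk
    · have : ((k + 1 : ℕ) : ℝ) - J ≤ 0 := by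
        have : ((k + 1 : ℕ) : ℝ) ≤ J := by exact_mod_cast hk
        linarith
      exact (mul_nonpos_of_nonpos_of_nonneg this h1).trans (cc_nonneg _)
    · have hk' : (J : ℝ) ≤ k := by exact_mod_cast Nat.lt_succ_iff.1 hk
      have e2 : cc (k + 1) = cc k + ((k : ℝ) + 1) / ((k : ℝ) + 2) := by
        simp [cc, sum_range_succ]
      have h3 : 1 - 1 / (J : ℝ) ≤ ((k : ℝ) + 1) / ((k : ℝ) + 2) := by
        have e3 : ((k : ℝ) + 1) / ((k : ℝ) + 2) = 1 - 1 / ((k : ℝ) + 2) := by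
          field_simp; ring
        rw [e3]
        have : 1 / ((k : ℝ) + 2) ≤ 1 / (J : ℝ) :=
          one_div_le_one_div_of_le (by linarith) (by linarith)
        linarith
      rw [e2]
      push_cast
      linarith

theorem exists_cc (θ : ℝ) (hθ : 0 < θ) : ∃ k : ℕ, (1 - θ) * ((k : ℝ) + 1) ≤ cc k := by
  obtain ⟨J, hJ⟩ := exists_nat_gt (3 / θ)
  have hJ0 : (0 : ℝ) < J := lt_trans (by positivity) hJ
  have hJ1 : 0 < J := by exact_mod_cast hJ0
  have hJ2 : (1 : ℝ) ≤ J := by exact_mod_cast hJ1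
  refine ⟨J * J, le_trans ?_ (cc_ge J hJ1 _)⟩
  rw [div_lt_iff₀ hθ] at hJ
  push_cast
  have e : ((J : ℝ) * J - J) * (1 - 1 / J) = J * J - 2 * J + 1 := by field_simp; ring
  rw [e]
  nlinarith

theorem one_sub_mul_pow_le {ε : ℝ} (h0 : 0 ≤ ε) (k : ℕ) : (1 - k * ε) * (1 + ε) ^ k ≤ 1 := by
  induction k with
  | zero => simp
  | succ k ih =>
    have hp : 0 ≤ (1 + ε) ^ k := by positivity
    have h1 : (1 - ((k + 1 : ℕ) : ℝ) * ε) * (1 + ε) ≤ 1 - k * ε := by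
      push_cast
      nlinarith [mul_nonneg (Nat.cast_nonneg (α := ℝ) k) (mul_nonneg h0 h0), mul_nonneg h0 h0]
    calc _ = ((1 - ((k + 1 : ℕ) : ℝ) * ε) * (1 + ε)) * (1 + ε) ^ k := by ring
      _ ≤ (1 - k * ε) * (1 + ε) ^ k := mul_le_mul_of_nonneg_right h1 hp
      _ ≤ 1 := ih

/-- **The V-lemma.** Tuples have length `k + 1`; in the model `B = N ^ 2 p ^ 11`, `q = p ^ 10`. -/
theorem vlem.{u} (δ : ℝ) (hδ0 : 0 < δ) (hδ1 : δ ≤ 1) : ∃ (k : ℕ) (ε₀ : ℝ), 0 < ε₀ ∧ ε₀ ≤ δ ∧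
    ∀ ε : ℝ, 0 ≤ ε → ε ≤ ε₀ →
    ∀ {X : Type u} [PseudoMetricSpace X] {pt : X → X → ℝ → X}, IsCNt pt →
    ∀ {K S : Type} [Fintype K] [Fintype S] [Nonempty S] (valid : K → S → Prop)
      [∀ κ s, Decidable (valid κ s)] (x : X) (P : S → X),
      (∀ z, ∑ s, dist x (P s) ^ 2 ≤ ∑ s, dist z (P s) ^ 2) →
    ∀ (y : K → X) {B q : ℝ}, 0 ≤ B → 0 < q →
      (∀ τ : Fin (k + 1) → S,
        (1 - ε) * (B * q ^ k) ≤ (univ.filter fun κ => ∀ i, valid κ (τ i)).card) →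
    ∀ (bad : Finset K), (bad.card : ℝ) ≤ ε * (B * q ^ k) →
      (∀ κ, κ ∉ bad → ((univ.filter fun s => valid κ s).card : ℝ) ≤
        (1 + ε) * (Fintype.card S * q)) →
      (∀ s, ((univ.filter fun κ => valid κ s).card : ℝ) ≤ (1 + ε) * B) →
      (1 - δ) * ∑ κ, ∑ _s ∈ univ.filter fun s => valid κ s, dist (y κ) x ^ 2 +
          (1 - δ) * (B * ∑ s, dist x (P s) ^ 2) ≤
        ∑ κ, ∑ s ∈ univ.filter fun s => valid κ s, dist (y κ) (P s) ^ 2 := by
  obtain ⟨k, hk⟩ := exists_cc (δ ^ 2 / 4) (by positivity)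
  have hk0 : (0 : ℝ) ≤ k := Nat.cast_nonneg k
  refine ⟨k, δ ^ 2 / (4 * (k + 3)), by positivity, ?_, ?_⟩
  · rw [div_le_iff₀ (by positivity)]
    nlinarith
  intro ε hε0 hε X _ pt h K S _ _ _ valid _ x P hmin y B q hB hq hA bad hbad hm hM
  rw [le_div_iff₀ (by positivity)] at hε
  have hε4 : ε * (k + 3) ≤ δ ^ 2 / 4 := by linarith
  have hδ2 : δ ^ 2 ≤ δ := by nlinarith
  have hε2 : 2 * ε ≤ 1 := by nlinarith
  have hBq : 0 ≤ B * q ^ k := by positivity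
  have raw := vlem_raw h valid x P hmin y k hδ0 hδ1 (β := ε * (B * q ^ k))
    (by nlinarith) hA bad hbad hm hM
  set E := ∑ s, dist x (P s) ^ 2 with hE
  have hE0 : 0 ≤ E := sum_nonneg fun _ _ => sq_nonneg _
  set N : ℝ := (Fintype.card S : ℝ) with hN
  have hN0 : 0 < N := by rw [hN]; exact_mod_cast Fintype.card_pos
  set T := ∑ κ, ∑ s ∈ univ.filter fun s => valid κ s, dist (y κ) (P s) ^ 2
  set U := ∑ κ, ∑ _s ∈ univ.filter fun s => valid κ s, dist (y κ) x ^ 2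
  rw [abs_of_nonneg (by positivity)] at raw
  -- the factor `(1 - 2ε) (cc k / (k+1)) / (1+ε)^k` is at least `1 - θ`
  set θ := δ ^ 2 / 2 - ε with hθ
  have key : (1 - θ) * (((k : ℝ) + 1) * (1 + ε) ^ k) ≤ (1 - 2 * ε) * cc k := by
    have b1 := one_sub_mul_pow_le hε0 k
    have hp : 0 < (1 + ε) ^ k := by positivity
    have b2 : 1 - θ ≤ (1 - k * ε) * ((1 - 2 * ε) * (1 - δ ^ 2 / 4)) := by
      have c0 : 0 ≤ k * ε := by positivity
      have c1 : 0 ≤ δ ^ 2 / 4 := by positivity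
      have c2 : 1 - 2 * ε - δ ^ 2 / 4 ≤ (1 - 2 * ε) * (1 - δ ^ 2 / 4) := by nlinarith
      have c3 : (1 - 2 * ε) * (1 - δ ^ 2 / 4) ≤ 1 := by nlinarith
      nlinarith
    have b3 : 0 ≤ (1 - 2 * ε) * (1 - δ ^ 2 / 4) := mul_nonneg (by linarith) (by nlinarith)
    calc (1 - θ) * (((k : ℝ) + 1) * (1 + ε) ^ k)
        ≤ (1 - k * ε) * ((1 - 2 * ε) * (1 - δ ^ 2 / 4)) * (((k : ℝ) + 1) * (1 + ε) ^ k) :=
          mul_le_mul_of_nonneg_right b2 (by positivity)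
      _ = ((1 - k * ε) * (1 + ε) ^ k) * (((1 - 2 * ε) * (1 - δ ^ 2 / 4)) * ((k : ℝ) + 1)) := by
          ring
      _ ≤ 1 * (((1 - 2 * ε) * (1 - δ ^ 2 / 4)) * ((k : ℝ) + 1)) :=
          mul_le_mul_of_nonneg_right b1 (by positivity)
      _ = (1 - 2 * ε) * ((1 - δ ^ 2 / 4) * ((k : ℝ) + 1)) := by ring
      _ ≤ _ := mul_le_mul_of_nonneg_left hk (by linarith)
  have hpos : 0 < ((k : ℝ) + 1) * ((1 + ε) * (N * q)) ^ k := by positivity
  have main : (1 + 1 / δ) * (1 - θ) * (B * E) ≤ T - (1 - δ) * U + (1 + ε) * B / δ * E := by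
    refine le_of_mul_le_mul_left (le_trans ?_ raw) hpos
    have h5 : 0 ≤ (1 + 1 / δ) * (B * q ^ k * N ^ k * E) := by positivity
    have h6 := mul_le_mul_of_nonneg_left key h5
    calc _ = (1 + 1 / δ) * (B * q ^ k * N ^ k * E) *
          ((1 - θ) * (((k : ℝ) + 1) * (1 + ε) ^ k)) := by rw [mul_pow, mul_pow]; ring
      _ ≤ _ := h6
      _ = _ := by ring
  have hBE : 0 ≤ B * E := mul_nonneg hB hE0
  have fin : 1 - δ ≤ (1 + 1 / δ) * (1 - θ) - (1 + ε) / δ := by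
    have e : (1 + 1 / δ) * (1 - θ) - (1 + ε) / δ = 1 - θ - δ / 2 := by
      rw [hθ]; field_simp; ring
    rw [e, hθ]
    linarith
  have fin2 := mul_le_mul_of_nonneg_right fin hBE
  have e4 : (1 + ε) * B / δ * E = (1 + ε) / δ * (B * E) := by ring
  rw [e4] at main
  nlinarith

/-- **The V-lemma**, with the tuples counted on the good keys. -/
theorem vlemG.{u} (δ : ℝ) (hδ0 : 0 < δ) (hδ1 : δ ≤ 1) : ∃ (k : ℕ) (ε₀ : ℝ), 0 < ε₀ ∧ ε₀ ≤ δ ∧
    ∀ ε : ℝ, 0 ≤ ε → ε ≤ ε₀ →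
    ∀ {X : Type u} [PseudoMetricSpace X] {pt : X → X → ℝ → X}, IsCNt pt →
    ∀ {K S : Type} [Fintype K] [DecidableEq K] [Fintype S] [Nonempty S] (valid : K → S → Prop)
      [∀ κ s, Decidable (valid κ s)] (x : X) (P : S → X),
      (∀ z, ∑ s, dist x (P s) ^ 2 ≤ ∑ s, dist z (P s) ^ 2) →
    ∀ (y : K → X) {B m : ℝ}, 0 ≤ B → 0 < m → ∀ bad : Finset K,
      (∀ τ : Fin (k + 1) → S, (1 - ε) * B * m ^ k ≤
        (Fintype.card S : ℝ) ^ k * ((univ.filter fun κ => ∀ i, valid κ (τ i)) \ bad).card) →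
      (∀ κ, κ ∉ bad → ((univ.filter fun s => valid κ s).card : ℝ) ≤ m) →
      (∀ s, ((univ.filter fun κ => valid κ s).card : ℝ) ≤ (1 + ε) * B) →
      (1 - δ) * ∑ κ, ∑ _s ∈ univ.filter fun s => valid κ s, dist (y κ) x ^ 2 +
          (1 - δ) * (B * ∑ s, dist x (P s) ^ 2) ≤
        ∑ κ, ∑ s ∈ univ.filter fun s => valid κ s, dist (y κ) (P s) ^ 2 := by
  obtain ⟨k, hk⟩ := exists_cc (δ ^ 2 / 4) (by positivity)
  have hδ2 : δ ^ 2 ≤ δ := by nlinarith
  refine ⟨k, δ ^ 2 / 12, by positivity, by linarith, ?_⟩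
  intro ε hε0 hε X _ pt h K S _ _ _ _ valid _ x P hmin y B m hB hm0 bad hA hm hM
  have hN0 : (0 : ℝ) < (Fintype.card S : ℝ) ^ k := by
    have : 0 < Fintype.card S := Fintype.card_pos
    positivity
  have hε1 : 0 ≤ 1 - ε := by linarith
  have raw := vlem_raw' h valid x P hmin y k hδ0 hδ1
    (a := (1 - ε) * B * m ^ k / (Fintype.card S : ℝ) ^ k) (by positivity) bad
    (fun τ => by rw [div_le_iff₀ hN0, mul_comm _ ((Fintype.card S : ℝ) ^ k)]; exact hA τ) hm hM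
  set E := ∑ s, dist x (P s) ^ 2 with hE
  have hE0 : 0 ≤ E := sum_nonneg fun _ _ => sq_nonneg _
  set T := ∑ κ, ∑ s ∈ univ.filter fun s => valid κ s, dist (y κ) (P s) ^ 2
  set U := ∑ κ, ∑ _s ∈ univ.filter fun s => valid κ s, dist (y κ) x ^ 2
  rw [abs_of_pos hm0] at raw
  have hpos : 0 < ((k : ℝ) + 1) * m ^ k := by positivity
  have hBE : 0 ≤ B * E := mul_nonneg hB hE0
  have main : (1 + 1 / δ) * ((1 - ε) * (1 - δ ^ 2 / 4)) * (B * E) ≤
      T - (1 - δ) * U + (1 + ε) * B / δ * E := by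
    refine le_of_mul_le_mul_left (le_trans ?_ raw) hpos
    have h5 : 0 ≤ (1 + 1 / δ) * (1 - ε) * (B * E) * m ^ k := by positivity
    have h6 := mul_le_mul_of_nonneg_left hk h5
    calc _ = (1 + 1 / δ) * (1 - ε) * (B * E) * m ^ k * ((1 - δ ^ 2 / 4) * ((k : ℝ) + 1)) := by
          ring
      _ ≤ _ := h6
      _ = _ := by field_simp
  have fin : 1 - δ ≤ (1 + 1 / δ) * ((1 - ε) * (1 - δ ^ 2 / 4)) - (1 + ε) / δ := by
    have c1 : 1 - ε - δ ^ 2 / 4 ≤ (1 - ε) * (1 - δ ^ 2 / 4) := by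
      nlinarith [mul_nonneg hε0 (sq_nonneg δ)]
    have c2 := mul_le_mul_of_nonneg_left c1 (show 0 ≤ 1 + 1 / δ by positivity)
    have e : (1 + 1 / δ) * (1 - ε - δ ^ 2 / 4) - (1 + ε) / δ =
        1 - ε - δ ^ 2 / 4 - δ / 4 - 2 * (ε / δ) := by
      field_simp; ring
    have c3 : ε / δ ≤ δ / 12 := by rw [div_le_iff₀ hδ0]; linarith
    linarith
  have fin2 := mul_le_mul_of_nonneg_right fin hBE
  have e4 : (1 + ε) * B / δ * E = (1 + ε) / δ * (B * E) := by ring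
  rw [e4] at main
  nlinarith

end Vale.Agent.P172V
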