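import Vale.Agent.P172V.L2
import Vale.Agent.P172V.VLem

/-!
# P172V, part C4: from the counting properties of the blocks to the 20-point configuration
-/

namespace Vale.Agent.P172V

open Finset

universe u

/-- (M): the label function `l` is almost equidistributed on the set `V` of valid blocks. -/
def MCount {Z S : Type} [DecidableEq S] (ε B : ℝ) (V : Finset Z) (l : Z → S) : Prop :=
  ∀ s, (1 - ε) * B ≤ (V.filter fun z => l z = s).card ∧
    ((V.filter fun z => l z = s).card : ℝ) ≤ (1 + ε) * B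

open Classical in
/-- (T), (A), (m) for the V-type with key `(l0, l1)` and third label `l2`. -/
structure VCount {Z S : Type} [Fintype S] (k : ℕ) (ε B q : ℝ) (V : Finset Z)
    (l0 l1 l2 : Z → S) : Prop where
  inj : ∀ z ∈ V, ∀ z' ∈ V, l0 z = l0 z' → l1 z = l1 z' → l2 z = l2 z' → z = z'
  A : ∀ τ : Fin (k + 1) → S, (1 - ε) * (B * q ^ k) ≤
    (univ.filter fun κ : S × S => ∀ i, ∃ z ∈ V, l0 z = κ.1 ∧ l1 z = κ.2 ∧ l2 z = τ i).card
  m : ∃ bad : Finset (S × S), (bad.card : ℝ) ≤ ε * (B * q ^ k) ∧ ∀ κ, κ ∉ bad →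
    ((V.filter fun z => l0 z = κ.1 ∧ l1 z = κ.2).card : ℝ) ≤ (1 + ε) * (Fintype.card S * q)

/-- the V-inequality for the key `(l0, l1)` and the third label `l2` -/
def VIneq {Z S : Type} [Fintype S] (δ B : ℝ) (V : Finset Z) (l0 l1 l2 : Z → S) : Prop :=
  ∀ (X : Type u) [PseudoMetricSpace X] (pt : X → X → ℝ → X), IsCNt pt → ∀ (x : X) (P : S → X),
    (∀ z, ∑ s, dist x (P s) ^ 2 ≤ ∑ s, dist z (P s) ^ 2) → ∀ y : S → S → X,
    (1 - δ) * ∑ z ∈ V, dist (y (l0 z) (l1 z)) x ^ 2 + (1 - δ) * (B * ∑ s, dist x (P s) ^ 2) ≤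
      ∑ z ∈ V, dist (y (l0 z) (l1 z)) (P (l2 z)) ^ 2

theorem sum_valid {Z S : Type} [Fintype S] [DecidableEq S] (V : Finset Z) (l0 l1 l2 : Z → S)
    (inj : ∀ z ∈ V, ∀ z' ∈ V, l0 z = l0 z' → l1 z = l1 z' → l2 z = l2 z' → z = z')
    (valid : S × S → S → Prop) [∀ κ s, Decidable (valid κ s)]
    (hv : ∀ κ s, valid κ s ↔ ∃ z ∈ V, l0 z = κ.1 ∧ l1 z = κ.2 ∧ l2 z = s)
    (F : S × S → S → ℝ) :
    ∑ κ, ∑ s ∈ univ.filter fun s => valid κ s, F κ s = ∑ z ∈ V, F (l0 z, l1 z) (l2 z) := by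
  rw [sum_sigma' univ (fun κ => univ.filter fun s => valid κ s) F]
  symm
  refine sum_bij (fun z _ => ⟨(l0 z, l1 z), l2 z⟩) ?_ ?_ ?_ ?_
  · intro z hz
    simp only [mem_sigma, mem_univ, mem_filter, true_and, hv]
    exact ⟨z, hz, rfl, rfl, rfl⟩
  · intro z hz z' hz' h
    simp only [Sigma.mk.injEq, Prod.mk.injEq, heq_eq_eq] at h
    exact inj z hz z' hz' h.1.1 h.1.2 h.2
  · rintro ⟨κ, s⟩ h
    simp only [mem_sigma, mem_univ, mem_filter, true_and, hv] at h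
    obtain ⟨z, hz, h0, h1, h2⟩ := h
    refine ⟨z, hz, ?_⟩
    rw [h0, h1, h2]
  · intro z _
    rfl

/-- the V-lemma in terms of blocks -/
theorem vineq (δ : ℝ) (hδ0 : 0 < δ) (hδ1 : δ ≤ 1) : ∃ (k : ℕ) (ε₀ : ℝ), 0 < ε₀ ∧ ε₀ ≤ δ ∧
    ∀ ε : ℝ, 0 ≤ ε → ε ≤ ε₀ → ∀ {Z S : Type} [Fintype S] [DecidableEq S] [Nonempty S]
      {B q : ℝ}, 0 ≤ B → 0 < q → ∀ (V : Finset Z) (l0 l1 l2 : Z → S),
      MCount ε B V l2 → VCount k ε B q V l0 l1 l2 → VIneq.{u} δ B V l0 l1 l2 := by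
  classical
  obtain ⟨k, ε₀, h0, h1, H⟩ := vlem.{u} δ hδ0 hδ1
  refine ⟨k, ε₀, h0, h1, ?_⟩
  intro ε hε0 hε Z S _ _ _ B q hB hq V l0 l1 l2 hM hV X _ pt h x P hmin y
  obtain ⟨bad, hbad, hm⟩ := hV.m
  have key := H ε hε0 hε h
    (fun (κ : S × S) s => ∃ z ∈ V, l0 z = κ.1 ∧ l1 z = κ.2 ∧ l2 z = s) x P hmin
    (fun κ => y κ.1 κ.2) hB hq (fun τ => by convert hV.A τ) bad hbad ?_ ?_
  · rw [sum_valid V l0 l1 l2 hV.inj _ (fun _ _ => Iff.rfl),
      sum_valid V l0 l1 l2 hV.inj _ (fun _ _ => Iff.rfl)] at key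
    exact key
  · intro κ hκ
    refine le_trans ?_ (hm κ hκ)
    rw [Nat.cast_le]
    refine le_trans (card_le_card (t := (V.filter fun z => l0 z = κ.1 ∧ l1 z = κ.2).image l2) ?_)
      ?_
    · intro s hs
      simp only [mem_filter, mem_univ, true_and] at hs
      obtain ⟨z, hz, a0, a1, a2⟩ := hs
      exact mem_image.2 ⟨z, mem_filter.2 ⟨hz, a0, a1⟩, a2⟩
    · refine card_image_le.trans (le_of_eq ?_)
      congr
  · intro s
    refine le_trans ?_ (hM s).2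
    rw [Nat.cast_le]
    refine le_trans (card_le_card
      (t := (V.filter fun z => l2 z = s).image fun z => (l0 z, l1 z)) ?_) card_image_le
    intro κ hκ
    simp only [mem_filter, mem_univ, true_and] at hκ
    obtain ⟨z, hz, a0, a1, a2⟩ := hκ
    exact mem_image.2 ⟨z, mem_filter.2 ⟨hz, a2⟩, by rw [a0, a1]⟩

section action

variable {G : Type*} {X : Type u} {Z S : Type} [Group G] [PseudoMetricSpace X] [MulAction G X]
  [IsIsometricSMul G X] [Fintype S] [DecidableEq S]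

theorem sum_fib (V : Finset Z) (l : Z → S) (e : S → ℝ) :
    ∑ z ∈ V, e (l z) = ∑ s, ((V.filter fun z => l z = s).card : ℝ) * e s := by
  rw [← sum_fiberwise V l]
  refine sum_congr rfl fun s _ => ?_
  rw [sum_congr rfl (g := fun _ => e s) fun z hz => by rw [(mem_filter.1 hz).2], sum_const,
    nsmul_eq_mul]

/-- the data of an action: generators, the two base points, and the total energy -/
structure Act (gen : S → G) (x0 x1 : X) (pt : X → X → ℝ → X) : Prop where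
  cnt : IsCNt pt
  min0 : ∀ z, ∑ s, dist x0 (gen s • x1) ^ 2 ≤ ∑ s, dist z (gen s • x1) ^ 2
  min1 : ∀ z, ∑ s, dist x0 (gen s • x1) ^ 2 ≤ ∑ s, dist x0 (gen s • z) ^ 2
  pos : 0 < ∑ s, dist x0 (gen s • x1) ^ 2

variable {gen : S → G} {x0 x1 : X} {pt : X → X → ℝ → X} {V : Finset Z} {B δ ε : ℝ}

/-- the `ℓ²` distance of the model -/
noncomputable abbrev dd (gen : S → G) (x0 x1 : X) (V : Finset Z) (B : ℝ) :
    (Z → X) → (Z → X) → ℝ := l2d V (B * ∑ s, dist x0 (gen s • x1) ^ 2)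

/-- `l` labels the edge from the even vertex `gi` to the odd vertex `go` -/
def Edge (gen : S → G) (V : Finset Z) (gi go : Z → G) (l : Z → S) : Prop :=
  ∀ z ∈ V, go z = gi z * gen (l z)

theorem edge_bounds (A : Act gen x0 x1 pt) (hB : 0 < B) {gi go : Z → G} {l : Z → S}
    (hE : Edge gen V gi go l) (hM : MCount ε B V l) :
    1 - ε ≤ dd gen x0 x1 V B (fun z => gi z • x0) (fun z => go z • x1) ^ 2 ∧
      dd gen x0 x1 V B (fun z => gi z • x0) (fun z => go z • x1) ^ 2 ≤ 1 + ε := by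
  have hW := mul_pos hB A.pos
  have h1 : ∑ z ∈ V, dist (gi z • x0) (go z • x1) ^ 2 =
      ∑ s, ((V.filter fun z => l z = s).card : ℝ) * dist x0 (gen s • x1) ^ 2 := by
    rw [← sum_fib V l fun s => dist x0 (gen s • x1) ^ 2]
    refine sum_congr rfl fun z hz => ?_
    rw [hE z hz, mul_smul, dist_smul]
  rw [l2d_sq V hW, h1, le_div_iff₀ hW, div_le_iff₀ hW, ← mul_assoc, ← mul_assoc, mul_sum, mul_sum]
  exact ⟨sum_le_sum fun s _ => mul_le_mul_of_nonneg_right (hM s).1 (sq_nonneg _),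
    sum_le_sum fun s _ => mul_le_mul_of_nonneg_right (hM s).2 (sq_nonneg _)⟩

omit [DecidableEq S] in
/-- V-inequality with an even base vertex -/
theorem v_even (A : Act gen x0 x1 pt) (hB : 0 < B) {gi go : Z → G} {l0 l1 l2 : Z → S}
    (hE : Edge gen V gi go l2) (hV : VIneq.{u} δ B V l0 l1 l2) {Y : Z → X} (y : S → S → X)
    (hY : ∀ z ∈ V, Y z = gi z • y (l0 z) (l1 z)) :
    (1 - δ) * dd gen x0 x1 V B Y (fun z => gi z • x0) ^ 2 + 1 - δ ≤
      dd gen x0 x1 V B Y (fun z => go z • x1) ^ 2 := by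
  have hW := mul_pos hB A.pos
  have key := hV X pt A.cnt x0 (fun s => gen s • x1) A.min0 y
  have h1 : ∑ z ∈ V, dist (Y z) (gi z • x0) ^ 2 = ∑ z ∈ V, dist (y (l0 z) (l1 z)) x0 ^ 2 :=
    sum_congr rfl fun z hz => by rw [hY z hz, dist_smul]
  have h2 : ∑ z ∈ V, dist (Y z) (go z • x1) ^ 2 =
      ∑ z ∈ V, dist (y (l0 z) (l1 z)) (gen (l2 z) • x1) ^ 2 :=
    sum_congr rfl fun z hz => by rw [hY z hz, hE z hz, mul_smul, dist_smul]
  rw [l2d_sq V hW, l2d_sq V hW, h1, h2, le_div_iff₀ hW]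
  refine le_trans (le_of_eq ?_) key
  have := A.pos.ne'
  field_simp
  ring

omit [DecidableEq S] in
/-- V-inequality with an odd base vertex -/
theorem v_odd (A : Act gen x0 x1 pt) (hB : 0 < B) {gi go : Z → G} {l0 l1 l2 : Z → S}
    (hE : Edge gen V gi go l2) (hV : VIneq.{u} δ B V l0 l1 l2) {Y : Z → X} (y : S → S → X)
    (hY : ∀ z ∈ V, Y z = go z • y (l0 z) (l1 z)) :
    (1 - δ) * dd gen x0 x1 V B Y (fun z => go z • x1) ^ 2 + 1 - δ ≤
      dd gen x0 x1 V B Y (fun z => gi z • x0) ^ 2 := by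
  have hW := mul_pos hB A.pos
  have hd : ∀ (s : S) (w : X), dist w ((gen s)⁻¹ • x0) = dist x0 (gen s • w) := fun s w => by
    rw [← dist_smul (gen s), smul_inv_smul, dist_comm]
  have key := hV X pt A.cnt x1 (fun s => (gen s)⁻¹ • x0) (fun z => by
    simp only [hd]; exact A.min1 z) y
  have h1 : ∑ z ∈ V, dist (Y z) (go z • x1) ^ 2 = ∑ z ∈ V, dist (y (l0 z) (l1 z)) x1 ^ 2 :=
    sum_congr rfl fun z hz => by rw [hY z hz, dist_smul]
  have h2 : ∑ z ∈ V, dist (Y z) (gi z • x0) ^ 2 =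
      ∑ z ∈ V, dist (y (l0 z) (l1 z)) ((gen (l2 z))⁻¹ • x0) ^ 2 :=
    sum_congr rfl fun z hz => by
      have : gi z = go z * (gen (l2 z))⁻¹ := by rw [hE z hz, mul_inv_cancel_right]
      rw [hY z hz, this, mul_smul, dist_smul]
  rw [l2d_sq V hW, l2d_sq V hW, h1, h2, le_div_iff₀ hW]
  simp only [hd _ x1] at key
  refine le_trans (le_of_eq ?_) key
  have := A.pos.ne'
  field_simp
  ring

/-- a diagonal odd–odd through the even vertex `gi` -/
theorem diag_odd (A : Act gen x0 x1 pt) (hB : 0 < B) (hδ0 : 0 ≤ δ) (hδ1 : δ ≤ 1)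
    {gi go go' : Z → G} {l l0 l1 l2 : Z → S} (hE : Edge gen V gi go l) (hM : MCount δ B V l)
    (hE' : Edge gen V gi go' l2) (hV : VIneq.{u} δ B V l0 l1 l2) (hl : l = l0 ∨ l = l1) :
    2 - 3 * δ ≤ dd gen x0 x1 V B (fun z => go z • x1) (fun z => go' z • x1) ^ 2 := by
  have h1 := (edge_bounds A hB hE hM).1
  have hW := mul_pos hB A.pos
  rw [show dd gen x0 x1 V B (fun z => gi z • x0) (fun z => go z • x1) =
    dd gen x0 x1 V B (fun z => go z • x1) (fun z => gi z • x0) from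
      (cnd_l2 A.cnt V hW).symm _ _] at h1
  have h2 : (1 - δ) * dd gen x0 x1 V B (fun z => go z • x1) (fun z => gi z • x0) ^ 2 + 1 - δ ≤
      dd gen x0 x1 V B (fun z => go z • x1) (fun z => go' z • x1) ^ 2 := by
    rcases hl with rfl | rfl
    · exact v_even A hB hE' hV (fun s _ => gen s • x1) fun z hz => by rw [hE z hz, mul_smul]
    · exact v_even A hB hE' hV (fun _ s => gen s • x1) fun z hz => by rw [hE z hz, mul_smul]
  have h3 := mul_le_mul_of_nonneg_left h1 (sub_nonneg.2 hδ1)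
  nlinarith

/-- a diagonal even–even through the odd vertex `go` -/
theorem diag_even (A : Act gen x0 x1 pt) (hB : 0 < B) (hδ0 : 0 ≤ δ) (hδ1 : δ ≤ 1)
    {gi gi' go : Z → G} {l l0 l1 l2 : Z → S} (hE : Edge gen V gi go l) (hM : MCount δ B V l)
    (hE' : Edge gen V gi' go l2) (hV : VIneq.{u} δ B V l0 l1 l2) (hl : l = l0 ∨ l = l1) :
    2 - 3 * δ ≤ dd gen x0 x1 V B (fun z => gi z • x0) (fun z => gi' z • x0) ^ 2 := by
  have h1 := (edge_bounds A hB hE hM).1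
  have h0 : ∀ z ∈ V, gi z • x0 = go z • (gen (l z))⁻¹ • x0 := fun z hz => by
    rw [hE z hz, mul_smul, smul_inv_smul]
  have h2 : (1 - δ) * dd gen x0 x1 V B (fun z => gi z • x0) (fun z => go z • x1) ^ 2 + 1 - δ ≤
      dd gen x0 x1 V B (fun z => gi z • x0) (fun z => gi' z • x0) ^ 2 := by
    rcases hl with rfl | rfl
    · exact v_odd A hB hE' hV (fun s _ => (gen s)⁻¹ • x0) h0
    · exact v_odd A hB hE' hV (fun _ s => (gen s)⁻¹ • x0) h0
  have h3 := mul_le_mul_of_nonneg_left h1 (sub_nonneg.2 hδ1)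
  nlinarith

omit [DecidableEq S] in
/-- V-inequality for the midpoint of two neighbours of the root -/
theorem v_mid (A : Act gen x0 x1 pt) (hB : 0 < B) {go0 go1 go2 : Z → G} {l0 l1 l2 : Z → S}
    (h0 : Edge gen V 1 go0 l0) (h1 : Edge gen V 1 go1 l1) (h2 : Edge gen V 1 go2 l2)
    (hV : VIneq.{u} δ B V l0 l1 l2) :
    (1 - δ) * dd gen x0 x1 V B (fun z => pt (go0 z • x1) (go1 z • x1) (1 / 2))
        (fun z => (1 : Z → G) z • x0) ^ 2 + 1 - δ ≤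
      dd gen x0 x1 V B (fun z => pt (go0 z • x1) (go1 z • x1) (1 / 2))
        (fun z => go2 z • x1) ^ 2 :=
  v_even A hB h2 hV (fun s t => pt (gen s • x1) (gen t • x1) (1 / 2)) fun z hz => by
    rw [h0 z hz, h1 z hz]
    simp

omit [DecidableEq S] in
theorem v_mid' (A : Act gen x0 x1 pt) (hB : 0 < B) {go0 go1 go2 : Z → G} {l0 l1 l2 : Z → S}
    (h0 : Edge gen V 1 go0 l0) (h1 : Edge gen V 1 go1 l1) (h2 : Edge gen V 1 go2 l2)
    (hV : VIneq.{u} δ B V l0 l1 l2) :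
    (1 - δ) * dd gen x0 x1 V B (fun z => pt (go1 z • x1) (go0 z • x1) (1 / 2))
        (fun z => (1 : Z → G) z • x0) ^ 2 + 1 - δ ≤
      dd gen x0 x1 V B (fun z => pt (go1 z • x1) (go0 z • x1) (1 / 2))
        (fun z => go2 z • x1) ^ 2 :=
  v_even A hB h2 hV (fun s t => pt (gen t • x1) (gen s • x1) (1 / 2)) fun z hz => by
    rw [h0 z hz, h1 z hz]
    simp

end action

/-- the labels of the 35 flags and of the two dummy flags, as functions of the block -/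
structure Labs (Z S : Type) where
  (vu va vb t1u t1a t2u t2b wa wb vc vc' s3c s3c' r3c r3c' vd vd' s4d s4d' r4d r4d' w'c' w'd'
    t1e t1e' s3e s3e' s4e s4e' t2f t2f' r3f r3f' r4f r4f' z5 z6 : Z → S)

/-- the group elements attached to the vertices other than `v`, as functions of the block -/
structure Poss (Z : Type) (G : Type*) where
  (t1 t2 w s3 r3 s4 r4 w' u a b c c' d d' e e' f f' : Z → G)

/-- the 35 edge relations `g o = g i * gen (label)`, with `g v = 1` -/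
structure Edges {Z S : Type} {G : Type*} [Group G] (gen : S → G) (V : Finset Z) (L : Labs Z S)
    (g : Poss Z G) : Prop where
  vu : Edge gen V 1 g.u L.vu
  va : Edge gen V 1 g.a L.va
  vb : Edge gen V 1 g.b L.vb
  t1u : Edge gen V g.t1 g.u L.t1u
  t1a : Edge gen V g.t1 g.a L.t1a
  t2u : Edge gen V g.t2 g.u L.t2u
  t2b : Edge gen V g.t2 g.b L.t2b
  wa : Edge gen V g.w g.a L.wa
  wb : Edge gen V g.w g.b L.wb
  vc : Edge gen V 1 g.c L.vc
  vc' : Edge gen V 1 g.c' L.vc'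
  s3c : Edge gen V g.s3 g.c L.s3c
  s3c' : Edge gen V g.s3 g.c' L.s3c'
  r3c : Edge gen V g.r3 g.c L.r3c
  r3c' : Edge gen V g.r3 g.c' L.r3c'
  vd : Edge gen V 1 g.d L.vd
  vd' : Edge gen V 1 g.d' L.vd'
  s4d : Edge gen V g.s4 g.d L.s4d
  s4d' : Edge gen V g.s4 g.d' L.s4d'
  r4d : Edge gen V g.r4 g.d L.r4d
  r4d' : Edge gen V g.r4 g.d' L.r4d'
  w'c' : Edge gen V g.w' g.c' L.w'c'
  w'd' : Edge gen V g.w' g.d' L.w'd'
  t1e : Edge gen V g.t1 g.e L.t1e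
  t1e' : Edge gen V g.t1 g.e' L.t1e'
  s3e : Edge gen V g.s3 g.e L.s3e
  s3e' : Edge gen V g.s3 g.e' L.s3e'
  s4e : Edge gen V g.s4 g.e L.s4e
  s4e' : Edge gen V g.s4 g.e' L.s4e'
  t2f : Edge gen V g.t2 g.f L.t2f
  t2f' : Edge gen V g.t2 g.f' L.t2f'
  r3f : Edge gen V g.r3 g.f L.r3f
  r3f' : Edge gen V g.r3 g.f' L.r3f'
  r4f : Edge gen V g.r4 g.f L.r4f
  r4f' : Edge gen V g.r4 g.f' L.r4f'

/-- (M) for the 35 flags -/
structure MCounts {Z S : Type} [DecidableEq S] (ε B : ℝ) (V : Finset Z) (L : Labs Z S) :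
    Prop where
  vu : MCount ε B V L.vu
  va : MCount ε B V L.va
  vb : MCount ε B V L.vb
  t1u : MCount ε B V L.t1u
  t1a : MCount ε B V L.t1a
  t2u : MCount ε B V L.t2u
  t2b : MCount ε B V L.t2b
  wa : MCount ε B V L.wa
  wb : MCount ε B V L.wb
  vc : MCount ε B V L.vc
  vc' : MCount ε B V L.vc'
  s3c : MCount ε B V L.s3c
  s3c' : MCount ε B V L.s3c'
  r3c : MCount ε B V L.r3c
  r3c' : MCount ε B V L.r3c'
  vd : MCount ε B V L.vd
  vd' : MCount ε B V L.vd'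
  s4d : MCount ε B V L.s4d
  s4d' : MCount ε B V L.s4d'
  r4d : MCount ε B V L.r4d
  r4d' : MCount ε B V L.r4d'
  w'c' : MCount ε B V L.w'c'
  w'd' : MCount ε B V L.w'd'
  t1e : MCount ε B V L.t1e
  t1e' : MCount ε B V L.t1e'
  s3e : MCount ε B V L.s3e
  s3e' : MCount ε B V L.s3e'
  s4e : MCount ε B V L.s4e
  s4e' : MCount ε B V L.s4e'
  t2f : MCount ε B V L.t2f
  t2f' : MCount ε B V L.t2f'
  r3f : MCount ε B V L.r3f
  r3f' : MCount ε B V L.r3f'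
  r4f : MCount ε B V L.r4f
  r4f' : MCount ε B V L.r4f'

/-- (T), (A), (m) for the 17 V-types -/
structure VCounts {Z S : Type} [Fintype S] (k : ℕ) (ε B q : ℝ) (V : Finset Z) (L : Labs Z S) :
    Prop where
  Q2va : VCount k ε B q V L.vu L.vb L.va
  Q2t1u : VCount k ε B q V L.vu L.vb L.t1u
  Q1vb : VCount k ε B q V L.vu L.va L.vb
  Q1t2u : VCount k ε B q V L.vu L.va L.t2u
  Q1wa : VCount k ε B q V L.vu L.va L.wa
  Q3w'c' : VCount k ε B q V L.vc' L.vc L.w'c'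
  Q3vd' : VCount k ε B q V L.vc' L.vc L.vd'
  Q3vu : VCount k ε B q V L.vc' L.vc L.vu
  C'vc : VCount k ε B q V L.vc' L.vd' L.vc
  C'vd : VCount k ε B q V L.vc' L.vd' L.vd
  C's3c' : VCount k ε B q V L.vc' L.vd' L.s3c'
  C'r3c' : VCount k ε B q V L.vc' L.vd' L.r3c'
  C's4d' : VCount k ε B q V L.vc' L.vd' L.s4d'
  C'r4d' : VCount k ε B q V L.vc' L.vd' L.r4d'
  Q4vc' : VCount k ε B q V L.vd' L.vd L.vc'
  D5t1e' : VCount k ε B q V L.t1e L.z5 L.t1e'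
  D6t2f' : VCount k ε B q V L.t2f L.z6 L.t2f'

theorem MCount.mono {Z S : Type} [DecidableEq S] {ε δ B : ℝ} {V : Finset Z} {l : Z → S}
    (h : MCount ε B V l) (hB : 0 ≤ B) (hε : ε ≤ δ) : MCount δ B V l := fun s =>
  ⟨le_trans (mul_le_mul_of_nonneg_right (by linarith) hB) (h s).1,
    le_trans (h s).2 (mul_le_mul_of_nonneg_right (by linarith) hB)⟩

/-- the V-inequalities for the 17 V-types -/
structure VIneqs {Z S : Type} [Fintype S] (δ B : ℝ) (V : Finset Z) (L : Labs Z S) : Prop where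
  Q2va : VIneq.{u} δ B V L.vu L.vb L.va
  Q2t1u : VIneq.{u} δ B V L.vu L.vb L.t1u
  Q1vb : VIneq.{u} δ B V L.vu L.va L.vb
  Q1t2u : VIneq.{u} δ B V L.vu L.va L.t2u
  Q1wa : VIneq.{u} δ B V L.vu L.va L.wa
  Q3w'c' : VIneq.{u} δ B V L.vc' L.vc L.w'c'
  Q3vd' : VIneq.{u} δ B V L.vc' L.vc L.vd'
  Q3vu : VIneq.{u} δ B V L.vc' L.vc L.vu
  C'vc : VIneq.{u} δ B V L.vc' L.vd' L.vc
  C'vd : VIneq.{u} δ B V L.vc' L.vd' L.vd
  C's3c' : VIneq.{u} δ B V L.vc' L.vd' L.s3c'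
  C'r3c' : VIneq.{u} δ B V L.vc' L.vd' L.r3c'
  C's4d' : VIneq.{u} δ B V L.vc' L.vd' L.s4d'
  C'r4d' : VIneq.{u} δ B V L.vc' L.vd' L.r4d'
  Q4vc' : VIneq.{u} δ B V L.vd' L.vd L.vc'
  D5t1e' : VIneq.{u} δ B V L.t1e L.z5 L.t1e'
  D6t2f' : VIneq.{u} δ B V L.t2f L.z6 L.t2f'

/-- **Part C4 + C5**, from the V-inequalities. -/
theorem c45 {Z S : Type} [Fintype S] [DecidableEq S] {B : ℝ} (hB : 0 < B) (V : Finset Z)
    (L : Labs Z S) (hM : MCounts 1e-12 B V L) (hV : VIneqs.{u} 1e-12 B V L)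
    {G : Type*} [Group G] (gen : S → G) (g : Poss Z G) (hE : Edges gen V L g)
    {X : Type u} [PseudoMetricSpace X] [MulAction G X] [IsIsometricSMul G X]
    (x0 x1 : X) (pt : X → X → ℝ → X) : ¬ Act gen x0 x1 pt := by
  intro A
  have hW := mul_pos hB A.pos
  have d0 : (0 : ℝ) ≤ 1e-12 := by norm_num
  have d1 : (1e-12 : ℝ) ≤ 1 := by norm_num
  exact fin20 (cnd_l2 A.cnt V hW) d0 le_rfl (fun z => (1 : Z → G) z • x0)
    (fun z => g.t1 z • x0)
    (fun z => g.t2 z • x0)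
    (fun z => g.w z • x0)
    (fun z => g.s3 z • x0)
    (fun z => g.r3 z • x0)
    (fun z => g.s4 z • x0)
    (fun z => g.r4 z • x0)
    (fun z => g.w' z • x0)
    (fun z => g.u z • x1)
    (fun z => g.a z • x1)
    (fun z => g.b z • x1)
    (fun z => g.c z • x1)
    (fun z => g.c' z • x1)
    (fun z => g.d z • x1)
    (fun z => g.d' z • x1)
    (fun z => g.e z • x1)
    (fun z => g.e' z • x1)
    (fun z => g.f z • x1)
    (fun z => g.f' z • x1)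
    (edge_bounds A hB hE.vu hM.vu).2
    (edge_bounds A hB hE.va hM.va).2
    (edge_bounds A hB hE.vb hM.vb).2
    (edge_bounds A hB hE.t1u hM.t1u).2
    (edge_bounds A hB hE.t1a hM.t1a).2
    (edge_bounds A hB hE.t2u hM.t2u).2
    (edge_bounds A hB hE.t2b hM.t2b).2
    (edge_bounds A hB hE.wa hM.wa).2
    (edge_bounds A hB hE.wb hM.wb).2
    (edge_bounds A hB hE.vc hM.vc).2
    (edge_bounds A hB hE.vc' hM.vc').2
    (edge_bounds A hB hE.s3c hM.s3c).2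
    (edge_bounds A hB hE.s3c' hM.s3c').2
    (edge_bounds A hB hE.r3c hM.r3c).2
    (edge_bounds A hB hE.r3c' hM.r3c').2
    (edge_bounds A hB hE.vd hM.vd).2
    (edge_bounds A hB hE.vd' hM.vd').2
    (edge_bounds A hB hE.s4d hM.s4d).2
    (edge_bounds A hB hE.s4d' hM.s4d').2
    (edge_bounds A hB hE.r4d hM.r4d).2
    (edge_bounds A hB hE.r4d' hM.r4d').2
    (edge_bounds A hB hE.w'c' hM.w'c').2
    (edge_bounds A hB hE.w'd' hM.w'd').2
    (edge_bounds A hB hE.t1e hM.t1e).2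
    (edge_bounds A hB hE.t1e' hM.t1e').2
    (edge_bounds A hB hE.s3e hM.s3e).2
    (edge_bounds A hB hE.s3e' hM.s3e').2
    (edge_bounds A hB hE.s4e hM.s4e).2
    (edge_bounds A hB hE.s4e' hM.s4e').2
    (edge_bounds A hB hE.t2f hM.t2f).2
    (edge_bounds A hB hE.t2f' hM.t2f').2
    (edge_bounds A hB hE.r3f hM.r3f).2
    (edge_bounds A hB hE.r3f' hM.r3f').2
    (edge_bounds A hB hE.r4f hM.r4f).2
    (edge_bounds A hB hE.r4f' hM.r4f').2
    (diag_odd A hB d0 d1 hE.vu hM.vu hE.va hV.Q2va (.inl rfl))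
    (diag_even A hB d0 d1 hE.vu hM.vu hE.t1u hV.Q2t1u (.inl rfl))
    (diag_odd A hB d0 d1 hE.vu hM.vu hE.vb hV.Q1vb (.inl rfl))
    (diag_even A hB d0 d1 hE.vu hM.vu hE.t2u hV.Q1t2u (.inl rfl))
    (diag_even A hB d0 d1 hE.va hM.va hE.wa hV.Q1wa (.inr rfl))
    (diag_even A hB d0 d1 hE.vc' hM.vc' hE.w'c' hV.Q3w'c' (.inl rfl))
    (((cnd_l2 A.cnt V hW).symm _ _) ▸
      (diag_odd A hB d0 d1 hE.vc' hM.vc' hE.vc hV.C'vc (.inl rfl)))
    (diag_even A hB d0 d1 hE.vc' hM.vc' hE.s3c' hV.C's3c' (.inl rfl))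
    (diag_even A hB d0 d1 hE.vc' hM.vc' hE.r3c' hV.C'r3c' (.inl rfl))
    (((cnd_l2 A.cnt V hW).symm _ _) ▸
      (diag_odd A hB d0 d1 hE.vd' hM.vd' hE.vd hV.C'vd (.inr rfl)))
    (diag_even A hB d0 d1 hE.vd' hM.vd' hE.s4d' hV.C's4d' (.inr rfl))
    (diag_even A hB d0 d1 hE.vd' hM.vd' hE.r4d' hV.C'r4d' (.inr rfl))
    (diag_odd A hB d0 d1 hE.t1e hM.t1e hE.t1e' hV.D5t1e' (.inl rfl))
    (diag_odd A hB d0 d1 hE.t2f hM.t2f hE.t2f' hV.D6t2f' (.inl rfl))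
    (v_mid A hB hE.vu hE.va hE.vb hV.Q1vb)
    (v_mid A hB hE.vu hE.vb hE.va hV.Q2va)
    (v_mid' A hB hE.vc' hE.vc hE.vd' hV.Q3vd')
    (v_mid' A hB hE.vd' hE.vd hE.vc' hV.Q4vc')
    (v_mid' A hB hE.vc' hE.vc hE.vu hV.Q3vu)


/-- **Part C4 + C5.** Blocks with the counting properties (M), (T), (A), (m) and the edge relations
are incompatible with an isometric action on a (CN_t) space with an energy minimiser of positive
energy. -/
theorem c4 : ∃ (k : ℕ) (ε₀ : ℝ), 0 < ε₀ ∧ ∀ ε : ℝ, 0 ≤ ε → ε ≤ ε₀ →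
    ∀ {Z S : Type} [Fintype S] [DecidableEq S] [Nonempty S] {B q : ℝ}, 0 < B → 0 < q →
    ∀ (V : Finset Z) (L : Labs Z S), MCounts ε B V L → VCounts k ε B q V L →
    ∀ {G : Type*} [Group G] (gen : S → G) (g : Poss Z G), Edges gen V L g →
    ∀ {X : Type u} [PseudoMetricSpace X] [MulAction G X] [IsIsometricSMul G X]
      (x0 x1 : X) (pt : X → X → ℝ → X), ¬ Act gen x0 x1 pt := by
  obtain ⟨k, ε₀, h0, h1, H⟩ := vineq.{u} 1e-12 (by norm_num) (by norm_num)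
  refine ⟨k, ε₀, h0, ?_⟩
  intro ε hε0 hε Z S _ _ _ B q hB hq V L hM hV G _ gen g hE X _ _ _ x0 x1 pt
  have mono : ∀ {l : Z → S}, MCount ε B V l → MCount 1e-12 B V l := fun h =>
    h.mono hB.le (hε.trans h1)
  have VI : ∀ {l0 l1 l2 : Z → S}, MCount ε B V l2 → VCount k ε B q V l0 l1 l2 →
      VIneq.{u} 1e-12 B V l0 l1 l2 := fun a b => H ε hε0 hε hB.le hq V _ _ _ a b
  exact c45 hB V L ⟨
    mono hM.vu, mono hM.va, mono hM.vb, mono hM.t1u, mono hM.t1a,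
    mono hM.t2u, mono hM.t2b, mono hM.wa, mono hM.wb, mono hM.vc,
    mono hM.vc', mono hM.s3c, mono hM.s3c', mono hM.r3c, mono hM.r3c',
    mono hM.vd, mono hM.vd', mono hM.s4d, mono hM.s4d', mono hM.r4d,
    mono hM.r4d', mono hM.w'c', mono hM.w'd', mono hM.t1e, mono hM.t1e',
    mono hM.s3e, mono hM.s3e', mono hM.s4e, mono hM.s4e', mono hM.t2f,
    mono hM.t2f', mono hM.r3f, mono hM.r3f', mono hM.r4f, mono hM.r4f'⟩ ⟨
    VI hM.va hV.Q2va, VI hM.t1u hV.Q2t1u, VI hM.vb hV.Q1vb, VI hM.t2u hV.Q1t2u,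
    VI hM.wa hV.Q1wa, VI hM.w'c' hV.Q3w'c', VI hM.vd' hV.Q3vd', VI hM.vu hV.Q3vu,
    VI hM.vc hV.C'vc, VI hM.vd hV.C'vd, VI hM.s3c' hV.C's3c', VI hM.r3c' hV.C'r3c',
    VI hM.s4d' hV.C's4d', VI hM.r4d' hV.C'r4d', VI hM.vc' hV.Q4vc', VI hM.t1e' hV.D5t1e',
    VI hM.t2f' hV.D6t2f'⟩
    gen g hE x0 x1 pt

end Vale.Agent.P172V
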