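import Vale.Agent.P198.H372.CATm1

/-!
# P172V: a CAT(-1) space is a CAT(0) space
-/

namespace Vale.Agent.P172V

open Set Real UpperHalfPlane Vale.Agent.P172 Vale.Agent.P172.H372 Vale.Agent.P198.H372
open scoped MatrixGroups

/-- the vertical geodesic through `i` -/
noncomputable def vert (y : ℝ) : ℍ := UpperHalfPlane.mk ⟨0, exp y⟩ (exp_pos y)

theorem dist_vert (s t : ℝ) : dist (vert s) (vert t) = |s - t| :=
  ((isometry_vertical_line 0).dist_eq s t).trans (Real.dist_eq s t)

/-- rotations about `i` -/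
noncomputable def rot (θ : ℝ) : SL(2, ℝ) :=
  ⟨!![cos θ, -sin θ; sin θ, cos θ], by
    rw [Matrix.det_fin_two_of]
    nlinarith [sin_sq_add_cos_sq θ]⟩

theorem continuous_rot : Continuous rot := by
  refine Continuous.subtype_mk ?_ _
  fun_prop

theorem coe_rot_smul (θ : ℝ) (z : ℍ) : ((rot θ • z : ℍ) : ℂ) =
    ((cos θ : ℝ) * (z : ℂ) + ((-sin θ : ℝ) : ℂ)) / ((sin θ : ℝ) * (z : ℂ) + (cos θ : ℝ)) := by
  rw [coe_specialLinearGroup_apply]
  rfl

theorem coe_vert (y : ℝ) : (vert y : ℂ) = (exp y : ℝ) * Complex.I := by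
  apply Complex.ext <;> simp [vert, -Complex.ofReal_exp]

theorem rot_vert_zero (θ : ℝ) : rot θ • vert 0 = vert 0 := by
  apply UpperHalfPlane.ext
  have h : ((sin θ : ℝ) : ℂ) * Complex.I + (cos θ : ℝ) ≠ 0 := by
    intro h
    have h1 := congrArg Complex.re h
    have h2 := congrArg Complex.im h
    simp only [Complex.add_re, Complex.mul_re, Complex.ofReal_re, Complex.I_re, mul_zero,
      Complex.ofReal_im, Complex.I_im, mul_one, sub_self, zero_add, Complex.zero_re,
      Complex.add_im, Complex.mul_im, add_zero, Complex.zero_im] at h1 h2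
    have := sin_sq_add_cos_sq θ
    rw [h1, h2] at this
    norm_num at this
  rw [coe_rot_smul, coe_vert, exp_zero, Complex.ofReal_one, one_mul, div_eq_iff h]
  have := Complex.I_mul_I
  push_cast
  linear_combination (-(Complex.sin θ)) * this

theorem rot_zero_smul (z : ℍ) : rot 0 • z = z := by
  apply UpperHalfPlane.ext
  rw [coe_rot_smul]
  simp

theorem rot_half_vert (y : ℝ) : rot (π / 2) • vert y = vert (-y) := by
  apply UpperHalfPlane.ext
  rw [coe_rot_smul, coe_vert, coe_vert, cos_pi_div_two, sin_pi_div_two, exp_neg]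
  have h : ((exp y : ℝ) : ℂ) ≠ 0 := by exact_mod_cast (exp_pos y).ne'
  have hI := Complex.I_ne_zero
  have := Complex.I_mul_I
  rw [Complex.ofReal_inv]
  generalize ((exp y : ℝ) : ℂ) = a at h ⊢
  push_cast
  rw [zero_mul, zero_add, add_zero, one_mul, div_eq_iff (mul_ne_zero h hI)]
  have h2 := inv_mul_cancel₀ h
  linear_combination (-(a⁻¹ * a)) * this + h2

theorem isGeodesic_rot (θ : ℝ) {a : ℝ} (ha : 0 ≤ a) :
    dist (vert 0) (rot θ • vert a) = a ∧
      IsGeodesic (fun s => rot θ • vert s) (vert 0) (rot θ • vert a) := by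
  have h : dist (vert 0) (rot θ • vert a) = a := by
    rw [← rot_vert_zero θ, dist_smul, dist_vert, zero_sub, abs_neg, abs_of_nonneg ha]
  refine ⟨h, rot_vert_zero θ, by rw [h], fun s _ t _ => ?_⟩
  rw [dist_smul, dist_vert]

/-- comparison triangles in the hyperbolic plane -/
theorem exists_angle {a b c : ℝ} (ha : 0 ≤ a) (hb : 0 ≤ b) (h1 : |a - b| ≤ c) (h2 : c ≤ a + b) :
    ∃ θ : ℝ, dist (rot 0 • vert a) (rot θ • vert b) = c := by
  have hc : Continuous fun θ : ℝ => dist (rot 0 • vert a) (rot θ • vert b) :=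
    continuous_const.dist (continuous_rot.smul continuous_const)
  have := intermediate_value_Icc (a := 0) (b := π / 2) (by positivity) hc.continuousOn
  obtain ⟨θ, -, hθ⟩ := this (show c ∈ _ by
    simp only [rot_zero_smul, rot_half_vert, dist_vert]
    refine ⟨h1, ?_⟩
    rw [sub_neg_eq_add, abs_of_nonneg (add_nonneg ha hb)]
    exact h2)
  exact ⟨θ, hθ⟩

theorem isGeodesic_emb {γ : ℝ → ℍ} {x y : ℍ} (h : IsGeodesic γ x y) :
    IsGeodesic (fun s => emb (γ s)) (emb x) (emb y) := by
  refine ⟨congrArg emb h.1, ?_, ?_⟩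
  · rw [dist_emb]
    exact congrArg emb h.2.1
  · rw [dist_emb]
    intro s hs t ht
    rw [dist_emb]
    exact h.2.2 s hs t ht

/-- **CAT(-1) implies CAT(0).** -/
theorem isCAT0_of_isCATNegOne {X : Type*} [MetricSpace X] (h : IsCATNegOne X) : IsCAT0 X where
  geod := h.geod
  comp := by
    intro x y z α β hα hβ x' y' z' hxy hxz hyz s hs t ht
    obtain ⟨θ, hθ⟩ := exists_angle (a := dist x y) (b := dist x z) (c := dist y z) dist_nonneg
      dist_nonneg (by rw [dist_comm x y, dist_comm x z]; exact abs_dist_sub_le y z x)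
      (dist_triangle_left y z x)
    obtain ⟨d1, g1⟩ := isGeodesic_rot 0 (dist_nonneg (x := x) (y := y))
    obtain ⟨d2, g2⟩ := isGeodesic_rot θ (dist_nonneg (x := x) (y := z))
    have k1 := h.comp x y z α β hα hβ _ _ _ _ _ g1 g2 d1 d2 hθ (s * dist x y)
      ⟨mul_nonneg hs.1 dist_nonneg, mul_le_of_le_one_left dist_nonneg hs.2⟩ (t * dist x z)
      ⟨mul_nonneg ht.1 dist_nonneg, mul_le_of_le_one_left dist_nonneg ht.2⟩
    have k2 := isCAT0_H3.comp _ _ _ _ _ (isGeodesic_emb g1) (isGeodesic_emb g2) x' y' z'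
      (by rw [dist_emb, d1, hxy]) (by rw [dist_emb, d2, hxz]) (by rw [dist_emb, hθ, hyz]) s hs t ht
    simp only [dist_emb, d1, d2] at k2
    exact k1.trans k2

end Vale.Agent.P172V
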