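import Vale.Agent.P172V.CN
import Vale.Agent.P172.H372.Defs

/-!
# P172V, part C1: the energy has a minimum, it is positive, variance inequalities
-/

namespace Vale.Agent.P172V

open Finset Vale.Agent.P172.H372

variable {G X S : Type*} [Group G] [MetricSpace X] [MulAction G X] [IsIsometricSMul G X]
  [Fintype S]

/-- the energy `E(x0, x1) = ∑ d²(x0, s x1)` -/
noncomputable def energy (f : S → G) (x : X × X) : ℝ := ∑ s, dist x.1 (f s • x.2) ^ 2

theorem continuous_energy (f : S → G) : Continuous (energy (X := X) f) := by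
  unfold energy
  refine continuous_finsetSum _ fun s _ => ?_
  exact (continuous_fst.dist ((isometry_smul X (f s)).continuous.comp continuous_snd)).pow 2

theorem dist_le_of_energy (f : S → G) (x : X × X) (s : S) :
    dist x.1 (f s • x.2) ≤ √(energy f x) := by
  refine Real.le_sqrt_of_sq_le ?_
  exact single_le_sum (f := fun s => dist x.1 (f s • x.2) ^ 2) (fun _ _ => sq_nonneg _)
    (mem_univ s)

/-- the energy has a global minimum -/
theorem exists_energy_min [ProperSpace X] [Nonempty X] (hgeo : IsGeometric G X) (f : S → G)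
    (s0 : S) : ∃ x : X × X, ∀ y : X × X, energy f x ≤ energy f y := by
  classical
  obtain ⟨hpd, K, hK, hcov⟩ := hgeo
  obtain ⟨p⟩ := ‹Nonempty X›
  set R : ℝ := √(energy f (p, p)) with hR
  have hR0 : 0 ≤ R := Real.sqrt_nonneg _
  set K' : Set X := Metric.cthickening R K with hK'
  have hK'c : IsCompact K' := hK.cthickening
  have hKK' : K ⊆ K' := Metric.self_subset_cthickening K
  have hF := hpd K' hK'c
  set F : Set G := {g : G | ((fun x => g • x) '' K' ∩ K').Nonempty} with hFdef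
  -- realised tuples
  set T : Set (S → G) := {h | (∀ s, h s ∈ F) ∧ ∃ g : G, ∀ s, h s = g⁻¹ * (f s * (f s0)⁻¹) * g}
    with hT
  have hTfin : T.Finite := (Set.Finite.pi' fun _ : S => hF).subset fun h hh => hh.1
  have hg : ∀ h : S → G, ∃ g : G, h ∈ T → ∀ s, h s = g⁻¹ * (f s * (f s0)⁻¹) * g := by
    intro h
    by_cases hh : h ∈ T
    · obtain ⟨g, hg⟩ := hh.2
      exact ⟨g, fun _ => hg⟩
    · exact ⟨1, fun h' => absurd h' hh⟩
  choose gg hgg using hg
  set φ : G → X × X → X × X := fun g y => (g • y.1, ((f s0)⁻¹ * g) • y.2) with hφ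
  have hφc : ∀ g, Continuous (φ g) := fun g =>
    ((isometry_smul X g).continuous.comp continuous_fst).prodMk
      ((isometry_smul X _).continuous.comp continuous_snd)
  have hφE : ∀ g y, energy f (φ g y) =
      ∑ s, dist y.1 ((g⁻¹ * (f s * (f s0)⁻¹) * g) • y.2) ^ 2 := by
    intro g y
    refine sum_congr rfl fun s _ => ?_
    rw [← dist_smul g y.1, smul_smul, smul_smul]
    simp only [hφ, smul_smul]
    congr 3
    group
  set C : Set (X × X) := ⋃ h ∈ T, φ (gg h) '' (K' ×ˢ K') with hC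
  have hCc : IsCompact C := hTfin.isCompact_biUnion fun h _ => (hK'c.prod hK'c).image (hφc _)
  have key : ∀ x : X × X, energy f x ≤ energy f (p, p) → ∃ y ∈ C, energy f y = energy f x := by
    intro x hx
    have hx1 : x.1 ∈ ⋃ g : G, (fun x => g • x) '' K := hcov ▸ Set.mem_univ _
    obtain ⟨g, y0, hy0, hgy⟩ := by simpa only [Set.mem_iUnion] using hx1
    simp only at hgy
    set y1 : X := (g⁻¹ * f s0) • x.2 with hy1
    have hxφ : x = φ g (y0, y1) := by
      ext
      · exact hgy.symm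
      · simp only [hφ, hy1, smul_smul]
        rw [show (f s0)⁻¹ * g * (g⁻¹ * f s0) = 1 by group, one_smul]
    have hd : ∀ s, dist y0 ((g⁻¹ * (f s * (f s0)⁻¹) * g) • y1) ≤ R := by
      intro s
      have h1 := dist_le_of_energy f x s
      have h2 : dist x.1 (f s • x.2) = dist y0 ((g⁻¹ * (f s * (f s0)⁻¹) * g) • y1) := by
        rw [← dist_smul g y0, hgy, hy1, smul_smul, smul_smul]
        congr 2
        group
      rw [← h2]
      exact h1.trans (Real.sqrt_le_sqrt hx)
    have hmem : ∀ z, dist y0 z ≤ R → z ∈ K' := fun z hz =>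
      Metric.mem_cthickening_of_dist_le z y0 R K hy0 (by rwa [dist_comm])
    have hy1K : y1 ∈ K' := by
      refine hmem _ ?_
      have := hd s0
      rwa [show g⁻¹ * (f s0 * (f s0)⁻¹) * g = 1 by group, one_smul] at this
    set h : S → G := fun s => g⁻¹ * (f s * (f s0)⁻¹) * g with hh
    have hhT : h ∈ T := ⟨fun s => ⟨h s • y1, ⟨y1, hy1K, rfl⟩, hmem _ (hd s)⟩, g, fun _ => rfl⟩
    refine ⟨φ (gg h) (y0, y1), ?_, ?_⟩
    · exact Set.mem_biUnion hhT ⟨(y0, y1), ⟨hKK' hy0, hy1K⟩, rfl⟩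
    · rw [hxφ, hφE, hφE]
      refine sum_congr rfl fun s _ => ?_
      rw [← hgg h hhT s]
  obtain ⟨y, hyC, -⟩ := key (p, p) le_rfl
  obtain ⟨x, hxC, hx⟩ := hCc.exists_isMinOn ⟨y, hyC⟩ (continuous_energy f).continuousOn
  refine ⟨x, fun z => ?_⟩
  obtain ⟨q, hqC, hq⟩ := key (p, p) le_rfl
  rcases le_total (energy f z) (energy f (p, p)) with hz | hz
  · obtain ⟨z', hz'C, hz'⟩ := key z hz
    exact hz' ▸ hx hz'C
  · exact (hq ▸ hx hqC : energy f x ≤ energy f (p, p)).trans hz

omit [IsIsometricSMul G X] in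
/-- an element fixing a point has finite order -/
theorem isOfFinOrder_of_fix (hgeo : IsGeometric G X) {g : G} {x : X} (hx : g • x = x) :
    IsOfFinOrder g := by
  have hF := hgeo.1 {x} isCompact_singleton
  rw [← finite_powers]
  refine hF.subset ?_
  rintro _ ⟨n, rfl⟩
  refine ⟨x, ⟨x, rfl, ?_⟩, rfl⟩
  exact (MulAction.stabilizer G x).pow_mem hx n

theorem energy_pos (hgeo : IsGeometric G X) (f : S → G) {s0 s1 : S}
    (hinf : ¬ IsOfFinOrder (f s0 * (f s1)⁻¹)) (x : X × X) : 0 < energy f x := by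
  have h0 : 0 ≤ energy f x := sum_nonneg fun _ _ => sq_nonneg _
  refine h0.lt_of_ne fun h => hinf ?_
  have h1 := dist_le_of_energy f x s0
  have h2 := dist_le_of_energy f x s1
  rw [← h, Real.sqrt_zero, dist_le_zero] at h1 h2
  refine isOfFinOrder_of_fix hgeo (x := x.1) ?_
  rw [mul_smul, h2, inv_smul_smul, ← h1, ← h2]

omit [Group G] [MulAction G X] [IsIsometricSMul G X] in
/-- the variance inequality at a minimiser of `z ↦ ∑ d²(z, P s)` -/
theorem variance_ineq {pt : X → X → ℝ → X} (hpt : IsCNt pt) (P : S → X) (x : X)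
    (hx : ∀ z, ∑ s, dist x (P s) ^ 2 ≤ ∑ s, dist z (P s) ^ 2) (z : X) :
    Fintype.card S * dist z x ^ 2 + ∑ s, dist x (P s) ^ 2 ≤ ∑ s, dist z (P s) ^ 2 := by
  have key : ∀ t : ℝ, 0 < t → t ≤ 1 →
      (1 - t) * (Fintype.card S * dist z x ^ 2) + ∑ s, dist x (P s) ^ 2 ≤
        ∑ s, dist z (P s) ^ 2 := by
    intro t ht0 ht1
    have h1 := hx (pt x z t)
    have h2 : ∑ s, dist (pt x z t) (P s) ^ 2 ≤
        ∑ s, ((1 - t) * dist x (P s) ^ 2 + t * dist z (P s) ^ 2 - t * (1 - t) * dist z x ^ 2) := by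
      refine sum_le_sum fun s _ => ?_
      have := hpt x z (P s) t ht0.le ht1
      rwa [dist_comm (P s), dist_comm (P s), dist_comm (P s), dist_comm x z] at this
    rw [sum_sub_distrib, sum_add_distrib, ← mul_sum, ← mul_sum, sum_const, card_univ,
      nsmul_eq_mul] at h2
    refine le_of_mul_le_mul_left ?_ ht0
    nlinarith
  set a : ℝ := Fintype.card S * dist z x ^ 2 with ha
  have ha0 : 0 ≤ a := by positivity
  refine le_of_forall_pos_le_add fun ε hε => ?_
  have ht : 0 < ε / (a + ε) := by positivity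
  have ht1 : ε / (a + ε) ≤ 1 := by rw [div_le_one (by positivity)]; linarith
  have h := key _ ht ht1
  have h3 : ε / (a + ε) * a ≤ ε := by
    rw [div_mul_eq_mul_div, div_le_iff₀ (by positivity)]
    nlinarith
  linarith

/-- **C1.** A pair of points minimising the energy; the energy is positive and the two variance
inequalities hold. -/
theorem exists_harmonic [ProperSpace X] [Nonempty X] (hgeo : IsGeometric G X)
    {pt : X → X → ℝ → X} (hpt : IsCNt pt) (f : S → G) {s0 s1 : S}
    (hinf : ¬ IsOfFinOrder (f s0 * (f s1)⁻¹)) :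
    ∃ x0 x1 : X, 0 < ∑ s, dist x0 (f s • x1) ^ 2 ∧
      (∀ z, Fintype.card S * dist z x0 ^ 2 + ∑ s, dist x0 (f s • x1) ^ 2 ≤
        ∑ s, dist z (f s • x1) ^ 2) ∧
      (∀ z, Fintype.card S * dist z x1 ^ 2 + ∑ s, dist x1 ((f s)⁻¹ • x0) ^ 2 ≤
        ∑ s, dist z ((f s)⁻¹ • x0) ^ 2) := by
  obtain ⟨⟨x0, x1⟩, hx⟩ := exists_energy_min (X := X) hgeo f s0
  refine ⟨x0, x1, energy_pos hgeo f hinf (x0, x1), ?_, ?_⟩
  · exact variance_ineq hpt _ x0 fun z => hx (z, x1)
  · have e : ∀ z, ∑ s, dist z ((f s)⁻¹ • x0) ^ 2 = energy f (x0, z) := by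
      intro z
      refine sum_congr rfl fun s _ => ?_
      rw [← dist_smul (f s) z, smul_inv_smul, dist_comm]
    refine variance_ineq hpt _ x1 fun z => ?_
    rw [e, e]
    exact hx (x0, z)

omit [Fintype S] in
theorem dist_inv_smul (f : S → G) (x0 x1 : X) (s : S) :
    dist x1 ((f s)⁻¹ • x0) = dist x0 (f s • x1) := by
  rw [← dist_smul (f s) x1, smul_inv_smul, dist_comm]

end Vale.Agent.P172V
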