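import Vale.Agent.P172V.Defs
import Vale.Agent.P186.Defs
import Vale.Agent.P172.H372.Defs

/-!
# P172V: the three main statements, the rows of part C and the final assembly (helper79)
-/

namespace Vale.Agent.P172V

open Finset Vale.Agent.P172 Vale.Agent.P172.H372

universe u

/-- (A) existence of good data -/
def StmtA : Prop :=
  ∀ (k : ℕ) (ε : ℝ), 0 < ε → ∃ n : ℕ, 1 ≤ n ∧ ∀ K : ℕ,
    ∃ (N : ℕ) (D : Data (Fin N) (Fin N × Fin N) (Fin N × Fin N × Fin N)) (s0 s1 : Fin N),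
      s0 ≠ s1 ∧ D.Sparse s0 s1 n K ∧ D.Unif k ε

/-- (B) sparse data give a hyperbolic group in which `s0 s1⁻¹` has infinite order -/
def StmtB : Prop :=
  ∀ n : ℕ, 1 ≤ n → ∃ K : ℕ, ∀ (S Q Z : Type) [Fintype S] [DecidableEq S] (D : Data S Q Z) (s0 s1 : S),
    s0 ≠ s1 → D.Sparse s0 s1 n K →
    Vale.Agent.P186.IsHyperbolicGroup D.Grp ∧
      ¬ IsOfFinOrder ((PresentedGroup.of s0 : D.Grp) * (PresentedGroup.of s1 : D.Grp)⁻¹)

/-- (B0) valid blocks map to the Cayley graph -/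
def StmtB0 : Prop :=
  ∀ (S Q Z : Type) (D : Data S Q Z), D.Realized (fun s => (PresentedGroup.of s : D.Grp))

/-- (B3A) the inequality for initial segments of the list of objects -/
def StmtB3A : Prop :=
  ∀ (S Q Z : Type) [DecidableEq S] (D : Data S Q Z) (s0 s1 : S) (n K0 : ℕ),
    D.Sparse s0 s1 n (11 * K0) →
    ∀ (O : Finset (Obj Q Z)) (rk : Obj Q Z → ℕ) (ρ : Fl → ℕ) (T : Obj Q Z → Finset Fl),
    O.card ≤ K0 → Set.InjOn rk O → (∀ o ∈ O, D.Val o) → (∀ o ∈ O, T o ⊆ pos (kind o)) →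
    (∀ o ∈ O, ∀ x : Vx, ((T o).filter (fun t => od t = x)).card ≤ 2) →
    (∀ o ∈ O, ∀ t ∈ T o, D.lab o t = s0 ∨ D.lab o t = s1 ∨ ∃ o' ∈ O, ∃ t' ∈ pos (kind o'),
      D.lab o' t' = D.lab o t ∧ (rk o' < rk o ∨ (o' = o ∧ ρ t' < ρ t))) →
    (O.card : ℤ) ≤ 2 * n * ∑ o ∈ O, ((gl o : ℤ) - (T o).card)

/-- (B2) the local inequality -/
def StmtB2 : Prop :=
  ∀ (S Q Z : Type) [DecidableEq S] (D : Data S Q Z) (s0 s1 : S) (n K0 : ℕ),
    D.Sparse s0 s1 n (11 * K0) → D.gs.Loc (fun s => s = s0 ∨ s = s1) K0 n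

/-- (C) no geometric action -/
def StmtC : Prop :=
  ∃ (k : ℕ) (ε : ℝ), 0 < ε ∧ ∀ (S Q Z : Type) [Fintype S] [Fintype Q] [Fintype Z] (D : Data S Q Z)
    (G : Type) [Group G] (ι : S → G) (s0 s1 : S), D.Unif k ε → D.Realized ι →
    ¬ IsOfFinOrder (ι s0 * (ι s1)⁻¹) →
    ∀ (X : Type u) [MetricSpace X] [MulAction G X], Nonempty X → ProperSpace X →
      IsIsometricSMul G X → IsCAT0 X → ¬ IsGeometric G X

/-- (B) from B1 + B3 and B2 -/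
theorem stmtB_of (h13 : VK.StmtB13) (h2 : StmtB2) : StmtB := by
  intro n _
  obtain ⟨K, hK⟩ := h13 (Fintype.card Fl) n
  refine ⟨11 * K, ?_⟩
  intro S Q Z _ _ D s0 s1 hs hS
  obtain ⟨⟨T, hT1, hT2, δ, hT3⟩, h4⟩ := hK S D.gs _ le_rfl (h2 S Q Z D s0 s1 n K hS)
  refine ⟨⟨hT1.toFinset, by simpa using hT2, δ, ?_⟩, h4 s0 s1 (Or.inl rfl) (Or.inr rfl) hs⟩
  rw [Set.Finite.coe_toFinset]
  exact hT3

/-- final assembly -/
theorem main_of (hA : StmtA) (hB : StmtB) (hB0 : StmtB0) (hC : StmtC.{u}) :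
    ∃ (G : Type) (_ : Group G), Vale.Agent.P186.IsHyperbolicGroup G ∧
      ∀ (X : Type u) [MetricSpace X] [MulAction G X], Nonempty X → ProperSpace X →
        IsIsometricSMul G X → IsCAT0 X → ¬ IsGeometric G X := by
  obtain ⟨k, ε, hε, hC⟩ := hC
  obtain ⟨n, hn, hA⟩ := hA k ε hε
  obtain ⟨K, hB⟩ := hB n hn
  obtain ⟨N, D, s0, s1, hs, hS, hU⟩ := hA K
  obtain ⟨h1, h2⟩ := hB _ _ _ D s0 s1 hs hS
  refine ⟨D.Grp, inferInstance, h1, ?_⟩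
  intro X _ _ hX hP hI hc
  exact hC _ _ _ D D.Grp _ s0 s1 hU (hB0 _ _ _ D) h2 X hX hP hI hc

end Vale.Agent.P172V
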