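import Vale.Agent.P172V.C4
import Vale.Agent.P172V.Min
import Vale.Agent.P172V.Stmts

/-!
# P172V: part C (no geometric action), `stmtC`
-/

namespace Vale.Agent.P172V

open Finset Vale.Agent.P172 Vale.Agent.P172.H372

universe u

theorem mem_blocks {S Q Z : Type} [Fintype Z] (D : Data S Q Z) {z : Z} :
    z ∈ D.blocks ↔ D.vb z := by
  simp [Data.blocks]

open Classical in
theorem sum_has {S Q Z : Type} [Fintype S] [Fintype Q] [Fintype Z] (D : Data S Q Z) (r : Ro) (φ : Fl)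
    (inj : Function.Injective fun z => (D.key r z, D.bl z φ)) (F : Q → S → ℝ) :
    ∑ κ, ∑ s ∈ univ.filter fun s => D.Has r φ κ s, F κ s =
      ∑ z ∈ D.blocks, F (D.key r z) (D.bl z φ) := by
  rw [sum_sigma' univ (fun κ => univ.filter fun s => D.Has r φ κ s) F]
  symm
  refine sum_bij (fun z _ => ⟨D.key r z, D.bl z φ⟩) ?_ ?_ ?_ ?_
  · intro z hz
    simp only [mem_sigma, mem_univ, mem_filter, true_and]
    exact ⟨z, (mem_blocks D).1 hz, rfl, rfl⟩
  · intro z _ z' _ h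
    simp only [Sigma.mk.injEq, heq_eq_eq] at h
    exact inj (Prod.ext h.1 h.2)
  · rintro ⟨κ, s⟩ h
    simp only [mem_sigma, mem_univ, mem_filter, true_and] at h
    obtain ⟨z, hz, h0, h1⟩ := h
    refine ⟨z, (mem_blocks D).2 hz, ?_⟩
    rw [h0, h1]
  · intro z _
    rfl

/-- the V-lemma for uniform data -/
theorem vineq_unif (δ : ℝ) (hδ0 : 0 < δ) (hδ1 : δ ≤ 1) : ∃ (k : ℕ) (ε : ℝ), 0 < ε ∧ ε ≤ δ ∧
    ∀ (S Q Z : Type) [Fintype S] [Nonempty S] [Fintype Q] [Fintype Z] (D : Data S Q Z) (U : ℝ),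
      0 < U → D.UnifU k ε U → ∀ r φ, (r, φ) ∈ vtypes → ∀ φ0 ∈ slots r, ∀ φ1 ∈ slots r,
      VIneq.{u} δ U D.blocks (fun z => D.bl z φ0) (fun z => D.bl z φ1) (fun z => D.bl z φ) := by
  classical
  obtain ⟨k, ε, h0, h1, H⟩ := vlem.{u} δ hδ0 hδ1
  refine ⟨k, ε, h0, h1, ?_⟩
  intro S Q Z _ _ _ _ D U hU hD r φ hp φ0 hφ0 φ1 hφ1 X _ pt h x P hmin y
  obtain ⟨q, hq, hD2⟩ := hD.2
  obtain ⟨inj, hA, bad, hbad, hm⟩ := hD2 (r, φ) hp
  have key := H ε h0.le le_rfl h (fun κ s => D.Has r φ κ s) x P hmin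
    (fun κ => y (D.ql r κ φ0) (D.ql r κ φ1)) hU.le hq ?_ bad hbad ?_ ?_
  · rw [sum_has D r φ inj fun κ _ => dist (y (D.ql r κ φ0) (D.ql r κ φ1)) x ^ 2,
      sum_has D r φ inj fun κ s => dist (y (D.ql r κ φ0) (D.ql r κ φ1)) (P s) ^ 2] at key
    simp only [D.hbl r _ φ0 hφ0, D.hbl r _ φ1 hφ1]
    exact key
  · intro τ
    refine (hA τ).trans (le_of_eq ?_)
    rw [← Set.ncard_coe_finset]
    simp
  · intro κ hκ
    refine le_trans ?_ (hm κ hκ)
    rw [Nat.cast_le, Data.fib]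
    refine le_trans (card_le_card ?_) (card_image_le (f := fun z => D.bl z φ))
    intro s hs
    obtain ⟨z, hz, e0, e1⟩ := (mem_filter.1 hs).2
    exact mem_image.2 ⟨z, mem_filter.2 ⟨(mem_blocks D).2 hz, e0⟩, e1⟩
  · intro s
    refine le_trans ?_ (hD.1 φ s).2
    rw [Nat.cast_le, Data.cnt]
    refine le_trans (card_le_card ?_) (card_image_le (f := fun z => D.key r z))
    intro κ hκ
    obtain ⟨z, hz, e0, e1⟩ := (mem_filter.1 hκ).2
    exact mem_image.2 ⟨z, mem_filter.2 ⟨(mem_blocks D).2 hz, e1⟩, e0⟩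

/-- the labels of the data -/
def Data.labs {S Q Z : Type} (D : Data S Q Z) : Labs Z S where
  vu z := D.bl z .vu
  va z := D.bl z .va
  vb z := D.bl z .vb
  t1u z := D.bl z .t1u
  t1a z := D.bl z .t1a
  t2u z := D.bl z .t2u
  t2b z := D.bl z .t2b
  wa z := D.bl z .wa
  wb z := D.bl z .wb
  vc z := D.bl z .vc
  vc' z := D.bl z .vc'
  s3c z := D.bl z .s3c
  s3c' z := D.bl z .s3c'
  r3c z := D.bl z .r3c
  r3c' z := D.bl z .r3c'
  vd z := D.bl z .vd
  vd' z := D.bl z .vd'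
  s4d z := D.bl z .s4d
  s4d' z := D.bl z .s4d'
  r4d z := D.bl z .r4d
  r4d' z := D.bl z .r4d'
  w'c' z := D.bl z .w'c'
  w'd' z := D.bl z .w'd'
  t1e z := D.bl z .t1e
  t1e' z := D.bl z .t1e'
  s3e z := D.bl z .s3e
  s3e' z := D.bl z .s3e'
  s4e z := D.bl z .s4e
  s4e' z := D.bl z .s4e'
  t2f z := D.bl z .t2f
  t2f' z := D.bl z .t2f'
  r3f z := D.bl z .r3f
  r3f' z := D.bl z .r3f'
  r4f z := D.bl z .r4f
  r4f' z := D.bl z .r4f'
  z5 z := D.bl z .z5
  z6 z := D.bl z .z6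

/-- **Part C.** -/
theorem stmtC : StmtC.{u} := by
  classical
  obtain ⟨k, ε, hε, hε1, H⟩ := vineq_unif.{u} 1e-12 (by norm_num) (by norm_num)
  refine ⟨k, ε, hε, ?_⟩
  rintro S Q Z _ _ _ D G _ ι s0 s1 ⟨U, hU, hD⟩ hR hinf X _ _ _ _ _ hCN hgeo
  have : Nonempty S := ⟨s0⟩
  obtain ⟨pt, hpt⟩ := exists_cnt hCN
  obtain ⟨x0, x1, hpos, b0, b1⟩ := exists_harmonic hgeo hpt ι hinf
  have hg : ∀ z, ∃ g : Vx → G, D.vb z →
      g .v = 1 ∧ ∀ φ, IsEdge φ → g (od φ) = g (ev φ) * ι (D.bl z φ) := by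
    intro z
    by_cases hz : D.vb z
    · obtain ⟨g, hg⟩ := hR z hz
      exact ⟨g, fun _ => hg⟩
    · exact ⟨1, fun h => absurd h hz⟩
  choose g hg using hg
  have hM : ∀ φ, MCount 1e-12 U D.blocks fun z => D.bl z φ := fun φ =>
    MCount.mono (ε := ε) (fun s => by
      have := hD.1 φ s
      rw [Data.cnt] at this
      convert this) hU.le hε1
  have hV := H S Q Z D U hU hD
  have hE : ∀ φ, IsEdge φ →
      Edge ι D.blocks (fun z => g z (ev φ)) (fun z => g z (od φ)) fun z => D.bl z φ :=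
    fun φ hφ z hz => (hg z ((mem_blocks D).1 hz)).2 φ hφ
  have hE1 : ∀ φ, IsEdge φ → ev φ = .v →
      Edge ι D.blocks 1 (fun z => g z (od φ)) fun z => D.bl z φ := by
    intro φ hφ hv z hz
    have := hE φ hφ z hz
    simp only [hv, (hg z ((mem_blocks D).1 hz)).1] at this
    exact this
  refine c45.{u} hU D.blocks D.labs
    ⟨hM .vu, hM .va, hM .vb, hM .t1u, hM .t1a, hM .t2u, hM .t2b,
      hM .wa, hM .wb, hM .vc, hM .vc', hM .s3c, hM .s3c', hM .r3c,
      hM .r3c', hM .vd, hM .vd', hM .s4d, hM .s4d', hM .r4d, hM .r4d',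
      hM .w'c', hM .w'd', hM .t1e, hM .t1e', hM .s3e, hM .s3e', hM .s4e,
      hM .s4e', hM .t2f, hM .t2f', hM .r3f, hM .r3f', hM .r4f, hM .r4f'⟩
    ⟨hV .q2 .va (by decide) .vu (by decide) .vb (by decide),
      hV .q2 .t1u (by decide) .vu (by decide) .vb (by decide),
      hV .q1 .vb (by decide) .vu (by decide) .va (by decide),
      hV .q1 .t2u (by decide) .vu (by decide) .va (by decide),
      hV .q1 .wa (by decide) .vu (by decide) .va (by decide),
      hV .q3 .w'c' (by decide) .vc' (by decide) .vc (by decide),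
      hV .q3 .vd' (by decide) .vc' (by decide) .vc (by decide),
      hV .q3 .vu (by decide) .vc' (by decide) .vc (by decide),
      hV .cc' .vc (by decide) .vc' (by decide) .vd' (by decide),
      hV .cc' .vd (by decide) .vc' (by decide) .vd' (by decide),
      hV .cc' .s3c' (by decide) .vc' (by decide) .vd' (by decide),
      hV .cc' .r3c' (by decide) .vc' (by decide) .vd' (by decide),
      hV .cc' .s4d' (by decide) .vc' (by decide) .vd' (by decide),
      hV .cc' .r4d' (by decide) .vc' (by decide) .vd' (by decide),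
      hV .q4 .vc' (by decide) .vd' (by decide) .vd (by decide),
      hV .d5 .t1e' (by decide) .t1e (by decide) .z5 (by decide),
      hV .d6 .t2f' (by decide) .t2f (by decide) .z6 (by decide)⟩
    ι ⟨(g · .t1), (g · .t2), (g · .w), (g · .s3), (g · .r3), (g · .s4), (g · .r4),
      (g · .w'), (g · .u), (g · .a), (g · .b), (g · .c), (g · .c'), (g · .d),
      (g · .d'), (g · .e), (g · .e'), (g · .f), (g · .f')⟩
    ⟨hE1 .vu (by decide) rfl, hE1 .va (by decide) rfl, hE1 .vb (by decide) rfl,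
      hE .t1u (by decide), hE .t1a (by decide), hE .t2u (by decide),
      hE .t2b (by decide), hE .wa (by decide), hE .wb (by decide),
      hE1 .vc (by decide) rfl, hE1 .vc' (by decide) rfl, hE .s3c (by decide),
      hE .s3c' (by decide), hE .r3c (by decide), hE .r3c' (by decide),
      hE1 .vd (by decide) rfl, hE1 .vd' (by decide) rfl, hE .s4d (by decide),
      hE .s4d' (by decide), hE .r4d (by decide), hE .r4d' (by decide),
      hE .w'c' (by decide), hE .w'd' (by decide), hE .t1e (by decide),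
      hE .t1e' (by decide), hE .s3e (by decide), hE .s3e' (by decide),
      hE .s4e (by decide), hE .s4e' (by decide), hE .t2f (by decide),
      hE .t2f' (by decide), hE .r3f (by decide), hE .r3f' (by decide),
      hE .r4f (by decide), hE .r4f' (by decide)⟩
    x0 x1 pt ⟨hpt, fun z => ?_, fun z => ?_, hpos⟩
  · have := b0 z
    have h2 : (0 : ℝ) ≤ Fintype.card S * dist z x0 ^ 2 := by positivity
    linarith
  · have := b1 z
    have h2 : (0 : ℝ) ≤ Fintype.card S * dist z x1 ^ 2 := by positivity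
    simp only [dist_inv_smul] at this
    linarith

end Vale.Agent.P172V
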