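import Vale.Agent.P172.Defs

/-!
# P172V, part C0: the inequality (CN_t) in a CAT(0) space
-/

namespace Vale.Agent.P172V

open Vale.Agent.P172

/-- `pt x y t` is a point at fraction `t` from `x` to `y` satisfying the inequality (CN_t). -/
def IsCNt {X : Type*} [PseudoMetricSpace X] (pt : X → X → ℝ → X) : Prop :=
  ∀ (x y z : X) (t : ℝ), 0 ≤ t → t ≤ 1 →
    dist z (pt x y t) ^ 2 ≤ (1 - t) * dist z x ^ 2 + t * dist z y ^ 2 - t * (1 - t) * dist x y ^ 2

theorem dist_lineMap_sq' (x y z : EuclideanSpace ℝ (Fin 2)) (s : ℝ) :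
    dist (AffineMap.lineMap x y s) z ^ 2 =
      (1 - s) * dist x z ^ 2 + s * dist y z ^ 2 - s * (1 - s) * dist x y ^ 2 := by
  have e1 : AffineMap.lineMap x y s - z = (1 - s) • (x - z) + s • (y - z) := by
    rw [AffineMap.lineMap_apply_module]
    module
  have e2 : x - y = (x - z) - (y - z) := by abel
  rw [dist_eq_norm, dist_eq_norm, dist_eq_norm, dist_eq_norm, e1, e2]
  generalize x - z = u
  generalize y - z = v
  rw [norm_add_sq_real, norm_sub_sq_real, norm_smul, norm_smul, inner_smul_left, inner_smul_right,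
    mul_pow, mul_pow, Real.norm_eq_abs, Real.norm_eq_abs, sq_abs, sq_abs]
  simp only [conj_trivial]
  ring

theorem dist_two (p q r s : ℝ) :
    dist (!₂[p, q] : EuclideanSpace ℝ (Fin 2)) !₂[r, s] = √((p - r) ^ 2 + (q - s) ^ 2) := by
  rw [EuclideanSpace.dist_eq]
  simp [Fin.sum_univ_two, Real.dist_eq, sq_abs]

/-- existence of comparison triangles in the Euclidean plane -/
theorem exists_comparison {a b c : ℝ} (ha : 0 ≤ a) (hb : 0 ≤ b) (hc : 0 ≤ c)
    (h1 : a ≤ b + c) (h2 : b ≤ a + c) (h3 : c ≤ a + b) :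
    ∃ x' y' z' : EuclideanSpace ℝ (Fin 2), dist x' y' = a ∧ dist x' z' = b ∧ dist y' z' = c := by
  rcases ha.eq_or_lt with rfl | ha'
  · have hbc : b = c := by linarith
    refine ⟨!₂[0, 0], !₂[0, 0], !₂[b, 0], by simp, ?_, ?_⟩
    · rw [dist_two]; simp [Real.sqrt_sq hb]
    · rw [dist_two, ← hbc]; simp [Real.sqrt_sq hb]
  · set p := (a ^ 2 + b ^ 2 - c ^ 2) / (2 * a) with hp
    have hpa : 2 * a * p = a ^ 2 + b ^ 2 - c ^ 2 := by rw [hp]; field_simp
    have hq : 0 ≤ b ^ 2 - p ^ 2 := by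
      have e : 4 * a ^ 2 * (b ^ 2 - p ^ 2) = (a + b + c) * (a + b - c) * (b + c - a) * (a + c - b) := by
        have : 4 * a ^ 2 * (b ^ 2 - p ^ 2) = 4 * a ^ 2 * b ^ 2 - (2 * a * p) ^ 2 := by ring
        rw [this, hpa]; ring
      have e2 : 0 ≤ 4 * a ^ 2 * (b ^ 2 - p ^ 2) := by
        rw [e]
        have := mul_nonneg (mul_nonneg (mul_nonneg (show 0 ≤ a + b + c by linarith)
          (show 0 ≤ a + b - c by linarith)) (show 0 ≤ b + c - a by linarith))
          (show 0 ≤ a + c - b by linarith)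
        exact this
      by_contra hneg
      rw [not_le] at hneg
      have : 4 * a ^ 2 * (b ^ 2 - p ^ 2) < 0 := mul_neg_of_pos_of_neg (by positivity) hneg
      linarith
    have hs : √(b ^ 2 - p ^ 2) ^ 2 = b ^ 2 - p ^ 2 := Real.sq_sqrt hq
    refine ⟨!₂[0, 0], !₂[a, 0], !₂[p, √(b ^ 2 - p ^ 2)], ?_, ?_, ?_⟩
    · rw [dist_two]; simp [Real.sqrt_sq ha]
    · rw [dist_two]
      have : (0 - p) ^ 2 + (0 - √(b ^ 2 - p ^ 2)) ^ 2 = b ^ 2 := by nlinarith
      rw [this, Real.sqrt_sq hb]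
    · rw [dist_two]
      have : (a - p) ^ 2 + (0 - √(b ^ 2 - p ^ 2)) ^ 2 = c ^ 2 := by nlinarith
      rw [this, Real.sqrt_sq hc]

/-- **(CN_t)** in a CAT(0) space. -/
theorem exists_cnt {X : Type*} [MetricSpace X] (h : IsCAT0 X) :
    ∃ pt : X → X → ℝ → X, IsCNt pt := by
  choose γ hγ using h.geod
  refine ⟨fun x y t => γ x y (t * dist x y), fun x y z t ht0 ht1 => ?_⟩
  obtain ⟨x', y', z', e1, e2, e3⟩ := exists_comparison (a := dist x y) (b := dist x z)
    (c := dist y z) dist_nonneg dist_nonneg dist_nonneg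
    (by rw [dist_comm y z]; exact dist_triangle x z y) (dist_triangle x y z)
    (by rw [dist_comm x y]; exact dist_triangle y x z)
  have hc := h.comp x y z (γ x y) (γ x z) (hγ x y) (hγ x z) x' y' z' e1 e2 e3 t ⟨ht0, ht1⟩ 1
    ⟨zero_le_one, le_rfl⟩
  rw [one_mul, (hγ x z).2.1, AffineMap.lineMap_apply_one] at hc
  have h2 := dist_lineMap_sq' x' y' z' t
  rw [e1, e2, e3] at h2
  rw [dist_comm z, dist_comm z x, dist_comm z y, ← h2]
  exact pow_le_pow_left₀ dist_nonneg hc 2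

end Vale.Agent.P172V
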