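import Mathlib
import Vale.Agent.P172V.VK.Defs

/-!
# P172V: the block, the data, the group (helper79).  See notes/P172/PROOF.md.
-/

namespace Vale.Agent.P172V

open Finset

/-- vertices of the block (`z` is a dummy vertex) -/
inductive Vx
  | v | t1 | t2 | w | s3 | r3 | s4 | r4 | w' | u | a | b | c | c' | d | d' | e | e' | f | f' | z
  deriving DecidableEq

/-- flags: 35 edges of the block and two dummy flags `z5`, `z6` -/
inductive Fl
  | vu | va | t1u | t1a | vb | t2u | t2b | wa | wb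
  | vc' | vc | s3c' | s3c | r3c' | r3c | vd' | vd | s4d' | s4d | r4d' | r4d | w'c' | w'd'
  | t1e | t1e' | s3e | s3e' | s4e | s4e' | t2f | t2f' | r3f | r3f' | r4f | r4f' | z5 | z6
  deriving DecidableEq

/-- roles -/
inductive Ro
  | q1 | q2 | cc | q3 | q4 | cc' | q5 | q6 | d5 | d6
  deriving DecidableEq

instance : Fintype Vx :=
  ⟨⟨([.v, .t1, .t2, .w, .s3, .r3, .s4, .r4, .w', .u, .a, .b, .c, .c', .d, .d', .e, .e', .f, .f',
    .z] : List Vx), by decide⟩, by intro x; cases x <;> decide⟩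

instance : Fintype Fl :=
  ⟨⟨([.vu, .va, .t1u, .t1a, .vb, .t2u, .t2b, .wa, .wb,
    .vc', .vc, .s3c', .s3c, .r3c', .r3c, .vd', .vd, .s4d', .s4d, .r4d', .r4d, .w'c', .w'd',
    .t1e, .t1e', .s3e, .s3e', .s4e, .s4e', .t2f, .t2f', .r3f, .r3f', .r4f, .r4f', .z5, .z6] :
    List Fl), by decide⟩, by intro x; cases x <;> decide⟩

instance : Fintype Ro :=
  ⟨⟨([.q1, .q2, .cc, .q3, .q4, .cc', .q5, .q6, .d5, .d6] : List Ro), by decide⟩,
    by intro x; cases x <;> decide⟩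

/-- even end of a flag -/
def ev : Fl → Vx
  | .vu => .v | .va => .v | .t1u => .t1 | .t1a => .t1 | .vb => .v | .t2u => .t2 | .t2b => .t2
  | .wa => .w | .wb => .w
  | .vc' => .v | .vc => .v | .s3c' => .s3 | .s3c => .s3 | .r3c' => .r3 | .r3c => .r3
  | .vd' => .v | .vd => .v | .s4d' => .s4 | .s4d => .s4 | .r4d' => .r4 | .r4d => .r4
  | .w'c' => .w' | .w'd' => .w'
  | .t1e => .t1 | .t1e' => .t1 | .s3e => .s3 | .s3e' => .s3 | .s4e => .s4 | .s4e' => .s4
  | .t2f => .t2 | .t2f' => .t2 | .r3f => .r3 | .r3f' => .r3 | .r4f => .r4 | .r4f' => .r4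
  | .z5 => .z | .z6 => .z

/-- odd end of a flag -/
def od : Fl → Vx
  | .vu => .u | .va => .a | .t1u => .u | .t1a => .a | .vb => .b | .t2u => .u | .t2b => .b
  | .wa => .a | .wb => .b
  | .vc' => .c' | .vc => .c | .s3c' => .c' | .s3c => .c | .r3c' => .c' | .r3c => .c
  | .vd' => .d' | .vd => .d | .s4d' => .d' | .s4d => .d | .r4d' => .d' | .r4d => .d
  | .w'c' => .c' | .w'd' => .d'
  | .t1e => .e | .t1e' => .e' | .s3e => .e | .s3e' => .e' | .s4e => .e | .s4e' => .e'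
  | .t2f => .f | .t2f' => .f' | .r3f => .f | .r3f' => .f' | .r4f => .f | .r4f' => .f'
  | .z5 => .z | .z6 => .z

/-- the slots of a role -/
def slots : Ro → Finset Fl
  | .q1 => {.vu, .va, .t1u, .t1a}
  | .q2 => {.vu, .vb, .t2u, .t2b}
  | .cc => {.va, .vb, .wa, .wb}
  | .q3 => {.vc', .vc, .s3c', .s3c, .r3c', .r3c}
  | .q4 => {.vd', .vd, .s4d', .s4d, .r4d', .r4d}
  | .cc' => {.vc', .vd', .w'c', .w'd'}
  | .q5 => {.t1e, .t1e', .s3e, .s3e', .s4e, .s4e'}
  | .q6 => {.t2f, .t2f', .r3f, .r3f', .r4f, .r4f'}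
  | .d5 => {.t1e, .z5}
  | .d6 => {.t2f, .z6}

/-- number of non-key slots -/
def cst : Ro → ℕ
  | .q1 => 2 | .q2 => 2 | .cc => 2 | .q3 => 4 | .q4 => 4 | .cc' => 2 | .q5 => 4 | .q6 => 4
  | .d5 => 0 | .d6 => 0

/-- the graph `Gamma0` -/
def gam0 : Finset Fl :=
  {.vu, .t1u, .t2u, .vc, .s3c, .r3c, .vd, .s4d, .r4d, .t1e, .s3e, .s4e, .t2f, .r3f, .r4f}

/-- a real flag (an edge of the block) -/
def IsEdge (φ : Fl) : Prop := φ ≠ .z5 ∧ φ ≠ .z6

instance : DecidablePred IsEdge := fun φ => inferInstanceAs (Decidable (φ ≠ .z5 ∧ φ ≠ .z6))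

/-- the 17 V-types (context role, tail flag) -/
def vtypes : Finset (Ro × Fl) :=
  {(.q2, .va), (.q2, .t1u), (.q1, .vb), (.q1, .t2u), (.q1, .wa), (.q3, .w'c'), (.q3, .vd'),
    (.q3, .vu), (.cc', .vc), (.cc', .vd), (.cc', .s3c'), (.cc', .r3c'), (.cc', .s4d'),
    (.cc', .r4d'), (.q4, .vc'), (.d5, .t1e'), (.d6, .t2f')}

/-- positions (edges of the graph) of an object of a given kind: `none` is a block -/
def pos : Option Ro → Finset Fl
  | none => gam0
  | some .d5 => ∅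
  | some .d6 => ∅
  | some r => slots r

/-- labelled quads and blocks over the alphabet `S`; `Q` = keys, `Z` = seeds -/
structure Data (S Q Z : Type) where
  ql : Ro → Q → Fl → S
  key : Ro → Z → Q
  bl : Z → Fl → S
  hbl : ∀ r z φ, φ ∈ slots r → bl z φ = ql r (key r z) φ
  vq : Ro → Q → Prop
  vb : Z → Prop
  hv : ∀ z r, vb z → vq r (key r z)

/-- objects: quads and blocks -/
abbrev Obj (Q Z : Type) := (Ro × Q) ⊕ Z

/-- kind of an object -/
def kind {Q Z : Type} : Obj Q Z → Option Ro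
  | .inl q => some q.1
  | .inr _ => none

/-- half of the girth of the graph of an object -/
def gl {Q Z : Type} : Obj Q Z → ℕ
  | .inl _ => 2
  | .inr _ => 3

namespace Data

variable {S Q Z : Type} (D : Data S Q Z)

/-- labels of an object -/
def lab : Obj Q Z → Fl → S
  | .inl q => D.ql q.1 q.2
  | .inr z => D.bl z

/-- valid objects -/
def Val : Obj Q Z → Prop
  | .inl q => D.vq q.1 q.2
  | .inr z => D.vb z

/-- the graph system of the valid objects -/
def gs : VK.GS S where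
  O := {o : Obj Q Z // D.Val o}
  P := Fl
  Vx := Vx
  src := ev
  tgt := od
  ok := fun o p => p ∈ pos (kind o.1)
  lab := fun o p => D.lab o.1 p

/-- the group -/
abbrev Grp : Type := D.gs.Gp

/-- labels of a set of quads -/
def labels [DecidableEq S] (QQ : Finset (Ro × Q)) : Finset S :=
  QQ.biUnion (fun q => (slots q.1).image (D.ql q.1 q.2))

/-- (S1) sparsity of closed valid collections of size at most `K` -/
def Sparse [DecidableEq S] (s0 s1 : S) (n K : ℕ) : Prop :=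
  ∀ (QQ : Finset (Ro × Q)) (BB : Finset Z), (∀ q ∈ QQ, D.vq q.1 q.2) → (∀ z ∈ BB, D.vb z) →
    (∀ z ∈ BB, ∀ r, (r, D.key r z) ∈ QQ) → QQ.card + BB.card ≤ K →
    2 * n * (∑ q ∈ QQ, cst q.1 + 10 * BB.card) + (QQ.card + BB.card) ≤
      2 * n * (D.labels QQ \ {s0, s1}).card

open Classical in
/-- valid blocks -/
noncomputable def blocks [Fintype Z] : Finset Z := univ.filter D.vb

open Classical in
/-- valid blocks with label `s` at the flag `φ` -/
noncomputable def cnt [Fintype Z] (φ : Fl) (s : S) : ℕ := (D.blocks.filter (fun z => D.bl z φ = s)).card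

open Classical in
/-- valid blocks with key `κ` in the role `r` -/
noncomputable def fib [Fintype Z] (r : Ro) (κ : Q) : ℕ := (D.blocks.filter (fun z => D.key r z = κ)).card

/-- there is a valid block with key `κ` in the role `r` and label `s` at `φ` -/
def Has (r : Ro) (φ : Fl) (κ : Q) (s : S) : Prop := ∃ z, D.vb z ∧ D.key r z = κ ∧ D.bl z φ = s

/-- (S2) near-uniformity with unit `U`: marginals of labels, and `(k+1)`-tuples of tails in the
V-types (`U = N^2 p^11`, `q = p^10`) -/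
def UnifU [Fintype S] [Fintype Z] (k : ℕ) (ε U : ℝ) : Prop :=
  (∀ φ s, (1 - ε) * U ≤ D.cnt φ s ∧ (D.cnt φ s : ℝ) ≤ (1 + ε) * U) ∧
  ∃ q : ℝ, 0 < q ∧ ∀ p ∈ vtypes, Function.Injective (fun z => (D.key p.1 z, D.bl z p.2)) ∧
    (∀ τ : Fin (k + 1) → S, (1 - ε) * (U * q ^ k) ≤ {κ | ∀ i, D.Has p.1 p.2 κ (τ i)}.ncard) ∧
    ∃ bad : Finset Q, (bad.card : ℝ) ≤ ε * (U * q ^ k) ∧
      ∀ κ, κ ∉ bad → (D.fib p.1 κ : ℝ) ≤ (1 + ε) * (Fintype.card S * q)

/-- (S2) -/
def Unif [Fintype S] [Fintype Z] (k : ℕ) (ε : ℝ) : Prop := ∃ U : ℝ, 0 < U ∧ D.UnifU k ε U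

/-- every valid block is mapped to the Cayley graph of `ι : S → G` -/
def Realized {G : Type} [Group G] (ι : S → G) : Prop :=
  ∀ z, D.vb z → ∃ g : Vx → G, g .v = 1 ∧ ∀ φ, IsEdge φ → g (od φ) = g (ev φ) * ι (D.bl z φ)

end Data

end Vale.Agent.P172V
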