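import Mathlib

/-!
# P172V, part C5: the 20-point configuration is impossible in a space with (CN) midpoints
-/

namespace Vale.Agent.P172V

/-- a symmetric distance `d` with the triangle inequality and midpoints satisfying (CN) -/
structure CNd {Y : Type*} (d : Y → Y → ℝ) (mid : Y → Y → Y) : Prop where
  nonneg : ∀ x y, 0 ≤ d x y
  self : ∀ x, d x x = 0
  symm : ∀ x y, d x y = d y x
  tri : ∀ x y z, d x z ≤ d x y + d y z
  cn : ∀ x y z, d z (mid x y) ^ 2 ≤ d z x ^ 2 / 2 + d z y ^ 2 / 2 - d x y ^ 2 / 4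

namespace CNd

variable {Y : Type*} {d : Y → Y → ℝ} {mid : Y → Y → Y}

theorem tri_sq (h : CNd d mid) (x y z : Y) : d x z ^ 2 ≤ 2 * d x y ^ 2 + 2 * d y z ^ 2 := by
  have h1 := h.tri x y z
  have h2 := h.nonneg x z
  have h3 : d x z ^ 2 ≤ (d x y + d y z) ^ 2 := pow_le_pow_left₀ h2 h1 2
  nlinarith [sq_nonneg (d x y - d y z)]

/-- the quadrilateral inequality -/
theorem quad (h : CNd d mid) (x y z w : Y) :
    d x z ^ 2 + d y w ^ 2 ≤ d x y ^ 2 + d y z ^ 2 + d z w ^ 2 + d w x ^ 2 := by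
  have h1 := h.cn x z y
  have h2 := h.cn x z w
  have h3 := h.tri_sq y (mid x z) w
  rw [h.symm (mid x z) w] at h3
  rw [h.symm y x] at h1
  rw [h.symm w z] at h2
  linarith

theorem mid_left (h : CNd d mid) (x y : Y) : d x (mid x y) ^ 2 ≤ d x y ^ 2 / 4 := by
  have h1 := h.cn x y x
  rw [h.self x] at h1
  linarith

theorem mid_right (h : CNd d mid) (x y : Y) : d y (mid x y) ^ 2 ≤ d x y ^ 2 / 4 := by
  have h1 := h.cn x y y
  rw [h.self y, h.symm y x] at h1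
  linarith

/-- convexity of the distance -/
theorem conv (h : CNd d mid) (v x y : Y) : d (mid v x) (mid v y) ^ 2 ≤ d x y ^ 2 / 4 := by
  have h1 := h.cn v x (mid v y)
  have h2 := h.cn v y x
  have h3 := h.mid_left v y
  rw [h.symm (mid v y) (mid v x), h.symm (mid v y) v, h.symm (mid v y) x] at h1
  rw [h.symm x v] at h2
  linarith

theorem le_of_sq (_h : CNd d mid) {x y : Y} {c : ℝ} (hc : 0 ≤ c) (hs : d x y ^ 2 ≤ c ^ 2) :
    d x y ≤ c := (abs_le_of_sq_le_sq' hs hc).2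

theorem sq_le_of (h : CNd d mid) {x y : Y} {c : ℝ} (hs : d x y ≤ c) : d x y ^ 2 ≤ c ^ 2 :=
  pow_le_pow_left₀ (h.nonneg x y) hs 2

/-- In an almost flat square `v, o, t, o'` the centre `mid o o'` is close to `mid v t`; if `t` is
close to `B` then it is within about `√(1/8)` of `mid v B`. -/
theorem centre (h : CNd d mid) {δ : ℝ} (hδ : δ ≤ 1e-12) {v t o o' B : Y}
    (e1 : d v o ^ 2 ≤ 1 + δ) (e2 : d v o' ^ 2 ≤ 1 + δ) (e3 : d t o ^ 2 ≤ 1 + δ)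
    (e4 : d t o' ^ 2 ≤ 1 + δ) (g1 : 2 - 3 * δ ≤ d o o' ^ 2) (g2 : 2 - 3 * δ ≤ d v t ^ 2)
    (hB : d t B ^ 2 ≤ 1 / 2 + 2 * δ) : d (mid o o') (mid v B) ≤ 0.353556 := by
  have h1 := h.cn o o' v
  have h2 := h.cn o o' t
  have h3 := h.cn v t (mid o o')
  rw [h.symm (mid o o') v, h.symm (mid o o') t] at h3
  have h4 : d (mid o o') (mid v t) ≤ 2e-6 := h.le_of_sq (by norm_num) (by nlinarith)
  have h5 := h.conv v t B
  have h6 : d (mid v t) (mid v B) ≤ 0.353554 := h.le_of_sq (by norm_num) (by nlinarith)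
  have h7 := h.tri (mid o o') (mid v t) (mid v B)
  linarith

/-- the centre of an almost flat square is at distance about `√(1/2)` from its corners -/
theorem centre_ge (h : CNd d mid) {δ : ℝ} {v t o o' : Y}
    (e3 : d t o ^ 2 ≤ 1 + δ) (e4 : d t o' ^ 2 ≤ 1 + δ) (g1 : 2 - 3 * δ ≤ d o o' ^ 2)
    (g2 : 2 - 3 * δ ≤ d v t ^ 2) : 1 / 2 - 13 / 4 * δ ≤ d v (mid o o') ^ 2 := by
  have h2 := h.cn o o' t
  have h3 := h.tri_sq v (mid o o') t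
  rw [h.symm (mid o o') t] at h3
  linarith

/-- two centres `m = mid p a`, `m' = mid p' b` are about `√(1/2)` apart -/
theorem apart (h : CNd d mid) {δ : ℝ} {p a p' b : Y} (h1 : d p a ^ 2 ≤ 2 + 7 * δ)
    (h2 : d p' b ^ 2 ≤ 2 + 7 * δ) (h3 : d a b ^ 2 ≤ 2 + 7 * δ)
    (h4 : 3 / 2 - 7 * δ ≤ d (mid p' b) a ^ 2) (h5 : 3 / 2 - 7 * δ ≤ d (mid p a) b ^ 2) :
    1 / 2 - 21 / 2 * δ ≤ d (mid p a) (mid p' b) ^ 2 := by
  have q1 := h.quad a (mid p a) (mid p' b) (mid a b)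
  have q2 := h.quad b (mid p' b) (mid p a) (mid a b)
  have r1 := h.mid_right p a
  have r2 := h.mid_right p' b
  have r3 := h.mid_left a b
  have r4 := h.mid_right a b
  rw [h.symm a (mid p' b), h.symm (mid a b) a] at q1
  rw [h.symm b (mid p a), h.symm (mid a b) b, h.symm (mid p' b) (mid p a)] at q2
  linarith

theorem aux {δ x y : ℝ} (hδ0 : 0 ≤ δ) (hδ : δ ≤ 1e-12) (h1 : 1 / 2 - 13 / 4 * δ ≤ x)
    (h2 : (1 - δ) * x + 1 - δ ≤ y) : 3 / 2 - 7 * δ ≤ y := by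
  have := mul_le_mul_of_nonneg_left h1 (show 0 ≤ 1 - δ by linarith)
  nlinarith [sq_nonneg δ]

end CNd

open CNd in
/-- **C5.** Edges are written `d even odd`. -/
theorem fin20 {Y : Type*} {d : Y → Y → ℝ} {mid : Y → Y → Y} (h : CNd d mid) {δ : ℝ}
    (hδ0 : 0 ≤ δ) (hδ : δ ≤ 1e-12)
    (v t1 t2 w s3 r3 s4 r4 w' u a b c c' dd d' e e' f f' : Y)
    (vu : d v u ^ 2 ≤ 1 + δ) (va : d v a ^ 2 ≤ 1 + δ) (vb : d v b ^ 2 ≤ 1 + δ)
    (t1u : d t1 u ^ 2 ≤ 1 + δ) (t1a : d t1 a ^ 2 ≤ 1 + δ)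
    (t2u : d t2 u ^ 2 ≤ 1 + δ) (t2b : d t2 b ^ 2 ≤ 1 + δ)
    (wa : d w a ^ 2 ≤ 1 + δ) (wb : d w b ^ 2 ≤ 1 + δ)
    (vc : d v c ^ 2 ≤ 1 + δ) (vc' : d v c' ^ 2 ≤ 1 + δ)
    (s3c : d s3 c ^ 2 ≤ 1 + δ) (s3c' : d s3 c' ^ 2 ≤ 1 + δ)
    (r3c : d r3 c ^ 2 ≤ 1 + δ) (r3c' : d r3 c' ^ 2 ≤ 1 + δ)
    (vd : d v dd ^ 2 ≤ 1 + δ) (vd' : d v d' ^ 2 ≤ 1 + δ)
    (s4d : d s4 dd ^ 2 ≤ 1 + δ) (s4d' : d s4 d' ^ 2 ≤ 1 + δ)
    (r4d : d r4 dd ^ 2 ≤ 1 + δ) (r4d' : d r4 d' ^ 2 ≤ 1 + δ)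
    (w'c' : d w' c' ^ 2 ≤ 1 + δ) (w'd' : d w' d' ^ 2 ≤ 1 + δ)
    (t1e : d t1 e ^ 2 ≤ 1 + δ) (t1e' : d t1 e' ^ 2 ≤ 1 + δ)
    (s3e : d s3 e ^ 2 ≤ 1 + δ) (s3e' : d s3 e' ^ 2 ≤ 1 + δ)
    (s4e : d s4 e ^ 2 ≤ 1 + δ) (s4e' : d s4 e' ^ 2 ≤ 1 + δ)
    (t2f : d t2 f ^ 2 ≤ 1 + δ) (t2f' : d t2 f' ^ 2 ≤ 1 + δ)
    (r3f : d r3 f ^ 2 ≤ 1 + δ) (r3f' : d r3 f' ^ 2 ≤ 1 + δ)
    (r4f : d r4 f ^ 2 ≤ 1 + δ) (r4f' : d r4 f' ^ 2 ≤ 1 + δ)
    (ua : 2 - 3 * δ ≤ d u a ^ 2) (vt1 : 2 - 3 * δ ≤ d v t1 ^ 2)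
    (ub : 2 - 3 * δ ≤ d u b ^ 2) (vt2 : 2 - 3 * δ ≤ d v t2 ^ 2)
    (vw : 2 - 3 * δ ≤ d v w ^ 2) (vw' : 2 - 3 * δ ≤ d v w' ^ 2)
    (cc' : 2 - 3 * δ ≤ d c c' ^ 2) (vs3 : 2 - 3 * δ ≤ d v s3 ^ 2) (vr3 : 2 - 3 * δ ≤ d v r3 ^ 2)
    (dd' : 2 - 3 * δ ≤ d dd d' ^ 2) (vs4 : 2 - 3 * δ ≤ d v s4 ^ 2) (vr4 : 2 - 3 * δ ≤ d v r4 ^ 2)
    (ee' : 2 - 3 * δ ≤ d e e' ^ 2) (ff' : 2 - 3 * δ ≤ d f f' ^ 2)
    (m1b : (1 - δ) * d (mid u a) v ^ 2 + 1 - δ ≤ d (mid u a) b ^ 2)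
    (m2a : (1 - δ) * d (mid u b) v ^ 2 + 1 - δ ≤ d (mid u b) a ^ 2)
    (m3d : (1 - δ) * d (mid c c') v ^ 2 + 1 - δ ≤ d (mid c c') d' ^ 2)
    (m4c : (1 - δ) * d (mid dd d') v ^ 2 + 1 - δ ≤ d (mid dd d') c' ^ 2)
    (m3u : (1 - δ) * d (mid c c') v ^ 2 + 1 - δ ≤ d (mid c c') u ^ 2) : False := by
  -- the centres of `Q5`, `Q6`
  have B1 := h.cn e e' t1
  have B3 := h.cn e e' s3
  have B4 := h.cn e e' s4
  have B2' := h.cn f f' t2
  have B3' := h.cn f f' r3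
  have B4' := h.cn f f' r4
  have c1 := h.centre hδ (B := mid e e') vu va t1u t1a ua vt1
    (by linarith only [B1, t1e, t1e', ee', hδ0])
  have c3 := h.centre hδ (B := mid e e') vc vc' s3c s3c' cc' vs3
    (by linarith only [B3, s3e, s3e', ee', hδ0])
  have c4 := h.centre hδ (B := mid e e') vd vd' s4d s4d' dd' vs4
    (by linarith only [B4, s4e, s4e', ee', hδ0])
  have c2' := h.centre hδ (B := mid f f') vu vb t2u t2b ub vt2
    (by linarith only [B2', t2f, t2f', ff', hδ0])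
  have c3' := h.centre hδ (B := mid f f') vc vc' r3c r3c' cc' vr3
    (by linarith only [B3', r3f, r3f', ff', hδ0])
  have c4' := h.centre hδ (B := mid f f') vd vd' r4d r4d' dd' vr4
    (by linarith only [B4', r4f, r4f', ff', hδ0])
  -- lower bounds for the distances of the centres to `v`
  have l1 := h.centre_ge t1u t1a ua vt1
  have l2 := h.centre_ge t2u t2b ub vt2
  have l3 := h.centre_ge s3c s3c' cc' vs3
  have l4 := h.centre_ge s4d s4d' dd' vs4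
  rw [h.symm v] at l1 l2 l3 l4
  have k1 := aux hδ0 hδ l1 m1b
  have k2 := aux hδ0 hδ l2 m2a
  have k3 := aux hδ0 hδ l3 m3d
  have k4 := aux hδ0 hδ l4 m4c
  have k5 := aux hδ0 hδ l3 m3u
  -- upper bounds for the odd diagonals
  have q1 := h.quad u v a t1
  have q2 := h.quad u v b t2
  have qC := h.quad a v b w
  have q3 := h.quad c v c' s3
  have q4 := h.quad dd v d' s4
  have qC' := h.quad c' v d' w'
  rw [h.symm u v, h.symm a t1] at q1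
  rw [h.symm u v, h.symm b t2] at q2
  rw [h.symm a v, h.symm b w] at qC
  rw [h.symm c v, h.symm c' s3] at q3
  rw [h.symm dd v, h.symm d' s4] at q4
  rw [h.symm c' v, h.symm d' w'] at qC'
  have ua' : d u a ^ 2 ≤ 2 + 7 * δ := by linarith only [q1, vu, va, t1u, t1a, vt1]
  have ub' : d u b ^ 2 ≤ 2 + 7 * δ := by linarith only [q2, vu, vb, t2u, t2b, vt2]
  have a12 := h.apart (δ := δ) (p := u) (a := a) (p' := u) (b := b) ua' ub'
    (by linarith only [qC, va, vb, wa, wb, vw]) k2 k1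
  have a34 := h.apart (δ := δ) (p := c) (a := c') (p' := dd) (b := d')
    (by linarith only [q3, vc, vc', s3c, s3c', vs3]) (by linarith only [q4, vd, vd', s4d, s4d', vs4])
    (by linarith only [qC', vc', vd', w'c', w'd', vw']) k4 k3
  set m1 := mid u a
  set m2 := mid u b
  set m3 := mid c c'
  set m4 := mid dd d'
  set M := mid v (mid e e')
  set M' := mid v (mid f f')
  have s1 := h.sq_le_of c1
  have s3 := h.sq_le_of c3
  have s4 := h.sq_le_of c4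
  have s3' := h.sq_le_of c3'
  have s4' := h.sq_le_of c4'
  have n1 := h.cn m3 m4 M
  have n2 := h.cn m3 m4 M'
  rw [h.symm M m3, h.symm M m4] at n1
  rw [h.symm M' m3, h.symm M' m4] at n2
  have n3 : d M (mid m3 m4) ≤ 0.0015 :=
    h.le_of_sq (by norm_num) (by linarith only [n1, s3, s4, a34, hδ])
  have n4 : d M' (mid m3 m4) ≤ 0.0015 :=
    h.le_of_sq (by norm_num) (by linarith only [n2, s3', s4', a34, hδ])
  have n5 : d m2 M ≤ 0.356556 := by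
    have t1 := h.tri m2 M' M
    have t2 := h.tri M' (mid m3 m4) M
    rw [h.symm (mid m3 m4) M] at t2
    linarith only [t1, t2, c2', n3, n4]
  have s2 := h.sq_le_of n5
  have n6 := h.cn m1 m2 M
  rw [h.symm M m1, h.symm M m2] at n6
  have n7 : d M (mid m1 m2) ≤ 0.04 :=
    h.le_of_sq (by norm_num) (by linarith only [n6, s1, s2, a12, hδ])
  have n8 := h.cn m1 m2 u
  have r1 := h.mid_left u a
  have r2 := h.mid_left u b
  have n9 : d u (mid m1 m2) ≤ 0.62 :=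
    h.le_of_sq (by norm_num) (by linarith only [n8, r1, r2, ua', ub', a12, hδ])
  have n10 : d m3 u ≤ 1.02 := by
    have t1 := h.tri m3 M u
    have t2 := h.tri M (mid m1 m2) u
    rw [h.symm (mid m1 m2) u] at t2
    linarith only [t1, t2, c3, n7, n9]
  have n11 := h.sq_le_of n10
  linarith only [n11, k5, hδ]

end Vale.Agent.P172V
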