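import Vale.Agent.P172V.GD

/-!
# P172V: from reduced diagrams to B1 + B3
-/

namespace Vale.Agent.P172V

open Finset Vale.Agent.P201.S VK

/-- a reduced diagram over the graph system `Γ`: every face is a cycle of an object -/
structure RD {A : Type} (Γ : GS A) (K : PC A) where
  ob : K.F → Γ.O
  ps : K.F → K.E × Bool → Γ.P
  ok : ∀ f, ∀ d ∈ K.bd (some f), Γ.lab (ob f) (ps f d) = K.lab d.1
  inj : ∀ f, ∀ d ∈ K.bd (some f), ∀ d' ∈ K.bd (some f), ps f d = ps f d' → d = d'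
  cyc : ∀ f, Γ.Cyc (ob f) ((K.bd (some f)).map (ps f)).toFinset
  red : ∀ f f' d, d ∈ K.bd (some f) → rv d ∈ K.bd (some f') →
    (ob f, ps f d) ≠ (ob f', ps f' (rv d))
  rel : ∀ f, FreeGroup.mk (K.wd (some f)) ∈ Γ.rels

/-- (GD) existence of reduced diagrams -/
def StmtGD : Prop :=
  ∀ (A : Type) [DecidableEq A] (Γ : GS A) (u : FreeGroup A), PresentedGroup.mk Γ.rels u = 1 →
    ∃ K : PC A, Nonempty (RD Γ K) ∧ K.wd none = u.toWord

theorem stmtGD : StmtGD := by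
  intro A _ Γ u hu
  obtain ⟨K, ⟨R⟩, h1, h2⟩ := exists_gdgm Γ u (PresentedGroup.mk_eq_one_iff.1 hu)
  refine ⟨K, ⟨⟨R.ob, R.ps, fun f d hd => (R.lab f d hd).symm,
    fun f d hd d' hd' h => List.inj_on_of_nodup_map (R.nd f) hd hd' h, R.cyc,
    fun f f' d hd hd' h => R.red f f' d hd hd' (Prod.ext_iff.1 h).1 (Prod.ext_iff.1 h).2,
    fun f => ?_⟩⟩, h1⟩
  obtain ⟨o, l, -, h3, h4⟩ := h2 f
  exact ⟨o, l, h3, by rw [h4]⟩

theorem bd_nodup {A : Type} (K : PC A) (f : Option K.F) : (K.bd f).Nodup := by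
  rw [List.nodup_iff_count_le_one]
  intro d
  rw [← K.once d]
  exact single_le_sum (f := fun f => (K.bd f).count d) (fun _ _ => Nat.zero_le _) (mem_univ f)

namespace RD

variable {A : Type} {Γ : GS A} {K : PC A} (R : RD Γ K)
include R

theorem len_le (f : K.F) : (K.bd (some f)).length ≤ Fintype.card Γ.P := by
  have h : ((K.bd (some f)).map (R.ps f)).Nodup := (bd_nodup K _).map_on (R.inj f)
  simpa using h.length_le_card

open Classical in
theorem loc {sp : A → Prop} {K0 n : ℕ} (h : Γ.Loc sp K0 n) :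
    Loc K (fun a => if sp a then 0 else 1) n K0 := by
  intro P hP
  let Z : P → Finset Γ.P := fun f => ((K.bd (some f.1)).map (R.ps f.1)).toFinset
  have hZ : ∀ (f : P) p, p ∈ Z f ↔ ∃ d ∈ K.bd (some f.1), R.ps f.1 d = p := fun f p => by
    simp [Z]
  let M : P × Γ.P → P × Γ.P → Prop := fun x y =>
    ∃ d, d ∈ K.bd (some x.1.1) ∧ R.ps x.1.1 d = x.2 ∧ rv d ∈ K.bd (some y.1.1) ∧
      R.ps y.1.1 (rv d) = y.2
  have hMs : ∀ x y, M x y → M y x := by
    rintro x y ⟨d, h1, h2, h3, h4⟩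
    exact ⟨rv d, h3, h4, by rwa [F5b.rv_rv], by rwa [F5b.rv_rv]⟩
  have hMu : ∀ x y y', M x y → M x y' → y = y' := by
    rintro x y y' ⟨d, h1, h2, h3, h4⟩ ⟨d', h1', h2', h3', h4'⟩
    obtain rfl : d = d' := R.inj _ d h1 d' h1' (h2.trans h2'.symm)
    have e : y.1 = y'.1 := Subtype.ext (Option.some_injective _ (F5b.mem_unique h3 h3'))
    rw [← e] at h4'
    exact Prod.ext e (h4.symm.trans h4')
  have hMn : ∀ x y, M x y → (R.ob x.1.1, x.2) ≠ (R.ob y.1.1, y.2) := by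
    rintro x y ⟨d, h1, h2, h3, h4⟩
    rw [← h2, ← h4]
    exact R.red _ _ d h1 h3
  let μ : P × Γ.P → P × Γ.P := fun x => if h : ∃ y, M x y then h.choose else x
  have hμ1 : ∀ x y, M x y → μ x = y := fun x y h => by
    have h' : ∃ y, M x y := ⟨y, h⟩
    simp only [μ, dif_pos h']
    exact hMu x _ _ h'.choose_spec h
  have hμ2 : ∀ x, (¬ ∃ y, M x y) → μ x = x := fun x h => by simp only [μ, dif_neg h]
  have h1 := h P (fun f => R.ob f.1) Z μ (fun f => R.cyc f.1) (fun x => by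
      by_cases hx : ∃ y, M x y
      · obtain ⟨y, hy⟩ := hx
        rw [hμ1 x y hy, hμ1 y x (hMs _ _ hy)]
      · rw [hμ2 x hx, hμ2 x hx])
    (fun x hx => by
      obtain ⟨y, hy⟩ : ∃ y, M x y := by
        by_contra h'
        exact hx (hμ2 x h')
      rw [hμ1 x y hy]
      refine ⟨?_, ?_, hMn x y hy⟩
      · obtain ⟨d, h1, h2, -⟩ := hy
        exact (hZ _ _).2 ⟨d, h1, h2⟩
      · obtain ⟨d, h1, h2, h3, h4⟩ := hy
        rw [← h2, ← h4, R.ok _ d h1, R.ok _ _ h3]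
        rfl)
    (by simpa using hP)
  rw [Fintype.card_coe] at h1
  refine h1.trans (Nat.mul_le_mul_left _ ?_)
  have h2 : ∑ e ∈ K.bdry P, (if sp (K.lab e) then 0 else 1) =
      #{e ∈ K.bdry P | ¬ sp (K.lab e)} := by
    rw [card_filter]
    refine sum_congr rfl fun e _ => ?_
    split_ifs <;> simp_all
  rw [h2]
  let R' : P × Γ.P → K.E → Prop := fun x e =>
    ∃ b, (e, b) ∈ K.bd (some x.1.1) ∧ R.ps x.1.1 (e, b) = x.2
  have hun : ∀ (x : P × Γ.P) d, μ x = x → d ∈ K.bd (some x.1.1) → R.ps x.1.1 d = x.2 →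
      ∀ f ∈ P, rv d ∉ K.bd (some f) := by
    intro x d hx h1 h2 f hf h3
    have h4 : M x (⟨f, hf⟩, R.ps f (rv d)) := ⟨d, h1, h2, h3, rfl⟩
    have h5 := hMn _ _ h4
    rw [← hμ1 _ _ h4, hx] at h5
    exact h5 rfl
  refine card_le_card_of_forall_subsingleton R' ?_ ?_
  · intro x hx
    obtain ⟨hx1, hx2, hx3⟩ := ((@mem_filter _ _ (_) _ _).1 hx).2
    obtain ⟨⟨e, b⟩, h1, h2⟩ := (hZ _ _).1 hx1
    refine ⟨e, mem_filter.2 ⟨?_, ?_⟩, b, h1, h2⟩
    · refine F5b.mem_bdry.2 ⟨b, ⟨x.1.1, x.1.2, F5b.fc_eq h1⟩, ?_⟩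
      rintro ⟨f, hf, h3⟩
      exact hun x _ hx2 h1 h2 f hf (F5b.mem_bd_iff.2 h3)
    · rwa [← h2, R.ok _ _ h1] at hx3
  · rintro e - x ⟨hx, b, h1, h2⟩ y ⟨hy, b', h1', h2'⟩
    obtain ⟨-, hx2, -⟩ := ((@mem_filter _ _ (_) _ _).1 hx).2
    by_cases hb : b' = b
    · subst hb
      have e : x.1 = y.1 := Subtype.ext (Option.some_injective _ (F5b.mem_unique h1 h1'))
      rw [← e] at h2'
      exact Prod.ext e (h2.symm.trans h2')
    · refine absurd ?_ (hun x _ hx2 h1 h2 y.1.1 y.1.2)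
      have : b' = !b := by
        revert hb
        cases b <;> cases b' <;> simp
      rw [this] at h1'
      exact h1'

end RD

theorem bdry_univ {A : Type} (K : PC A) {e : K.E} (he : e ∈ K.bdry univ) :
    ∃ b, (e, b) ∈ K.bd none := by
  obtain ⟨b, -, h⟩ := F5b.mem_bdry.1 he
  refine ⟨!b, F5b.mem_bd_iff.2 ?_⟩
  rcases h' : K.fc (e, !b) with _ | f
  · rfl
  · exact absurd ⟨f, mem_univ _, h'⟩ h

theorem card_bdry_univ {A : Type} (K : PC A) : #(K.bdry univ) ≤ (K.bd none).length := by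
  have h : K.bdry univ ⊆ ((K.bd none).map Prod.fst).toFinset := by
    intro e he
    obtain ⟨b, hb⟩ := bdry_univ K he
    exact List.mem_toFinset.2 (List.mem_map.2 ⟨_, hb, rfl⟩)
  refine (card_le_card h).trans ((List.toFinset_card_le _).trans ?_)
  rw [List.length_map]

theorem area_of_ex {A : Type} {R : Set (List (A × Bool))} {k : ℕ} {u : FreeGroup A}
    (h : Ex R (fun _ => 1) k u) : Vale.Agent.P186.Hy.Area (FreeGroup.mk '' R) k u := by
  induction h with
  | nil => exact .nil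
  | cons k u v r hr _ ih =>
    rw [add_comm]
    exact .cons k u v _ (Or.inl ⟨r, hr, rfl⟩) ih

theorem inv_mem_rels {A : Type} (Γ : GS A) {u : FreeGroup A} (h : u ∈ Γ.rels) : u⁻¹ ∈ Γ.rels := by
  obtain ⟨o, l, ⟨h1, v, h2⟩, rfl⟩ := h
  refine ⟨o, FreeGroup.invRev l, ⟨fun x hx => h1 (x.1, !x.2) (GS.mem_invRev hx), v,
    GS.isWk_invRev h2⟩, ?_⟩
  rw [GS.word_invRev, FreeGroup.inv_mk]

/-- the outer word of a diagram has area at most the number of faces -/
theorem area_of_RD {A : Type} {Γ : GS A} {K : PC A} (R : RD Γ K) {m : ℕ}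
    (hm : Fintype.card Γ.P ≤ m) : ∃ k ≤ Fintype.card K.F, Vale.Agent.P186.Hy.Area
      (FreeGroup.mk '' {l | FreeGroup.mk l ∈ Γ.rels ∧ l.length ≤ m}) k
      (FreeGroup.mk (K.wd none)) := by
  set T : Set (List (A × Bool)) := {l | FreeGroup.mk l ∈ Γ.rels ∧ l.length ≤ m} with hT
  obtain ⟨n1, n2, -⟩ := stmtB1N A T (fun _ => 1) fun r hr =>
    ⟨⟨by rw [← FreeGroup.inv_mk]; exact inv_mem_rels Γ hr.1,
      by rw [FreeGroup.invRev_length]; exact hr.2⟩, rfl⟩
  have h1 := (stmtB1R A K _ n1).trans (sum_le_sum fun f _ => n2 (K.wd (some f))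
    ⟨R.rel f, by rw [PC.wd, List.length_map]; exact (R.len_le f).trans hm⟩)
  rw [← Nat.cast_sum, sum_const, card_univ, smul_eq_mul, mul_one] at h1
  rcases nu_cases (R := T) (W := fun _ => 1) (FreeGroup.mk (K.wd none)) with h | ⟨k, h, h'⟩
  · rw [h] at h1
    exact absurd (top_le_iff.1 h1) (ENat.natCast_ne_top _)
  · rw [h] at h1
    exact ⟨k, Nat.cast_le.1 h1, area_of_ex h'⟩

theorem area_zero {A : Type} {R : Set (FreeGroup A)} {k : ℕ} {u : FreeGroup A}
    (h : Vale.Agent.P186.Hy.Area R k u) (hk : k = 0) : u = 1 := by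
  cases h with
  | nil => rfl
  | cons => omega

theorem pow_word {A : Type} (a b : A) (n : ℕ) : ∃ L : List (A × Bool),
    (FreeGroup.of a * (FreeGroup.of b)⁻¹) ^ n = FreeGroup.mk L ∧ ∀ x ∈ L, x.1 = a ∨ x.1 = b := by
  induction n with
  | zero => exact ⟨[], rfl, by simp⟩
  | succ n ih =>
    obtain ⟨L, h1, h2⟩ := ih
    refine ⟨L ++ ([(a, true)] ++ [(b, false)]), ?_, ?_⟩
    · rw [pow_succ, h1, ← FreeGroup.mul_mk, ← FreeGroup.mul_mk]
      rfl
    · intro x hx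
      simp only [List.mem_append, List.mem_singleton] at hx
      rcases hx with hx | rfl | rfl
      · exact h2 x hx
      · exact Or.inl rfl
      · exact Or.inr rfl

theorem stmtB13_of (h4 : StmtB4) : VK.StmtB13 := by
  intro m D
  obtain ⟨K0, C, h4⟩ := h4 (D + 1) m (by omega)
  refine ⟨K0, fun A _ Γ sp hm hL => ?_⟩
  classical
  have key : ∀ u : FreeGroup A, PresentedGroup.mk Γ.rels u = 1 → ∃ K : PC A,
      K.wd none = u.toWord ∧ ∃ k ≤ C * ∑ e ∈ K.bdry univ, (if sp (K.lab e) then 0 else 1),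
        Vale.Agent.P186.Hy.Area
          (FreeGroup.mk '' {l | FreeGroup.mk l ∈ Γ.rels ∧ l.length ≤ m}) k u := by
    intro u hu
    obtain ⟨K, ⟨R⟩, hK⟩ := stmtGD A Γ u hu
    obtain ⟨k, hk, ha⟩ := area_of_RD R hm
    rw [hK, FreeGroup.mk_toWord] at ha
    refine ⟨K, hK, k, hk.trans ?_, ha⟩
    refine h4 A K (fun a => if sp a then 0 else 1) (fun a => by split_ifs <;> omega)
      (fun f => (R.len_le f).trans hm) fun P hP => ?_
    exact (R.loc hL P hP).trans (Nat.mul_le_mul_right _ (Nat.le_succ D))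
  refine ⟨Vale.Agent.P186.Hy.isHyperbolic_of_linear (PresentedGroup.mk Γ.rels)
    (PresentedGroup.mk_surjective _)
    (FreeGroup.mk '' {l | FreeGroup.mk l ∈ Γ.rels ∧ l.length ≤ m}) m C ?_ ?_ ?_, ?_⟩
  · rintro _ ⟨l, hl, rfl⟩
    exact PresentedGroup.one_of_mem hl.1
  · rintro _ ⟨l, hl, rfl⟩
    exact FreeGroup.norm_mk_le.trans hl.2
  · intro u hu
    obtain ⟨K, hK, k, hk, ha⟩ := key u hu
    refine ⟨k, hk.trans (Nat.mul_le_mul_left _ ?_), ha⟩
    refine le_trans (sum_le_card_nsmul _ _ 1 fun e _ => by split_ifs <;> omega) ?_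
    rw [smul_eq_mul, mul_one]
    refine (card_bdry_univ K).trans (le_of_eq ?_)
    rw [FreeGroup.norm, ← hK, PC.wd, List.length_map]
  · intro a b ha hb hab hfin
    obtain ⟨n, hn, h1⟩ := isOfFinOrder_iff_pow_eq_one.1 hfin
    obtain ⟨L, h2, h3⟩ := pow_word a b n
    obtain ⟨K, hK, k, hk, har⟩ := key ((FreeGroup.of a * (FreeGroup.of b)⁻¹) ^ n) (by
      rw [map_pow, map_mul, map_inv]
      exact h1)
    have h5 : ∑ e ∈ K.bdry univ, (if sp (K.lab e) then 0 else 1) = 0 := by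
      refine sum_eq_zero fun e he => if_pos ?_
      obtain ⟨c, hc⟩ := bdry_univ K he
      have h6 : (K.lab e, c) ∈ K.wd none := List.mem_map.2 ⟨_, hc, rfl⟩
      rw [hK, h2, FreeGroup.toWord_mk] at h6
      rcases h3 _ (FreeGroup.reduce.red.sublist.subset h6) with h | h
      · exact (show K.lab e = a from h) ▸ ha
      · exact (show K.lab e = b from h) ▸ hb
    rw [h5, mul_zero] at hk
    have h6 := congrArg (FreeGroup.lift fun x =>
      (Multiplicative.ofAdd (if x = a then 1 else 0) : Multiplicative ℤ))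
      (area_zero har (Nat.le_zero.1 hk))
    rw [map_pow, map_mul, map_inv, FreeGroup.lift_apply_of, FreeGroup.lift_apply_of, map_one,
      if_pos rfl, if_neg hab.symm] at h6
    have h7 := congrArg Multiplicative.toAdd h6
    simp at h7
    omega

end Vale.Agent.P172V
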