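import Vale.Agent.P172V.AFin
import Vale.Agent.P172V.B0
import Vale.Agent.P172V.B2
import Vale.Agent.P172V.B4
import Vale.Agent.P172V.GL
import Vale.Agent.P172V.CFin
import Vale.Agent.P172V.CATm

/-!
# P172V: the final assembly
-/

namespace Vale.Agent.P172V

open Vale.Agent.P172 Vale.Agent.P172.H372

universe u

theorem main_final : ∃ (G : Type) (_ : Group G), Vale.Agent.P186.IsHyperbolicGroup G ∧
    ∀ (X : Type u) [MetricSpace X] [MulAction G X], Nonempty X → ProperSpace X →
      IsIsometricSMul G X → IsCAT0 X ∨ IsCATNegOne X → ¬ IsGeometric G X := by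
  obtain ⟨G, hG, h1, h2⟩ := main_of.{u} stmtA (stmtB_of (stmtB13_of stmtB4) stmtB2) stmtB0 stmtC
  exact ⟨G, hG, h1, fun X _ _ hX hP hI hc => h2 X hX hP hI (hc.elim id isCAT0_of_isCATNegOne)⟩

end Vale.Agent.P172V
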