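import Vale.Agent.P172V.B1F
import Vale.Agent.P172V.B1R
import Vale.Agent.P172V.B1N

/-!
# P172V: reduced diagrams over a graph system (helper79)
-/

namespace Vale.Agent.P172V

open Finset Vale.Agent.P201.S VK VK.GS

/-- a reduced diagram: objects of the faces, positions of the darts -/
structure GDgm {A : Type} (Γ : GS A) (K : PC A) where
  ob : K.F → Γ.O
  ps : K.F → K.E × Bool → Γ.P
  lab : ∀ f, ∀ d ∈ K.bd (some f), K.lab d.1 = Γ.lab (ob f) (ps f d)
  nd : ∀ f, ((K.bd (some f)).map (ps f)).Nodup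
  cyc : ∀ f, Γ.Cyc (ob f) ((K.bd (some f)).map (ps f)).toFinset
  red : ∀ f f' d, d ∈ K.bd (some f) → rv d ∈ K.bd (some f') → ob f = ob f' →
    ps f d ≠ ps f' (rv d)

namespace GD

variable {A : Type} {Γ : GS A}

/-- words of nonempty closed walks -/
def Rw (Γ : GS A) : Set (List (A × Bool)) := {r | ∃ o l, l ≠ [] ∧ Γ.IsCW o l ∧ r = Γ.word o l}

/-- the weight of a word -/
def Wt (r : List (A × Bool)) : ℕ := 2 * r.length - 1

theorem rw_inv : ∀ r ∈ Rw Γ, FreeGroup.invRev r ∈ Rw Γ ∧ Wt (FreeGroup.invRev r) = Wt r := by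
  rintro _ ⟨o, l, h0, ⟨h1, v, h2⟩, rfl⟩
  refine ⟨⟨o, FreeGroup.invRev l, ?_, ⟨fun x hx => h1 (x.1, !x.2) (mem_invRev hx), v,
    isWk_invRev h2⟩, (word_invRev o l).symm⟩, by simp [Wt]⟩
  intro h
  apply h0
  have := congrArg List.length h
  simpa using this

theorem rw_ne : ∀ r ∈ Rw Γ, r ≠ [] ∧ 1 ≤ Wt r := by
  rintro _ ⟨o, l, h0, _, rfl⟩
  have : 0 < l.length := List.length_pos_iff.2 h0
  constructor
  · intro h
    have := congrArg List.length h
    simp only [word, List.length_map, List.length_nil] at this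
    omega
  · simp only [Wt, word, List.length_map]
    omega

theorem closure_eq : Subgroup.normalClosure Γ.rels ≤
    Subgroup.normalClosure (FreeGroup.mk '' Rw Γ) := by
  refine Subgroup.normalClosure_le_normal ?_
  rintro _ ⟨o, l, h, rfl⟩
  by_cases h0 : l = []
  · subst h0
    exact one_mem _
  · exact Subgroup.subset_normalClosure ⟨_, ⟨o, l, h0, h, rfl⟩, rfl⟩

/-- the norm -/
noncomputable abbrev nn (Γ : GS A) : FreeGroup A → ℕ∞ := nu (Rw Γ) Wt

theorem nn_norm : IsNorm (nn Γ) := nu_norm rw_inv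

theorem nn_cw {o : Γ.O} {l : List (Γ.P × Bool)} (h : Γ.IsCW o l) :
    nn Γ (FreeGroup.mk (Γ.word o l)) ≤ ((2 * l.length - 1 : ℕ) : ℕ∞) := by
  by_cases h0 : l = []
  · subst h0
    have : FreeGroup.mk (Γ.word o []) = 1 := rfl
    rw [this, nn_norm.one]
    exact zero_le
  · have := nu_mk_le (W := Wt) (show Γ.word o l ∈ Rw Γ from ⟨o, l, h0, h, rfl⟩)
    simpa [Wt, word] using this

theorem not_nodup {α β : Type} (g : α → β) : ∀ l : List α, ¬ (l.map g).Nodup →
    ∃ a x b y c, l = a ++ x :: b ++ y :: c ∧ g x = g y := by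
  intro l
  induction l with
  | nil => intro h; simp at h
  | cons x l ih =>
    intro h
    rw [List.map_cons, List.nodup_cons, not_and_or, not_not] at h
    rcases h with h | h
    · obtain ⟨y, hy, hxy⟩ := List.mem_map.1 h
      obtain ⟨b, c, rfl⟩ := List.append_of_mem hy
      exact ⟨[], x, b, y, c, by simp, hxy.symm⟩
    · obtain ⟨a, x', b, y, c, rfl, h'⟩ := ih h
      exact ⟨x :: a, x', b, y, c, by simp, h'⟩

theorem cheap_split {o : Γ.O} {l : List (Γ.P × Bool)} (h : Γ.IsCW o l) (hn : ¬ (l.map Γ.po).Nodup) :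
    nn Γ (FreeGroup.mk (Γ.word o l)) ≤ ((2 * l.length - 2 : ℕ) : ℕ∞) := by
  obtain ⟨a, x, b, y, c, rfl, hxy⟩ := not_nodup _ _ hn
  obtain ⟨h1, v, h2⟩ := h
  obtain ⟨w, h3, h4⟩ := isWk_append.1 h2
  obtain ⟨w', h5, h6⟩ := isWk_append.1 h3
  have e1 : w' = Γ.po x := h6.1.symm
  have e2 : w = Γ.po y := h4.1.symm
  have c1 : Γ.IsCW o (x :: b) := ⟨fun z hz => h1 z (by
    simp only [List.mem_append, List.mem_cons] at hz ⊢; tauto), w', by
      have : w = w' := by rw [e1, e2, hxy]
      rwa [this] at h6⟩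
  have c2 : Γ.IsCW o (a ++ y :: c) := ⟨fun z hz => h1 z (by
    simp only [List.mem_append, List.mem_cons] at hz ⊢; tauto), v, isWk_append.2 ⟨w', h5, by
      have : w = w' := by rw [e1, e2, hxy]
      rwa [this] at h4⟩⟩
  have e : FreeGroup.mk (Γ.word o (a ++ x :: b ++ y :: c)) =
      (FreeGroup.mk (Γ.word o a) * FreeGroup.mk (Γ.word o (x :: b)) * (FreeGroup.mk (Γ.word o a))⁻¹) *
        FreeGroup.mk (Γ.word o (a ++ y :: c)) := by
    rw [word_append, word_append, word_append, ← FreeGroup.mul_mk, ← FreeGroup.mul_mk,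
      ← FreeGroup.mul_mk]
    group
  rw [e]
  refine (nn_norm.mul _ _).trans ?_
  rw [nn_norm.conj]
  refine (add_le_add (nn_cw c1) (nn_cw c2)).trans ?_
  rw [← Nat.cast_add, Nat.cast_le]
  simp only [List.length_append, List.length_cons]
  omega

theorem cheap_back {o : Γ.O} {l : List (Γ.P × Bool)} (h : Γ.IsCW o l) (hp : (l.map Γ.po).Nodup)
    (hn : ¬ (l.map Prod.fst).Nodup) :
    nn Γ (FreeGroup.mk (Γ.word o l)) ≤ ((2 * l.length - 2 : ℕ) : ℕ∞) := by
  obtain ⟨a, x, b, y, c, rfl, hxy⟩ := not_nodup _ _ hn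
  obtain ⟨h1, v, h2⟩ := h
  obtain ⟨w, h3, h4⟩ := isWk_append.1 h2
  obtain ⟨w', h5, h6⟩ := isWk_append.1 h3
  have hne : ∀ z ∈ x :: b, Γ.po z ≠ Γ.po y := by
    intro z hz e
    rw [List.map_append, List.nodup_append] at hp
    exact hp.2.2 _ (List.mem_map_of_mem (List.mem_append_right _ hz)) _
      (List.mem_map_of_mem List.mem_cons_self) e
  have hy : y = (x.1, !x.2) := by
    have h7 := hne x List.mem_cons_self
    obtain ⟨x1, x2⟩ := x
    obtain ⟨y1, y2⟩ := y
    simp only at hxy
    subst hxy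
    cases x2 <;> cases y2 <;> simp_all
  have hb : b = [] := by
    cases b with
    | nil => rfl
    | cons z b =>
      exact absurd (by rw [hy]; exact h6.2.1) (hne z (by simp))
  subst hb
  have c2 : Γ.IsCW o (a ++ c) := ⟨fun z hz => h1 z (by
    simp only [List.mem_append, List.mem_cons] at hz ⊢; tauto), v, isWk_append.2 ⟨w', h5, by
      have h8 := h4.2
      have h9 : Γ.po (y.1, !y.2) = w' := by
        rw [hy, ← h6.1]
        simp
      rwa [h9] at h8⟩⟩
  have e : FreeGroup.mk (Γ.word o (a ++ [x] ++ y :: c)) = FreeGroup.mk (Γ.word o (a ++ c)) := by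
    rw [hy]
    simp only [word, List.map_append, List.map_cons, List.append_assoc,
      List.cons_append, List.nil_append]
    exact Quot.sound FreeGroup.Red.Step.not
  rw [e]
  refine (nn_cw c2).trans ?_
  rw [Nat.cast_le]
  simp only [List.length_append, List.length_cons]
  omega

theorem cw_merge {o : Γ.O} {l1 l2 m1 m2 : List (Γ.P × Bool)} {x : Γ.P × Bool}
    (h : Γ.IsCW o (l1 ++ x :: l2)) (h' : Γ.IsCW o (m1 ++ (x.1, !x.2) :: m2)) :
    Γ.IsCW o (l2 ++ l1 ++ (m2 ++ m1)) := by
  obtain ⟨h1, v, h2⟩ := h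
  obtain ⟨h3, v', h4⟩ := h'
  obtain ⟨w, a1, a2, a3⟩ := isWk_append.1 h2
  obtain ⟨w', b1, b2, b3⟩ := isWk_append.1 h4
  simp only [Bool.not_not] at b3
  refine ⟨fun z hz => ?_, Γ.po (x.1, !x.2), isWk_append.2 ⟨w, isWk_append.2 ⟨v, a3, a1⟩,
    isWk_append.2 ⟨v', a2 ▸ b3, b2 ▸ b1⟩⟩⟩
  simp only [List.mem_append] at hz
  rcases hz with (hz | hz) | hz | hz
  · exact h1 z (by simp [hz])
  · exact h1 z (by simp [hz])
  · exact h3 z (by simp [hz])
  · exact h3 z (by simp [hz])

theorem wk_count {u v : Γ.Vx} {l : List (Γ.P × Bool)} (h : Γ.IsWk u l v) (w : Γ.Vx) :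
    l.countP (fun x => Γ.po x = w) + (if v = w then 1 else 0) =
      l.countP (fun x => Γ.po (x.1, !x.2) = w) + (if u = w then 1 else 0) := by
  induction l generalizing u with
  | nil =>
    have : u = v := h
    simp [this]
  | cons x l ih =>
    obtain ⟨h1, h2⟩ := h
    have := ih h2
    rw [List.countP_cons, List.countP_cons, h1]
    simp only [decide_eq_true_eq]
    omega

theorem deg_eq (l : List (Γ.P × Bool)) (hn : (l.map Prod.fst).Nodup) (w : Γ.Vx) :
    Γ.deg (l.map Prod.fst).toFinset w =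
      l.countP (fun x => Γ.po x = w) + l.countP (fun x => Γ.po (x.1, !x.2) = w) := by
  induction l with
  | nil => simp [deg]
  | cons x l ih =>
    rw [List.map_cons, List.nodup_cons] at hn
    have ih' := ih hn.2
    have hx : x.1 ∉ (l.map Prod.fst).toFinset := by simpa using hn.1
    unfold deg at ih' ⊢
    rw [List.map_cons, List.toFinset_cons, filter_insert, filter_insert, List.countP_cons,
      List.countP_cons]
    have c1 : ∀ p : Γ.P → Prop, ∀ [DecidablePred p],
        (if p x.1 then insert x.1 (filter p (l.map Prod.fst).toFinset)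
          else filter p (l.map Prod.fst).toFinset).card =
        (filter p (l.map Prod.fst).toFinset).card + if p x.1 then 1 else 0 := by
      intro p _
      split_ifs
      · rw [card_insert_of_notMem (fun h => hx (mem_filter.1 h).1)]
      · rfl
    rw [c1 (fun p => Γ.src p = w), c1 (fun p => Γ.tgt p = w)]
    obtain ⟨x1, x2⟩ := x
    cases x2 <;> simp only [po, decide_eq_true_eq, Bool.not_false, Bool.not_true, if_true,
      Bool.false_eq_true, if_false] at ih' ⊢ <;> omega

theorem cyc_of_simple {o : Γ.O} {l : List (Γ.P × Bool)} (h0 : l ≠ []) (h : Γ.IsCW o l)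
    (hp : (l.map Γ.po).Nodup) (hn : (l.map Prod.fst).Nodup) :
    Γ.Cyc o (l.map Prod.fst).toFinset := by
  refine ⟨by simpa using h0, ?_, fun w => ?_⟩
  · intro p hp
    obtain ⟨x, hx, rfl⟩ := List.mem_map.1 (List.mem_toFinset.1 hp)
    exact h.1 x hx
  · obtain ⟨v, hv⟩ := h.2
    have h1 := wk_count hv w
    have h2 : l.countP (fun x => Γ.po x = w) ≤ 1 := by
      have := List.nodup_iff_count_le_one.1 hp w
      rw [List.count_eq_countP, List.countP_map] at this
      refine le_trans (le_of_eq ?_) this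
      congr 1
    rw [deg_eq l hn]
    omega

/-- a function on the members of a list without repetition which maps it to a given list -/
theorem exists_map {α β : Type} [DecidableEq α] (b0 : β) : ∀ (l : List α) (m : List β), l.Nodup →
    l.length = m.length → ∃ g : α → β, l.map g = m := by
  intro l
  induction l with
  | nil => intro m _ h; exact ⟨fun _ => b0, (List.length_eq_zero_iff.1 h.symm).symm⟩
  | cons x l ih =>
    intro m hn h
    cases m with
    | nil => simp at h
    | cons y m =>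
      rw [List.nodup_cons] at hn
      obtain ⟨g, hg⟩ := ih m hn.2 (by simpa using h)
      refine ⟨Function.update g x y, ?_⟩
      rw [List.map_cons, Function.update_self, ← hg]
      congr 1
      exact List.map_congr_left fun z hz => Function.update_of_ne (fun e : z = x => hn.1 (e ▸ hz)) _ _

end GD

open GD

/-- reduced diagrams exist -/
theorem exists_gdgm {A : Type} [DecidableEq A] (Γ : GS A) (u : FreeGroup A)
    (hu : u ∈ Subgroup.normalClosure Γ.rels) :
    ∃ K : PC A, Nonempty (GDgm Γ K) ∧ K.wd none = u.toWord ∧ ∀ f : K.F, K.wd (some f) ∈ Rw Γ := by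
  classical
  have hν := nn_norm (Γ := Γ)
  obtain ⟨k, hk⟩ := ENat.ne_top_iff_exists.1 (nu_ne_top (W := Wt) rw_inv (closure_eq hu))
  obtain ⟨K, h1, h2, h3⟩ := stmtB1V_of stmtB1P stmtB1Z stmtB1F3 stmtB1F4 A (Rw Γ) Wt rw_inv rw_ne
    k u hk.symm
  refine ⟨K, ?_, h3, h1⟩
  have hout : nn Γ (FreeGroup.mk (K.wd none)) = k := by rw [h3, FreeGroup.mk_toWord]; exact hk.symm
  choose ob wk hne hcw hwd using id h1
  have hlen : ∀ f, (K.bd (some f)).length = (wk f).length := by
    intro f
    have := congrArg List.length (hwd f)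
    simpa [PC.wd, word] using this
  have hW : ∀ f, Wt (K.wd (some f)) = 2 * (wk f).length - 1 := by
    intro f
    simp [Wt, PC.wd, hlen]
  have hpos : ∀ f, 0 < (wk f).length := fun f => List.length_pos_iff.2 (hne f)
  have hle : ∀ s : Finset K.F, ∑ f ∈ s, nn Γ (FreeGroup.mk (K.wd (some f))) ≤
      ((∑ f ∈ s, Wt (K.wd (some f)) : ℕ) : ℕ∞) := by
    intro s
    rw [Nat.cast_sum]
    exact sum_le_sum fun f _ => nu_mk_le (h1 f)
  have hmin : ∀ f, ¬ nn Γ (FreeGroup.mk (Γ.word (ob f) (wk f))) ≤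
      ((2 * (wk f).length - 2 : ℕ) : ℕ∞) := by
    intro f hf
    have a1 := stmtB1R A K _ hν
    rw [hout, ← add_sum_erase _ _ (mem_univ f), hwd f] at a1
    have a2 := a1.trans (add_le_add hf (hle _))
    rw [← Nat.cast_add, Nat.cast_le] at a2
    rw [← add_sum_erase _ _ (mem_univ f), hW] at h2
    have := hpos f
    omega
  have hpo : ∀ f, ((wk f).map Γ.po).Nodup := fun f => by
    by_contra h
    exact hmin f (cheap_split (hcw f) h)
  have hfs : ∀ f, ((wk f).map Prod.fst).Nodup := fun f => by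
    by_contra h
    exact hmin f (cheap_back (hcw f) (hpo f) h)
  choose g hg using fun f => exists_map ((wk f).head (hne f)) (K.bd (some f)) (wk f)
    (BrRed.nodup_bd K _) (hlen f)
  let ps : K.F → K.E × Bool → Γ.P := fun f d => (g f d).1
  have hmap : ∀ f, (K.bd (some f)).map (ps f) = (wk f).map Prod.fst := by
    intro f
    rw [← hg f, List.map_map]
    rfl
  have hlab : ∀ f, ∀ d ∈ K.bd (some f), (K.lab d.1, d.2) = (Γ.lab (ob f) (g f d).1, (g f d).2) := by
    intro f
    have := hwd f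
    rw [← hg f, word, List.map_map, PC.wd] at this
    exact List.map_inj_left.1 this
  refine ⟨⟨ob, ps, fun f d hd => ?_, fun f => ?_, fun f => ?_, ?_⟩⟩
  · exact congrArg Prod.fst (hlab f d hd)
  · rw [hmap]; exact hfs f
  · rw [hmap]; exact cyc_of_simple (hne f) (hcw f) (hpo f) (hfs f)
  · intro f f' d hd hd' hob hp
    by_cases hff : f = f'
    · subst hff
      have := hfs f
      rw [← hmap] at this
      exact BrRed.rv_ne d (List.inj_on_of_nodup_map this hd hd' hp).symm
    obtain ⟨l1, l2, e1⟩ := List.append_of_mem hd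
    obtain ⟨m1, m2, e2⟩ := List.append_of_mem hd'
    have a1 := stmtB1M A K _ hν f f' l1 l2 m1 m2 d hff e1 e2
    have c1 := hcw f
    have c2 := hcw f'
    have hx : g f' (rv d) = ((g f d).1, !(g f d).2) := by
      refine Prod.ext ?_ ?_
      · exact hp.symm
      · have b1 := congrArg Prod.snd (hlab f d hd)
        have b2 := congrArg Prod.snd (hlab f' _ hd')
        simp only [rv] at b1 b2 ⊢
        rw [← b1, ← b2]
    rw [← hg f, e1, List.map_append, List.map_cons] at c1
    rw [← hg f', e2, List.map_append, List.map_cons, hx, ← hob] at c2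
    have c3 := nn_cw (cw_merge c1 c2)
    have w1 : ∀ l : List (K.E × Bool), (∀ x ∈ l, x ∈ K.bd (some f)) →
        BrRed.wo K l = Γ.word (ob f) (l.map (g f)) := by
      intro l hl
      rw [word, List.map_map, BrRed.wo]
      exact List.map_congr_left fun x hx => hlab f x (hl x hx)
    have w2 : ∀ l : List (K.E × Bool), (∀ x ∈ l, x ∈ K.bd (some f')) →
        BrRed.wo K l = Γ.word (ob f) (l.map (g f')) := by
      intro l hl
      rw [word, List.map_map, BrRed.wo, hob]
      exact List.map_congr_left fun x hx => hlab f' x (hl x hx)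
    have e3 : BrRed.wo K (l2 ++ l1 ++ (m2 ++ m1)) = Γ.word (ob f)
        (l2.map (g f) ++ l1.map (g f) ++ (m2.map (g f') ++ m1.map (g f'))) := by
      rw [BrRed.wo_append, BrRed.wo_append, BrRed.wo_append, word_append, word_append, word_append,
        w1 l1 (fun x hx => by rw [e1]; simp [hx]), w1 l2 (fun x hx => by rw [e1]; simp [hx]),
        w2 m1 (fun x hx => by rw [e2]; simp [hx]), w2 m2 (fun x hx => by rw [e2]; simp [hx])]
    rw [hout, e3] at a1
    have a2 := a1.trans (add_le_add c3 (hle _))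
    rw [← Nat.cast_add, Nat.cast_le] at a2
    rw [← add_sum_erase _ _ (mem_univ f),
      ← add_sum_erase _ _ (mem_erase.2 ⟨Ne.symm hff, mem_univ f'⟩), hW, hW, ← hlen, ← hlen,
      e1, e2] at h2
    simp only [List.length_append, List.length_cons, List.length_map] at a2 h2
    omega

end Vale.Agent.P172V
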