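import Vale.Agent.P172V.CN
import Vale.Agent.P172V.Fin20

/-!
# P172V, part C4: the scaled `ℓ²` product has (CN) midpoints
-/

namespace Vale.Agent.P172V

open Finset

variable {ι X : Type*} [PseudoMetricSpace X]

/-- the scaled `ℓ²` distance of two families indexed by `s` -/
noncomputable def l2d (s : Finset ι) (W : ℝ) (P Q : ι → X) : ℝ :=
  √((∑ i ∈ s, dist (P i) (Q i) ^ 2) / W)

theorem l2d_sq (s : Finset ι) {W : ℝ} (hW : 0 < W) (P Q : ι → X) :
    l2d s W P Q ^ 2 = (∑ i ∈ s, dist (P i) (Q i) ^ 2) / W :=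
  Real.sq_sqrt (div_nonneg (sum_nonneg fun _ _ => sq_nonneg _) hW.le)

theorem cnd_l2 {pt : X → X → ℝ → X} (h : IsCNt pt) (s : Finset ι) {W : ℝ} (hW : 0 < W) :
    CNd (l2d (X := X) s W) (fun P Q i => pt (P i) (Q i) (1 / 2)) where
  nonneg _ _ := Real.sqrt_nonneg _
  self P := by simp [l2d]
  symm P Q := by simp only [l2d, dist_comm]
  tri P Q R := by
    have hA := l2d_sq s hW P Q
    have hB := l2d_sq s hW Q R
    have hC := l2d_sq s hW P R
    have h0 : 0 ≤ l2d s W P Q := Real.sqrt_nonneg _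
    have h1 : 0 ≤ l2d s W Q R := Real.sqrt_nonneg _
    have hcs : (∑ i ∈ s, dist (P i) (Q i) * dist (Q i) (R i)) / W ≤ l2d s W P Q * l2d s W Q R := by
      refine (abs_le_of_sq_le_sq' ?_ (mul_nonneg h0 h1)).2
      rw [mul_pow, hA, hB, div_pow, div_mul_div_comm, ← sq]
      exact div_le_div_of_nonneg_right (sum_mul_sq_le_sq_mul_sq _ _ _) (by positivity)
    have hsum : ∑ i ∈ s, dist (P i) (R i) ^ 2 ≤ ∑ i ∈ s, dist (P i) (Q i) ^ 2 +
        2 * ∑ i ∈ s, dist (P i) (Q i) * dist (Q i) (R i) + ∑ i ∈ s, dist (Q i) (R i) ^ 2 := by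
      rw [mul_sum, ← sum_add_distrib, ← sum_add_distrib]
      refine sum_le_sum fun i _ => ?_
      have := pow_le_pow_left₀ dist_nonneg (dist_triangle (P i) (Q i) (R i)) 2
      linarith
    refine (abs_le_of_sq_le_sq' ?_ (add_nonneg h0 h1)).2
    have h2 := div_le_div_of_nonneg_right hsum hW.le
    rw [add_div, add_div, mul_div_assoc] at h2
    rw [add_sq, hA, hB, hC]
    linarith
  cn P Q R := by
    rw [l2d_sq s hW, l2d_sq s hW, l2d_sq s hW, l2d_sq s hW]
    have hsum : ∑ i ∈ s, dist (R i) (pt (P i) (Q i) (1 / 2)) ^ 2 ≤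
        (∑ i ∈ s, dist (R i) (P i) ^ 2) / 2 + (∑ i ∈ s, dist (R i) (Q i) ^ 2) / 2 -
          (∑ i ∈ s, dist (P i) (Q i) ^ 2) / 4 := by
      rw [sum_div, sum_div, sum_div, ← sum_add_distrib, ← sum_sub_distrib]
      refine sum_le_sum fun i _ => ?_
      have := h (P i) (Q i) (R i) (1 / 2) (by norm_num) (by norm_num)
      linarith
    have h2 := div_le_div_of_nonneg_right hsum hW.le
    refine h2.trans (le_of_eq ?_)
    ring

end Vale.Agent.P172V
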