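import Vale.Agent.P172V.Thin

/-!
# P172V: the properties (M), (A), (m) hold for most values of the thinning variables
-/

set_option linter.all false

open scoped Classical

noncomputable section

namespace Vale.Agent.P172V

open Finset Real

theorem card_exists_le {Ω I : Type*} [Fintype Ω] [Fintype I] (P : I → Ω → Prop)
    {_ : ∀ i, DecidablePred (P i)} (β : ℝ) (h : ∀ i, ((univ.filter fun ω => P i ω).card : ℝ) ≤ β) :
    ((univ.filter fun ω => ∃ i, P i ω).card : ℝ) ≤ Fintype.card I * β := by
  have h1 : (univ.filter fun ω => ∃ i, P i ω) =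
      univ.biUnion fun i => univ.filter fun ω => P i ω := by
    ext ω
    simp
  rw [h1]
  calc (((univ.biUnion fun i => univ.filter fun ω => P i ω).card : ℕ) : ℝ)
      ≤ ∑ i, ((univ.filter fun ω => P i ω).card : ℝ) := by exact_mod_cast card_biUnion_le
    _ ≤ ∑ _i : I, β := sum_le_sum fun i _ => h i
    _ = Fintype.card I * β := by rw [sum_const, card_univ, nsmul_eq_mul]

theorem card_filter_mono {Ω : Type*} [Fintype Ω] {P Q : Ω → Prop} {_ : DecidablePred P}
    {_ : DecidablePred Q} (h : ∀ ω, P ω → Q ω) :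
    ((univ.filter P).card : ℝ) ≤ (univ.filter Q).card := by
  exact_mod_cast card_le_card fun ω hω =>
    mem_filter.2 ⟨mem_univ _, h ω (mem_filter.1 hω).2⟩

section S2

variable {S K Z R V : Type*} [Fintype S] [Fintype K] [Fintype Z] [Fintype R] [Fintype V]
  {M : ℕ} [NeZero M]

/-- the variables of a seed -/
def vars (ι : (R × K) ⊕ Z → V) (key : R → Z → K) (z : Z) : Finset V :=
  insert (ι (.inr z)) (univ.image fun r => ι (.inl (r, key r z)))

/-- a seed is valid if all its variables are on -/
def Valid (ι : (R × K) ⊕ Z → V) (key : R → Z → K) (ω : V → Fin M) (z : Z) : Prop :=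
  ω (ι (.inr z)) = 0 ∧ ∀ r, ω (ι (.inl (r, key r z))) = 0

variable {ι : (R × K) ⊕ Z → V} {key : R → Z → K}

theorem mem_vars {z : Z} {v : V} :
    v ∈ vars ι key z ↔ v = ι (.inr z) ∨ ∃ r, ι (.inl (r, key r z)) = v := by
  simp [vars]

theorem valid_iff (ω : V → Fin M) (z : Z) :
    Valid ι key ω z ↔ ∀ v ∈ vars ι key z, ω v = 0 := by
  constructor
  · rintro ⟨h1, h2⟩ v hv
    rcases mem_vars.1 hv with rfl | ⟨r, rfl⟩
    · exact h1
    · exact h2 r
  · intro h
    exact ⟨h _ (mem_vars.2 (Or.inl rfl)), fun r => h _ (mem_vars.2 (Or.inr ⟨r, rfl⟩))⟩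

theorem card_vars (hι : Function.Injective ι) (z : Z) :
    (vars ι key z).card = Fintype.card R + 1 := by
  unfold vars
  rw [card_insert_of_notMem, card_image_of_injective, card_univ]
  · intro r r' h
    have := hι h
    simp only [Sum.inl.injEq, Prod.mk.injEq] at this
    exact this.1
  · rw [mem_image]
    rintro ⟨r, -, h⟩
    exact absurd (hι h) (by simp)

/-- a variable is used by at most `n` seeds -/
theorem use_le (hι : Function.Injective ι) {n : ℕ} (hn : 1 ≤ n)
    (hkey : ∀ r κ, (univ.filter fun z => key r z = κ).card ≤ n) (v : V) :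
    (univ.filter fun z => v ∈ vars ι key z).card ≤ n := by
  by_cases h : ∃ z, v = ι (.inr z)
  · obtain ⟨z, rfl⟩ := h
    refine le_trans (card_le_one.2 ?_) hn
    have key' : ∀ a ∈ univ.filter fun z' => ι (.inr z) ∈ vars ι key z', a = z := by
      intro a ha
      rcases mem_vars.1 (mem_filter.1 ha).2 with h | ⟨r, h⟩
      · exact (Sum.inr.inj (hι h)).symm
      · exact absurd (hι h) (by simp)
    intro a ha b hb
    rw [key' a ha, key' b hb]
  · by_cases h' : ∃ r κ, v = ι (.inl (r, κ))
    · obtain ⟨r, κ, rfl⟩ := h'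
      refine le_trans (card_le_card ?_) (hkey r κ)
      intro z hz
      rcases mem_vars.1 (mem_filter.1 hz).2 with h | ⟨r', h⟩
      · exact absurd (hι h) (by simp)
      · have := hι h
        simp only [Sum.inl.injEq, Prod.mk.injEq] at this
        obtain ⟨rfl, h2⟩ := this
        exact mem_filter.2 ⟨mem_univ _, h2⟩
    · have : (univ.filter fun z => v ∈ vars ι key z) = ∅ := by
        rw [filter_eq_empty_iff]
        intro z _ hz
        rcases mem_vars.1 hz with h1 | ⟨r, h1⟩
        · exact h ⟨z, h1⟩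
        · exact h' ⟨r, _, h1.symm⟩
      rw [this, card_empty]
      exact Nat.zero_le _

theorem p_pos : (0 : ℝ) < 1 / M := by
  have : (0 : ℝ) < M := by exact_mod_cast Nat.pos_of_ne_zero (NeZero.ne M)
  positivity

theorem p_le_one : (1 / M : ℝ) ≤ 1 := by
  have : (1 : ℝ) ≤ M := by exact_mod_cast Nat.pos_of_ne_zero (NeZero.ne M)
  rw [div_le_one (by linarith)]
  exact this

/-- (M) -/
theorem tail_M (hι : Function.Injective ι) (hR : Fintype.card R = 10) {n : ℕ} (hn : 1 ≤ n)
    (hkey : ∀ r κ, (univ.filter fun z => key r z = κ).card ≤ n) (J : Z → Prop)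
    (hJ : (univ.filter J).card = n ^ 2) {ε : ℝ} (hε : 0 < ε) :
    ((univ.filter fun ω : V → Fin M => ¬ ((1 - ε) * (n ^ 2 * (1 / M : ℝ) ^ 11) ≤
        (univ.filter fun z => Valid ι key ω z ∧ J z).card ∧
      ((univ.filter fun z => Valid ι key ω z ∧ J z).card : ℝ) ≤
        (1 + ε) * (n ^ 2 * (1 / M : ℝ) ^ 11))).card : ℝ) ≤
      2 * (exp (-(ε ^ 2 / 22 * (n * (1 / M : ℝ) ^ 22))) * Fintype.card (V → Fin M)) := by
  have hp := p_pos (M := M)
  have hn' : (0 : ℝ) < n := by exact_mod_cast hn
  set p : ℝ := 1 / M with hpdef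
  have hcount : ∀ ω : V → Fin M, (univ.filter fun z => Valid ι key ω z ∧ J z).card =
      onCount (univ.filter J) (vars ι key) ω := by
    intro ω
    unfold onCount
    congr 1
    ext z
    simp only [mem_filter, mem_univ, true_and, valid_iff]
    exact and_comm
  have hmean : ∑ z ∈ univ.filter J, p ^ (vars ι key z).card = n ^ 2 * p ^ 11 := by
    rw [sum_congr rfl fun z _ => by rw [card_vars hι, hR], sum_const, hJ, nsmul_eq_mul]
    push_cast
    rfl
  have hS : ∑ v, (useCount (univ.filter J) (vars ι key) v : ℝ) ^ 2 ≤ n * (11 * n ^ 2) := by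
    have := sum_sq_useCount_le (univ.filter J) (vars ι key) n 11 hn'.le (fun v => by
      have h1 := use_le hι hn hkey v
      have h2 : useCount (univ.filter J) (vars ι key) v ≤
          (univ.filter fun z => v ∈ vars ι key z).card :=
        card_le_card fun z hz => mem_filter.2 ⟨mem_univ _, (mem_filter.1 hz).2⟩
      exact_mod_cast h2.trans h1) (fun z _ => by rw [card_vars hι, hR]; norm_num)
    rw [hJ] at this
    exact_mod_cast this
  have ht : 0 < ε * (n ^ 2 * p ^ 11) := by positivity
  have h1 := on_upper (M := M) (univ.filter J) (vars ι key) _ _ _ ht hmean.le hS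
  have h2 := on_lower (M := M) (univ.filter J) (vars ι key) _ _ _ ht hmean.ge hS
  have he : (ε * (n ^ 2 * p ^ 11)) ^ 2 / (2 * (n * (11 * n ^ 2))) = ε ^ 2 / 22 * (n * p ^ 22) := by
    field_simp
    ring
  rw [he] at h1 h2
  rw [two_mul]
  refine le_trans ?_ (add_le_add h1 h2)
  rw [← Nat.cast_add]
  refine Nat.cast_le.2 (le_trans (card_le_card ?_) (card_union_le _ _))
  intro ω hω
  rw [mem_filter, hcount] at hω
  rw [mem_union, mem_filter, mem_filter]
  by_contra hcon
  rw [not_or, not_and, not_and] at hcon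
  have h3 := hcon.1 (mem_univ _)
  have h4 := hcon.2 (mem_univ _)
  apply hω.2
  constructor <;> linarith [not_le.1 h3, not_le.1 h4]

/-- (A) -/
theorem tail_A (hι : Function.Injective ι) (hR : Fintype.card R = 10) {n : ℕ} (hn : 1 ≤ n)
    (hK : Fintype.card K = n ^ 2)
    (hkey : ∀ r κ, (univ.filter fun z => key r z = κ).card ≤ n) (r : R) (e : K × S → Z)
    (he : Function.Injective e) (hke : ∀ κ s, key r (e (κ, s)) = κ) (k : ℕ)
    (τ : Fin (k + 1) → S) {ε : ℝ} (hε : 0 < ε) :
    ((univ.filter fun ω : V → Fin M =>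
      ¬ ((1 - ε) * (n ^ 2 * (1 / M : ℝ) ^ 11 * ((1 / M : ℝ) ^ 10) ^ k) ≤
        (univ.filter fun κ => ∀ i, Valid ι key ω (e (κ, τ i))).card)).card : ℝ) ≤
      exp (-(ε ^ 2 / (22 * (k + 1) ^ 2) * (n * (1 / M : ℝ) ^ (22 + 20 * k)))) *
        Fintype.card (V → Fin M) := by
  have hp := p_pos (M := M)
  have hp1 := p_le_one (M := M)
  have hn' : (0 : ℝ) < n := by exact_mod_cast hn
  set p : ℝ := 1 / M with hpdef
  let W : K → Finset V := fun κ => univ.biUnion fun i => vars ι key (e (κ, τ i))
  have hcount : ∀ ω : V → Fin M, (univ.filter fun κ => ∀ i, Valid ι key ω (e (κ, τ i))).card =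
      onCount univ W ω := by
    intro ω
    unfold onCount
    congr 1
    ext κ
    simp only [mem_filter, mem_univ, true_and, valid_iff, W, mem_biUnion]
    constructor
    · rintro h v ⟨i, hi⟩
      exact h i v hi
    · intro h i v hv
      exact h v ⟨i, hv⟩
  have hW : ∀ κ, (W κ).card ≤ 11 + 10 * k := by
    intro κ
    have h1 : W κ ⊆ insert (ι (.inl (r, κ)))
        (univ.biUnion fun i => (vars ι key (e (κ, τ i))).erase (ι (.inl (r, κ)))) := by
      intro v hv
      obtain ⟨i, -, hi⟩ := mem_biUnion.1 hv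
      by_cases h : v = ι (.inl (r, κ))
      · exact mem_insert.2 (Or.inl h)
      · exact mem_insert.2 (Or.inr (mem_biUnion.2 ⟨i, mem_univ _, mem_erase.2 ⟨h, hi⟩⟩))
    refine (card_le_card h1).trans ((card_insert_le _ _).trans ?_)
    have h2 : (univ.biUnion fun i => (vars ι key (e (κ, τ i))).erase (ι (.inl (r, κ)))).card ≤
        ∑ _i : Fin (k + 1), 10 := by
      refine card_biUnion_le.trans (sum_le_sum fun i _ => ?_)
      rw [card_erase_of_mem (mem_vars.2 (Or.inr ⟨r, by rw [hke]⟩)), card_vars hι, hR]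
    rw [sum_const, card_univ, Fintype.card_fin, smul_eq_mul] at h2
    omega
  have hmean : n ^ 2 * p ^ 11 * (p ^ 10) ^ k ≤ ∑ κ, p ^ (W κ).card := by
    calc n ^ 2 * p ^ 11 * (p ^ 10) ^ k = ∑ _κ : K, p ^ (11 + 10 * k) := by
          rw [sum_const, card_univ, hK, nsmul_eq_mul]
          push_cast
          ring
      _ ≤ ∑ κ, p ^ (W κ).card :=
          sum_le_sum fun κ _ => pow_le_pow_of_le_one hp.le hp1 (hW κ)
  have hS : ∑ v, (useCount univ W v : ℝ) ^ 2 ≤ ((k + 1) * n) * ((11 * (k + 1)) * n ^ 2) := by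
    have := sum_sq_useCount_le univ W ((k + 1) * n) (11 * (k + 1)) (by positivity) (fun v => by
      have h1 := use_le hι hn hkey v
      have h2 : useCount univ W v ≤ ∑ _i : Fin (k + 1), n := by
        have h3 : (univ.filter fun κ => v ∈ W κ) ⊆
            univ.biUnion fun i => univ.filter fun κ => v ∈ vars ι key (e (κ, τ i)) := by
          intro κ hκ
          obtain ⟨i, -, hi⟩ := mem_biUnion.1 (mem_filter.1 hκ).2
          exact mem_biUnion.2 ⟨i, mem_univ _, mem_filter.2 ⟨mem_univ _, hi⟩⟩
        refine (card_le_card h3).trans (card_biUnion_le.trans (sum_le_sum fun i _ => ?_))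
        refine le_trans ?_ h1
        refine card_le_card_of_injOn (fun κ => e (κ, τ i)) ?_ ?_
        · intro κ hκ
          exact mem_filter.2 ⟨mem_univ _, (mem_filter.1 hκ).2⟩
        · intro κ _ κ' _ h
          exact (Prod.mk.inj (he h)).1
      rw [sum_const, card_univ, Fintype.card_fin, smul_eq_mul] at h2
      exact_mod_cast h2) (fun κ _ => by
        have h1 : ((W κ).card : ℝ) ≤ ((11 + 10 * k : ℕ) : ℝ) := by exact_mod_cast hW κ
        have h2 : (0 : ℝ) ≤ k := Nat.cast_nonneg k
        push_cast at h1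
        linarith)
    rw [card_univ, hK] at this
    exact_mod_cast this
  have ht : 0 < ε * (n ^ 2 * p ^ 11 * (p ^ 10) ^ k) := by positivity
  have h2 := on_lower (M := M) univ W _ _ _ ht hmean hS
  have he : (ε * (n ^ 2 * p ^ 11 * (p ^ 10) ^ k)) ^ 2 /
      (2 * (((k + 1) * n) * ((11 * (k + 1)) * n ^ 2))) =
      ε ^ 2 / (22 * (k + 1) ^ 2) * (n * p ^ (22 + 20 * k)) := by
    field_simp
    ring
  rw [he] at h2
  refine le_trans (card_filter_mono fun ω hω => ?_) h2
  rw [hcount] at hω
  linarith [not_le.1 hω]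

/-- the ordered pairs of different seeds which share the keys of two roles -/
def Shared (key : R → Z → K) (q : Z × Z) : Prop :=
  q.1 ≠ q.2 ∧ ∃ r r', r ≠ r' ∧ key r q.1 = key r q.2 ∧ key r' q.1 = key r' q.2

/-- the number of shared pairs in the fibre of `κ` -/
def fibPairs (key : R → Z → K) (e : K × S → Z) (κ : K) : ℕ :=
  (univ.filter fun q : S × S => Shared key (e (κ, q.1), e (κ, q.2))).card

theorem sum_fibPairs (e : K × S → Z) (he : Function.Injective e) :
    ∑ κ, fibPairs key e κ ≤ (univ.filter (Shared key)).card := by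
  have h1 : ∑ κ, fibPairs key e κ =
      (univ.filter fun q : K × S × S => Shared key (e (q.1, q.2.1), e (q.1, q.2.2))).card := by
    rw [card_filter, Fintype.sum_prod_type]
    refine sum_congr rfl fun κ _ => ?_
    rw [fibPairs, card_filter]
  rw [h1]
  refine card_le_card_of_injOn (fun q => (e (q.1, q.2.1), e (q.1, q.2.2))) ?_ ?_
  · intro q hq
    exact mem_filter.2 ⟨mem_univ _, (mem_filter.1 hq).2⟩
  · intro q _ q' _ h
    have h1 := Prod.mk.inj (he (Prod.mk.inj h).1)
    have h2 := Prod.mk.inj (he (Prod.mk.inj h).2)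
    exact Prod.ext h1.1 (Prod.ext h1.2 h2.2)

theorem card_bad_le (e : K × S → Z) (he : Function.Injective e) {θ : ℝ} (hθ : 0 < θ) :
    ((univ.filter fun κ => θ < (fibPairs key e κ : ℝ)).card : ℝ) ≤
      (univ.filter (Shared key)).card / θ := by
  rw [le_div_iff₀ hθ]
  calc ((univ.filter fun κ => θ < (fibPairs key e κ : ℝ)).card : ℝ) * θ
      = ∑ κ ∈ univ.filter fun κ => θ < (fibPairs key e κ : ℝ), θ := by
        rw [sum_const, nsmul_eq_mul]
    _ ≤ ∑ κ ∈ univ.filter fun κ => θ < (fibPairs key e κ : ℝ), (fibPairs key e κ : ℝ) :=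
        sum_le_sum fun κ hκ => (mem_filter.1 hκ).2.le
    _ ≤ ∑ κ, (fibPairs key e κ : ℝ) :=
        sum_le_sum_of_subset_of_nonneg (filter_subset _ _) fun _ _ _ => Nat.cast_nonneg _
    _ ≤ _ := by exact_mod_cast sum_fibPairs e he

/-- (m) -/
theorem tail_m (hι : Function.Injective ι) (hR : Fintype.card R = 10) {n : ℕ} (hn : 1 ≤ n)
    (hSn : Fintype.card S = n) (r : R) (e : K × S → Z)
    (he : Function.Injective e) (hke : ∀ κ s, key r (e (κ, s)) = κ) (κ : K) {θ : ℝ}
    (hθ : (fibPairs key e κ : ℝ) ≤ θ) {ε : ℝ} (hε : 0 < ε) :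
    ((univ.filter fun ω : V → Fin M =>
      ¬ (((univ.filter fun s => Valid ι key ω (e (κ, s))).card : ℝ) ≤
        (1 + ε) * (n * (1 / M : ℝ) ^ 10))).card : ℝ) ≤
      exp (-((ε * (n * (1 / M : ℝ) ^ 10)) ^ 2 / (2 * (10 * n + 10 * θ)))) *
        Fintype.card (V → Fin M) := by
  have hp := p_pos (M := M)
  have hn' : (0 : ℝ) < n := by exact_mod_cast hn
  set p : ℝ := 1 / M with hpdef
  let W : S → Finset V := fun s => (vars ι key (e (κ, s))).erase (ι (.inl (r, κ)))
  have hW : ∀ s, (W s).card = 10 := by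
    intro s
    rw [card_erase_of_mem (mem_vars.2 (Or.inr ⟨r, by rw [hke]⟩)), card_vars hι, hR]
  have hcount : ∀ ω : V → Fin M, (univ.filter fun s => Valid ι key ω (e (κ, s))).card ≤
      onCount univ W ω := by
    intro ω
    refine card_le_card fun s hs => mem_filter.2 ⟨mem_univ _, fun v hv => ?_⟩
    exact (valid_iff ω _).1 (mem_filter.1 hs).2 v (mem_of_mem_erase hv)
  have hmean : ∑ s, p ^ (W s).card = n * p ^ 10 := by
    rw [sum_congr rfl fun s _ => by rw [hW], sum_const, card_univ, hSn, nsmul_eq_mul]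
  have hS : ∑ v, (useCount univ W v : ℝ) ^ 2 ≤ 10 * n + 10 * θ := by
    rw [sum_sq_useCount]
    have h1 : ∀ s s', ((W s ∩ W s').card : ℝ) ≤ (if s = s' then 10 else 0) +
        if Shared key (e (κ, s), e (κ, s')) then 10 else 0 := by
      intro s s'
      have h2 : ((W s ∩ W s').card : ℝ) ≤ 10 := by
        have : (W s ∩ W s').card ≤ 10 := (card_le_card inter_subset_left).trans (hW s).le
        exact_mod_cast this
      by_cases h3 : s = s'
      · rw [if_pos h3]
        split_ifs <;> linarith
      · rw [if_neg h3]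
        by_cases h4 : Shared key (e (κ, s), e (κ, s'))
        · rw [if_pos h4]
          linarith
        · rw [if_neg h4]
          have h5 : W s ∩ W s' = ∅ := by
            rw [eq_empty_iff_forall_notMem]
            intro v hv
            obtain ⟨hv1, hv2⟩ := mem_inter.1 hv
            obtain ⟨hv3, hv4⟩ := mem_erase.1 hv1
            have hv5 := mem_of_mem_erase hv2
            have hne : e (κ, s) ≠ e (κ, s') := fun h => h3 (Prod.mk.inj (he h)).2
            rcases mem_vars.1 hv4 with h6 | ⟨r1, h6⟩ <;>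
              rcases mem_vars.1 hv5 with h7 | ⟨r2, h7⟩
            · exact hne (Sum.inr.inj (hι (h6.symm.trans h7)))
            · exact absurd (hι (h7.trans h6)) (by simp)
            · exact absurd (hι (h6.trans h7)) (by simp)
            · have h8 := hι (h6.trans h7.symm)
              simp only [Sum.inl.injEq, Prod.mk.injEq] at h8
              obtain ⟨rfl, h9⟩ := h8
              refine h4 ⟨hne, r, r1, ?_, by rw [hke, hke], h9⟩
              rintro rfl
              rw [hke] at h6
              exact hv3 h6.symm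
          rw [h5]
          simp
    refine (sum_le_sum fun s _ => sum_le_sum fun s' _ => h1 s s').trans ?_
    simp only [sum_add_distrib]
    have h6 : ∑ s : S, ∑ s' : S, (if s = s' then (10 : ℝ) else 0) = 10 * n := by
      simp [hSn, mul_comm]
    have h7 : ∑ s : S, ∑ s' : S, (if Shared key (e (κ, s), e (κ, s')) then (10 : ℝ) else 0) =
        10 * fibPairs key e κ := by
      rw [← Fintype.sum_prod_type', ← sum_filter, sum_const, nsmul_eq_mul, mul_comm, fibPairs]
    rw [h6, h7]
    linarith
  have ht : 0 < ε * (n * p ^ 10) := by positivity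
  have h2 := on_upper (M := M) univ W _ _ _ ht hmean.le hS
  refine le_trans (card_filter_mono fun ω hω => ?_) h2
  have h3 : ((univ.filter fun s => Valid ι key ω (e (κ, s))).card : ℝ) ≤ onCount univ W ω := by
    exact_mod_cast hcount ω
  linarith [not_le.1 hω]

end S2

end Vale.Agent.P172V
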